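import Crest.Agent.R32.Defs

/-! Row 32: an alternating form of bounded rank that does not vanish on distinct triples. -/

set_option autoImplicit false

namespace Crest.Agent.R32

open Finset
open scoped Classical

/-- `f` is a sum of `m` products `a(s) b(t) c(r)`. -/
def Rk {R S : Type} [CommRing R] (m : ℕ) (f : S → S → S → R) : Prop :=
  ∃ a b c : Fin m → S → R, ∀ s t r, f s t r = ∑ j, a j s * b j t * c j r

theorem Rk.of_fintype {R S ι : Type} [CommRing R] [Fintype ι] {m : ℕ} (hm : Fintype.card ι = m)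
    {f : S → S → S → R} (a b c : ι → S → R)
    (h : ∀ s t r, f s t r = ∑ j, a j s * b j t * c j r) : Rk m f := by
  let e : ι ≃ Fin m := Fintype.equivFinOfCardEq hm
  refine ⟨fun j => a (e.symm j), fun j => b (e.symm j), fun j => c (e.symm j), fun s t r => ?_⟩
  rw [h]
  exact (Equiv.sum_comp e.symm fun j => a j s * b j t * c j r).symm

theorem Rk.mul {R S : Type} [CommRing R] {m n : ℕ} {f g : S → S → S → R} (hf : Rk m f)
    (hg : Rk n g) : Rk (m * n) fun s t r => f s t r * g s t r := by
  obtain ⟨a, b, c, h⟩ := hf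
  obtain ⟨a', b', c', h'⟩ := hg
  refine Rk.of_fintype (ι := Fin m × Fin n) (by simp)
    (fun j s => a j.1 s * a' j.2 s) (fun j s => b j.1 s * b' j.2 s)
    (fun j s => c j.1 s * c' j.2 s) fun s t r => ?_
  rw [h, h', sum_mul_sum, Fintype.sum_prod_type]
  exact sum_congr rfl fun i _ => sum_congr rfl fun j _ => by ring

theorem Rk.one {R S : Type} [CommRing R] : Rk 1 fun _ _ _ : S => (1 : R) :=
  ⟨fun _ _ => 1, fun _ _ => 1, fun _ _ => 1, fun _ _ _ => by simp⟩

theorem Rk.prod {R S ι : Type} [CommRing R] {m : ℕ} (T : Finset ι) (f : ι → S → S → S → R)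
    (hf : ∀ i, Rk m (f i)) : Rk (m ^ T.card) fun s t r => ∏ i ∈ T, f i s t r := by
  induction T using Finset.induction_on with
  | empty => simpa using Rk.one
  | insert i T hi ih =>
    have := (hf i).mul ih
    simp only [prod_insert hi, card_insert_of_notMem hi, pow_succ']
    exact this

theorem Rk.map {R R' S : Type} [CommRing R] [CommRing R'] {m : ℕ} {f : S → S → S → R}
    (hf : Rk m f) (φ : R →+* R') : Rk m fun s t r => φ (f s t r) := by
  obtain ⟨a, b, c, h⟩ := hf
  exact ⟨fun j s => φ (a j s), fun j s => φ (b j s), fun j s => φ (c j s), fun s t r => by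
    simp only [h, map_sum, map_mul]⟩

theorem Rk.descend {F K S : Type} [CommRing F] [CommRing K] [Algebra F K] {m d : ℕ}
    (e : Module.Basis (Fin d) F K) (l : K →ₗ[F] F) {f : S → S → S → K} (hf : Rk m f) :
    Rk (m * (d * (d * d))) fun s t r => l (f s t r) := by
  obtain ⟨a, b, c, h⟩ := hf
  refine Rk.of_fintype (ι := Fin m × Fin d × Fin d × Fin d) (by simp)
    (fun j s => l (e j.2.1 * e j.2.2.1 * e j.2.2.2) * e.repr (a j.1 s) j.2.1)
    (fun j s => e.repr (b j.1 s) j.2.2.1) (fun j s => e.repr (c j.1 s) j.2.2.2) fun s t r => ?_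
  rw [h, map_sum, Fintype.sum_prod_type]
  refine sum_congr rfl fun j _ => ?_
  have key : ∀ x y z : K, l (x * y * z) = ∑ u : Fin d × Fin d × Fin d,
      l (e u.1 * e u.2.1 * e u.2.2) * e.repr x u.1 * e.repr y u.2.1 * e.repr z u.2.2 := by
    intro x y z
    conv_lhs => rw [← e.sum_repr x, ← e.sum_repr y, ← e.sum_repr z]
    rw [sum_mul_sum, sum_mul, map_sum, Fintype.sum_prod_type]
    refine sum_congr rfl fun u _ => ?_
    rw [sum_mul_sum, map_sum, Fintype.sum_prod_type]
    refine sum_congr rfl fun v _ => ?_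
    rw [map_sum]
    refine sum_congr rfl fun w _ => ?_
    simp only [smul_mul_assoc, mul_smul_comm, map_smul, smul_eq_mul]
    ring
  exact key _ _ _

theorem rk_delta {K : Type} [CommRing K] :
    Rk 8 fun s t r : K => (s - t) * (t - r) * (r - s) := by
  have h1 : Rk 2 fun s t _ : K => s - t :=
    ⟨![fun s => s, fun _ => -1], ![fun _ => 1, fun t => t], fun _ _ => 1, fun s t r => by
      simp [Fin.sum_univ_two, sub_eq_add_neg]⟩
  have h2 : Rk 2 fun _ t r : K => t - r :=
    ⟨fun _ _ => 1, ![fun s => s, fun _ => -1], ![fun _ => 1, fun t => t], fun s t r => by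
      simp [Fin.sum_univ_two, sub_eq_add_neg]⟩
  have h3 : Rk 2 fun s _ r : K => r - s :=
    ⟨![fun _ => 1, fun t => t], fun _ _ => 1, ![fun s => s, fun _ => -1], fun s t r => by
      simp [Fin.sum_univ_two, sub_eq_add_neg]⟩
  exact (h1.mul h2).mul h3

theorem exists_tau : ∃ m : ℕ, ∀ p : ℕ, p.Prime → 3 < p →
    ∃ (S : Type) (_ : Fintype S) (α β γ : Fin m → S → ZMod p), Fintype.card S = p ^ 15 ∧
      ∀ s t r : S, s ≠ t → s ≠ r → t ≠ r →
        ∑ j : Fin m, ((β j t * γ j r - β j r * γ j t) * α j s +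
          (β j r * γ j s - β j s * γ j r) * α j t +
          (β j s * γ j t - β j t * γ j s) * α j r) ≠ 0 := by
  refine ⟨8 ^ 15 * (15 * (15 * 15)), fun p hp h3 => ?_⟩
  have : Fact p.Prime := ⟨hp⟩
  let K : Type := GaloisField p 15
  let _ : Fintype K := Fintype.ofFinite _
  have hrank : Module.finrank (ZMod p) K = 15 := GaloisField.finrank p (by norm_num)
  have hcard : Fintype.card K = p ^ 15 := by
    rw [← Nat.card_eq_fintype_card]; exact GaloisField.card p 15 (by norm_num)
  let e : Module.Basis (Fin 15) (ZMod p) K := Module.finBasisOfFinrankEq _ _ hrank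
  obtain ⟨l, hl⟩ := LinearMap.exists_leftInverse_of_injective (Algebra.linearMap (ZMod p) K)
    (LinearMap.ker_eq_bot.2 (algebraMap (ZMod p) K).injective)
  have hl' : ∀ x, l (algebraMap (ZMod p) K x) = x := fun x => LinearMap.congr_fun hl x
  have hG : (univ : Finset (K ≃ₐ[ZMod p] K)).card = 15 := by
    rw [card_univ, ← Nat.card_eq_fintype_card, IsGalois.card_aut_eq_finrank, hrank]
  have h1 := Rk.prod (univ : Finset (K ≃ₐ[ZMod p] K))
    (fun σ s t r => σ ((s - t) * (t - r) * (r - s)))
    fun σ => (rk_delta (K := K)).map (σ : K →+* K)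
  rw [hG] at h1
  have h2 := h1.descend e l
  have h3' : Rk (8 ^ 15 * (15 * (15 * 15)))
      fun s t r : K => Algebra.norm (ZMod p) ((s - t) * (t - r) * (r - s)) := by
    convert h2 using 4
    rw [← Algebra.norm_eq_prod_automorphisms, hl']
  obtain ⟨α, β, γ, h⟩ := h3'
  refine ⟨K, inferInstance, α, β, γ, hcard, fun s t r hst hsr htr => ?_⟩
  have hneg : ∀ x : K, Algebra.norm (ZMod p) (-x) = -Algebra.norm (ZMod p) x := by
    intro x
    have : (-x : K) = algebraMap (ZMod p) K (-1) * x := by
      rw [map_neg, map_one, neg_one_mul]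
    rw [this, map_mul, Algebra.norm_algebraMap, hrank]
    ring
  set N := Algebra.norm (ZMod p) ((s - t) * (t - r) * (r - s)) with hN
  have hN0 : N ≠ 0 := by
    rw [hN, Ne, Algebra.norm_eq_zero_iff]
    exact mul_ne_zero (mul_ne_zero (sub_ne_zero.2 hst) (sub_ne_zero.2 htr))
      (sub_ne_zero.2 hsr.symm)
  have e1 := h s t r
  have e2 := h s r t
  have e3 := h t r s
  have e4 := h t s r
  have e5 := h r s t
  have e6 := h r t s
  simp only at e1 e2 e3 e4 e5 e6
  rw [show (s - r) * (r - t) * (t - s) = -((s - t) * (t - r) * (r - s)) by ring, hneg] at e2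
  rw [show (t - r) * (r - s) * (s - t) = (s - t) * (t - r) * (r - s) by ring] at e3
  rw [show (t - s) * (s - r) * (r - t) = -((s - t) * (t - r) * (r - s)) by ring, hneg] at e4
  rw [show (r - s) * (s - t) * (t - r) = (s - t) * (t - r) * (r - s) by ring] at e5
  rw [show (r - t) * (t - s) * (s - r) = -((s - t) * (t - r) * (r - s)) by ring, hneg] at e6
  rw [← hN] at e1 e2 e3 e4 e5 e6
  have hsum : ∑ j, ((β j t * γ j r - β j r * γ j t) * α j s +
          (β j r * γ j s - β j s * γ j r) * α j t +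
          (β j s * γ j t - β j t * γ j s) * α j r) = ((6 : ℕ) : ZMod p) * N := by
    have : ∑ j, ((β j t * γ j r - β j r * γ j t) * α j s +
          (β j r * γ j s - β j s * γ j r) * α j t +
          (β j s * γ j t - β j t * γ j s) * α j r) =
        ∑ j, α j s * β j t * γ j r - ∑ j, α j s * β j r * γ j t + ∑ j, α j t * β j r * γ j s -
          ∑ j, α j t * β j s * γ j r + ∑ j, α j r * β j s * γ j t -
          ∑ j, α j r * β j t * γ j s := by
      simp only [← sum_sub_distrib, ← sum_add_distrib]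
      exact sum_congr rfl fun j _ => by ring
    rw [this, ← e1, ← e2, ← e3, ← e4, ← e5, ← e6]
    push_cast
    ring
  rw [hsum]
  refine mul_ne_zero ?_ hN0
  rw [Ne, ZMod.natCast_eq_zero_iff]
  intro hd
  have h23 : p ∣ 2 * 3 := hd
  rcases (Nat.Prime.dvd_mul hp).1 h23 with h | h
  · have := Nat.le_of_dvd (by norm_num) h; omega
  · have := Nat.le_of_dvd (by norm_num) h; omega

end Crest.Agent.R32
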