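import Crest.Agent.R32.Defs

/-! Row 32: elementary counting lemmas. -/

set_option autoImplicit false

namespace Crest.Agent.R32

open Finset
open scoped Classical

/-- a `δ`-separated family in an interval -/
theorem card_le_of_sep {α : Type*} (T : Finset α) (f : α → ℝ) (lo hi δ : ℝ) (hδ : 0 < δ)
    (hlh : lo ≤ hi) (hf : ∀ x ∈ T, lo ≤ f x ∧ f x ≤ hi)
    (hsep : ∀ x ∈ T, ∀ y ∈ T, x ≠ y → δ ≤ |f x - f y|) :
    (T.card : ℝ) ≤ (hi - lo) / δ + 1 := by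
  have h0 : 0 ≤ (hi - lo) / δ := div_nonneg (by linarith) hδ.le
  have h1 : T.card ≤ (range (⌊(hi - lo) / δ⌋₊ + 1)).card := by
    apply card_le_card_of_injOn (fun x => ⌊(f x - lo) / δ⌋₊)
    · intro x hx
      have := hf x hx
      simp only [coe_range, Set.mem_Iio]
      apply Nat.lt_succ_of_le
      apply Nat.floor_le_floor
      gcongr
      exact this.2
    · intro x hx y hy hxy
      by_contra hne
      have hs := hsep x hx y hy hne
      have a1 := hf x hx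
      have a2 := hf y hy
      have p1 : 0 ≤ (f x - lo) / δ := div_nonneg (by linarith) hδ.le
      have p2 : 0 ≤ (f y - lo) / δ := div_nonneg (by linarith) hδ.le
      have b1 := Nat.floor_le p1
      have b2 := Nat.lt_floor_add_one ((f x - lo) / δ)
      have b3 := Nat.floor_le p2
      have b4 := Nat.lt_floor_add_one ((f y - lo) / δ)
      simp only at hxy
      rw [hxy] at b1 b2
      have c1 : |(f x - lo) / δ - (f y - lo) / δ| < 1 := by
        rw [abs_lt]; constructor <;> linarith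
      have c2 : (f x - lo) / δ - (f y - lo) / δ = (f x - f y) / δ := by ring
      rw [c2, abs_div, abs_of_pos hδ, div_lt_one hδ] at c1
      linarith
  rw [card_range] at h1
  have h2 : (T.card : ℝ) ≤ ⌊(hi - lo) / δ⌋₊ + 1 := by exact_mod_cast h1
  linarith [Nat.floor_le h0]

theorem le_abs_of_dvd_sub {q : ℕ} {x y : ℤ} (h : (q : ℤ) ∣ x - y) (hne : x ≠ y) :
    (q : ℝ) ≤ |(x : ℝ) - y| := by
  have h1 : (q : ℤ) ≤ |x - y| :=
    Int.le_of_dvd (abs_pos.2 (sub_ne_zero.2 hne)) ((dvd_abs _ _).2 h)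
  have h2 : ((q : ℤ) : ℝ) ≤ ((|x - y| : ℤ) : ℝ) := by exact_mod_cast h1
  simpa using h2

theorem card_modEq_le (a b r : ℤ) (q : ℕ) (hq : 0 < q) (hab : a ≤ b) :
    ((((Ico a b).filter fun c => c ≡ r [ZMOD q]).card : ℕ) : ℝ) ≤ ((b : ℝ) - a) / q + 1 := by
  apply card_le_of_sep _ (fun c : ℤ => (c : ℝ)) a b q (by exact_mod_cast hq) (by exact_mod_cast hab)
  · intro x hx
    simp only [mem_filter, mem_Ico] at hx
    exact ⟨by exact_mod_cast hx.1.1, by exact_mod_cast hx.1.2.le⟩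
  · intro x hx y hy hne
    simp only [mem_filter, mem_Ico] at hx hy
    exact le_abs_of_dvd_sub (hy.2.trans hx.2.symm).dvd hne

theorem card_dvd_lin_le (a b r s : ℤ) (q : ℕ) (hq : 0 < q) (hab : a ≤ b)
    (hs : IsCoprime s (q : ℤ)) :
    ((((Ico a b).filter fun c => (q : ℤ) ∣ r + s * c).card : ℕ) : ℝ) ≤ ((b : ℝ) - a) / q + 1 := by
  apply card_le_of_sep _ (fun c : ℤ => (c : ℝ)) a b q (by exact_mod_cast hq) (by exact_mod_cast hab)
  · intro x hx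
    simp only [mem_filter, mem_Ico] at hx
    exact ⟨by exact_mod_cast hx.1.1, by exact_mod_cast hx.1.2.le⟩
  · intro x hx y hy hne
    simp only [mem_filter, mem_Ico] at hx hy
    apply le_abs_of_dvd_sub _ hne
    have h1 : (q : ℤ) ∣ s * (x - y) := by
      have := dvd_sub hx.2 hy.2
      have e : r + s * x - (r + s * y) = s * (x - y) := by ring
      rwa [e] at this
    exact hs.symm.dvd_of_dvd_mul_left h1

/-- integers `c` (in any finite set) with `|s c + r| ≤ B` -/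
theorem card_abs_lin_le (T : Finset ℤ) (r s : ℤ) (B : ℝ) (hs : 0 < s) (hB : 0 ≤ B) :
    (((T.filter fun c => |((s * c + r : ℤ) : ℝ)| ≤ B).card : ℕ) : ℝ) ≤ 2 * B / s + 1 := by
  have hs' : (0 : ℝ) < s := by exact_mod_cast hs
  have := card_le_of_sep (T.filter fun c => |((s * c + r : ℤ) : ℝ)| ≤ B)
    (fun c : ℤ => ((s * c + r : ℤ) : ℝ)) (-B) B s hs' (by linarith) ?_ ?_
  · have e : B - -B = 2 * B := by ring
    rwa [e] at this
  · intro x hx
    exact abs_le.1 (mem_filter.1 hx).2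
  · intro x _ y _ hne
    have h1 : (1 : ℤ) ≤ |x - y| := Int.one_le_abs (sub_ne_zero.2 hne)
    have h2 : (1 : ℝ) ≤ |(x : ℝ) - y| := by exact_mod_cast h1
    have e : ((s * x + r : ℤ) : ℝ) - ((s * y + r : ℤ) : ℝ) = s * ((x : ℝ) - y) := by
      push_cast; ring
    rw [e, abs_mul, abs_of_pos hs']
    nlinarith

theorem sub_eq_cross (w Y Z : V3) (hw : dot w Z = 1) :
    Y.1 - dot w Y * Z.1 = (cross w (cross Y Z)).1 ∧
    Y.2.1 - dot w Y * Z.2.1 = (cross w (cross Y Z)).2.1 ∧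
    Y.2.2 - dot w Y * Z.2.2 = (cross w (cross Y Z)).2.2 := by
  simp only [dot, cross] at hw ⊢
  refine ⟨?_, ?_, ?_⟩
  · linear_combination (-Y.1) * hw
  · linear_combination (-Y.2.1) * hw
  · linear_combination (-Y.2.2) * hw

theorem ell_congr {W : ℕ} {Y Y' Z Z' : V3}
    (hY : Y.1 ≡ Y'.1 [ZMOD W] ∧ Y.2.1 ≡ Y'.2.1 [ZMOD W] ∧ Y.2.2 ≡ Y'.2.2 [ZMOD W])
    (hZ : Z.1 ≡ Z'.1 [ZMOD W] ∧ Z.2.1 ≡ Z'.2.1 [ZMOD W] ∧ Z.2.2 ≡ Z'.2.2 [ZMOD W]) :
    ell W Y Z = ell W Y' Z' := by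
  have key : ∀ {Y Y' Z Z' : V3},
      (Y.1 ≡ Y'.1 [ZMOD W] ∧ Y.2.1 ≡ Y'.2.1 [ZMOD W] ∧ Y.2.2 ≡ Y'.2.2 [ZMOD W]) →
      (Z.1 ≡ Z'.1 [ZMOD W] ∧ Z.2.1 ≡ Z'.2.1 [ZMOD W] ∧ Z.2.2 ≡ Z'.2.2 [ZMOD W]) →
      ell W Y Z ∣ ell W Y' Z' := by
    intro Y Y' Z Z' hY hZ
    have d0 : ((ell W Y Z : ℕ) : ℤ) ∣ (W : ℤ) := Int.natCast_dvd_natCast.2 (Nat.gcd_dvd_left _ _)
    have d1 : ((ell W Y Z : ℕ) : ℤ) ∣ ((Int.gcd (cross Y Z).1 (cross Y Z).2.2 : ℕ) : ℤ) :=
      Int.natCast_dvd_natCast.2 (Nat.gcd_dvd_right _ _)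
    have e1 : (cross Y Z).1 ≡ (cross Y' Z').1 [ZMOD W] :=
      (hY.2.1.mul hZ.2.2).sub (hY.2.2.mul hZ.2.1)
    have e3 : (cross Y Z).2.2 ≡ (cross Y' Z').2.2 [ZMOD W] :=
      (hY.1.mul hZ.2.1).sub (hY.2.1.mul hZ.1)
    have f1 : ((ell W Y Z : ℕ) : ℤ) ∣ (cross Y' Z').1 :=
      ((e1.of_dvd d0).dvd_iff).1 (d1.trans (Int.gcd_dvd_left _ _))
    have f3 : ((ell W Y Z : ℕ) : ℤ) ∣ (cross Y' Z').2.2 :=
      ((e3.of_dvd d0).dvd_iff).1 (d1.trans (Int.gcd_dvd_right _ _))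
    exact Nat.dvd_gcd (Nat.gcd_dvd_left _ _) (Int.dvd_gcd f1 f3)
  exact Nat.dvd_antisymm (key hY hZ)
    (key ⟨hY.1.symm, hY.2.1.symm, hY.2.2.symm⟩ ⟨hZ.1.symm, hZ.2.1.symm, hZ.2.2.symm⟩)

/-- Lattice points of an affine plane in a box, when two short vectors of the plane are known. -/
theorem count_dot_le {m v v' : V3} {L : ℕ} (hm : Prim m) (h3 : 0 < m.2.2)
    (hv : dot m v = 0) (hv' : dot m v' = 0) (hind : v.1 * v'.2.1 - v.2.1 * v'.1 ≠ 0)
    (b1 : |v.1| ≤ L) (b2 : |v.2.1| ≤ L) (b1' : |v'.1| ≤ L) (b2' : |v'.2.1| ≤ L) (r : ℤ) :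
    ((((box L).filter fun c => dot m c = r).card : ℕ) : ℝ) ≤ 25 * (L : ℝ) ^ 2 / (m.2.2 : ℝ) := by
  obtain ⟨w, hw⟩ := hm
  simp only [dot] at hv hv' hw
  set H := m.2.2 with hH
  -- every residue class has a short representative
  have rep : ∀ k : ℤ, ∃ ρ : ℤ × ℤ, |ρ.1| ≤ 2 * L ∧ |ρ.2| ≤ 2 * L ∧
      m.1 * ρ.1 + m.2.1 * ρ.2 ≡ k [ZMOD H] := by
    intro k
    set Δ : ℤ := v.1 * v'.2.1 - v.2.1 * v'.1 with hΔ
    have hΔ' : (Δ : ℝ) ≠ 0 := by exact_mod_cast hind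
    set a : ℤ := k * w.1
    set b : ℤ := k * w.2.1
    set s : ℝ := ((a * v'.2.1 - b * v'.1 : ℤ) : ℝ) / Δ with hs
    set t : ℝ := ((b * v.1 - a * v.2.1 : ℤ) : ℝ) / Δ with ht
    have ea : (a : ℝ) = s * v.1 + t * v'.1 := by
      rw [hs, ht]; field_simp; rw [hΔ]; push_cast; ring
    have eb : (b : ℝ) = s * v.2.1 + t * v'.2.1 := by
      rw [hs, ht]; field_simp; rw [hΔ]; push_cast; ring
    have bd : ∀ x y : ℤ, |x| ≤ L → |y| ≤ L → |Int.fract s * x + Int.fract t * y| ≤ 2 * (L : ℝ) := by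
      intro x y hx hy
      have hx' : |(x : ℝ)| ≤ L := by exact_mod_cast hx
      have hy' : |(y : ℝ)| ≤ L := by exact_mod_cast hy
      have f1 := Int.fract_nonneg s
      have f2 := Int.fract_lt_one s
      have f3 := Int.fract_nonneg t
      have f4 := Int.fract_lt_one t
      calc |Int.fract s * x + Int.fract t * y| ≤ |Int.fract s * x| + |Int.fract t * y| :=
            abs_add_le _ _
        _ = Int.fract s * |(x : ℝ)| + Int.fract t * |(y : ℝ)| := by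
            rw [abs_mul, abs_mul, abs_of_nonneg f1, abs_of_nonneg f3]
        _ ≤ 1 * L + 1 * L := by gcongr
        _ = 2 * L := by ring
    refine ⟨(a - ⌊s⌋ * v.1 - ⌊t⌋ * v'.1, b - ⌊s⌋ * v.2.1 - ⌊t⌋ * v'.2.1), ?_, ?_, ?_⟩
    · have h1 := bd _ _ b1 b1'
      have e : ((a - ⌊s⌋ * v.1 - ⌊t⌋ * v'.1 : ℤ) : ℝ) = Int.fract s * v.1 + Int.fract t * v'.1 := by
        push_cast; rw [ea]; simp only [Int.fract]; ring
      rw [← e] at h1
      exact_mod_cast h1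
    · have h1 := bd _ _ b2 b2'
      have e : ((b - ⌊s⌋ * v.2.1 - ⌊t⌋ * v'.2.1 : ℤ) : ℝ) =
          Int.fract s * v.2.1 + Int.fract t * v'.2.1 := by
        push_cast; rw [eb]; simp only [Int.fract]; ring
      rw [← e] at h1
      exact_mod_cast h1
    · apply Int.ModEq.symm
      rw [Int.modEq_iff_dvd]
      refine ⟨-k * w.2.2 + ⌊s⌋ * v.2.2 + ⌊t⌋ * v'.2.2, ?_⟩
      simp only [a, b]
      linear_combination k * hw - ⌊s⌋ * hv - ⌊t⌋ * hv'
  choose ρ hρ using rep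
  have hc : (((box L).filter fun c => dot m c = r) ×ˢ Ico (0 : ℤ) H).card ≤
      (Ico (-2 * L : ℤ) (3 * L) ×ˢ Ico (-2 * L : ℤ) (3 * L)).card := by
    apply card_le_card_of_injOn (fun x => (x.1.1 + (ρ x.2).1, x.1.2.1 + (ρ x.2).2))
    · rintro ⟨c, k⟩ hx
      simp only [coe_product, Set.mem_prod, mem_coe, mem_filter, mem_box, Btw, mem_Ico] at hx ⊢
      obtain ⟨a1, a2, -⟩ := hρ k
      have a3 := abs_le.1 a1
      have a4 := abs_le.1 a2
      omega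
    · rintro ⟨c, k⟩ hx ⟨c', k'⟩ hy hxy
      simp only [coe_product, Set.mem_prod, mem_coe, mem_filter, mem_box, Btw, mem_Ico, dot,
        Prod.mk.injEq] at hx hy hxy
      have e1 := (hρ k).2.2.dvd
      have e2 := (hρ k').2.2.dvd
      have hk : H ∣ k - k' := by
        have : k - k' = (k - (m.1 * (ρ k).1 + m.2.1 * (ρ k).2)) -
            (k' - (m.1 * (ρ k').1 + m.2.1 * (ρ k').2)) + H * (c.2.2 - c'.2.2) := by
          linear_combination m.1 * hxy.1 + m.2.1 * hxy.2 - hx.1.2 + hy.1.2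
        rw [this]
        exact dvd_add (dvd_sub e1 e2) (dvd_mul_right _ _)
      have hkk : k = k' := by
        by_contra hne
        have := Int.le_of_dvd (abs_pos.2 (sub_ne_zero.2 hne)) ((dvd_abs _ _).2 hk)
        have := abs_lt.2 (⟨by omega, by omega⟩ : -H < k - k' ∧ k - k' < H)
        omega
      subst hkk
      have c1 : c.1 = c'.1 := by omega
      have c2 : c.2.1 = c'.2.1 := by omega
      have c3 : c.2.2 = c'.2.2 := by
        apply mul_left_cancel₀ h3.ne'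
        linear_combination hx.1.2 - hy.1.2 - m.1 * c1 - m.2.1 * c2
      exact Prod.ext (Prod.ext c1 (Prod.ext c2 c3)) rfl
  rw [card_product, card_product, Int.card_Ico, Int.card_Ico] at hc
  have e5 : (3 * L - -2 * L : ℤ).toNat = 5 * L := by omega
  rw [e5] at hc
  have hH' : (0 : ℝ) < H := by exact_mod_cast h3
  rw [le_div_iff₀ hH']
  have e6 : (((H - 0).toNat : ℕ) : ℝ) = H := by
    have : (((H - 0).toNat : ℕ) : ℤ) = H := by omega
    exact_mod_cast this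
  have hc' : ((((box L).filter fun c => dot m c = r).card : ℕ) : ℝ) * (((H - 0).toNat : ℕ) : ℝ) ≤
      (5 * L) * (5 * L) := by exact_mod_cast hc
  rw [e6] at hc'
  linarith

theorem count_dot_le' {m : V3} {L : ℕ} (hm : Prim m) (h3 : 0 < m.2.2) (hL : m.2.2 ≤ L) (r : ℤ) :
    ((((box L).filter fun c => dot m c = r).card : ℕ) : ℝ) ≤ 25 * (L : ℝ) ^ 2 / (m.2.2 : ℝ) := by
  have a : |m.2.2| ≤ L := by rw [abs_of_pos h3]; exact hL
  apply count_dot_le (v := (m.2.2, 0, -m.1)) (v' := (0, m.2.2, -m.2.1)) hm h3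
  · simp only [dot]; ring
  · simp only [dot]; ring
  · simpa using h3.ne'
  · exact a
  · simp
  · simp
  · exact a

/-- From a bound on the counting function to a harmonic bound. -/
theorem sum_inv_pow_le (S : Finset V3) (k R₁ R : ℕ) (κ : ℝ) (hκ : 0 ≤ κ) (hR₁ : 1 ≤ R₁)
    (hS : ∀ m ∈ S, (R₁ : ℤ) ≤ m.2.2 ∧ m.2.2 ≤ R)
    (hN : ∀ ρ : ℕ, R₁ ≤ ρ → (((S.filter fun m : V3 => m.2.2 ≤ (ρ : ℤ)).card : ℕ) : ℝ) ≤ κ * (ρ : ℝ) ^ k) :
    ∑ m ∈ S, (1 : ℝ) / (m.2.2 : ℝ) ^ k ≤ 2 ^ (k + 1) * κ * Har (2 * R) := by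
  have h1 : ∀ m ∈ S, (1 : ℝ) / (m.2.2 : ℝ) ^ k ≤
      ∑ ρ ∈ Icc R₁ (2 * R), if m.2.2 ≤ (ρ : ℤ) then (2 : ℝ) ^ (k + 1) / (ρ : ℝ) ^ (k + 1) else 0 := by
    intro m hm
    obtain ⟨a1, a2⟩ := hS m hm
    obtain ⟨H, hH⟩ : ∃ H : ℕ, m.2.2 = H := ⟨m.2.2.toNat, by omega⟩
    rw [hH] at a1 a2 ⊢
    have hH1 : 1 ≤ H := by omega
    have hH' : (0 : ℝ) < H := by exact_mod_cast hH1
    rw [← sum_filter]
    calc (1 : ℝ) / ((H : ℤ) : ℝ) ^ k = ∑ ρ ∈ Ico H (2 * H), 1 / (H : ℝ) ^ (k + 1) := by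
          rw [sum_const, Nat.card_Ico, nsmul_eq_mul]
          have : 2 * H - H = H := by omega
          rw [this]; push_cast; field_simp; ring
      _ ≤ ∑ ρ ∈ Ico H (2 * H), (2 : ℝ) ^ (k + 1) / (ρ : ℝ) ^ (k + 1) := by
          apply sum_le_sum
          intro ρ hρ
          rw [mem_Ico] at hρ
          have hρ0 : (0 : ℝ) < ρ := by exact_mod_cast (by omega : 0 < ρ)
          have hρ1 : (ρ : ℝ) ≤ 2 * H := by exact_mod_cast hρ.2.le
          rw [div_le_div_iff₀ (by positivity) (by positivity), one_mul, ← mul_pow]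
          gcongr
      _ ≤ _ := by
          apply sum_le_sum_of_subset_of_nonneg
          · intro ρ hρ
            simp only [mem_Ico, mem_filter, mem_Icc] at hρ ⊢
            omega
          · intros; positivity
  refine (sum_le_sum h1).trans ?_
  rw [sum_comm]
  calc _ ≤ ∑ ρ ∈ Icc R₁ (2 * R), 2 ^ (k + 1) * κ * ((1 : ℝ) / ρ) := by
        apply sum_le_sum
        intro ρ hρ
        rw [mem_Icc] at hρ
        have hρ0 : (0 : ℝ) < ρ := by exact_mod_cast (by omega : 0 < ρ)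
        rw [← sum_filter, sum_const, nsmul_eq_mul]
        calc _ ≤ κ * (ρ : ℝ) ^ k * ((2 : ℝ) ^ (k + 1) / (ρ : ℝ) ^ (k + 1)) := by
              gcongr
              exact hN ρ hρ.1
          _ = _ := by field_simp; ring
    _ ≤ ∑ ρ ∈ Icc 1 (2 * R), 2 ^ (k + 1) * κ * ((1 : ℝ) / ρ) := by
        apply sum_le_sum_of_subset_of_nonneg (Icc_subset_Icc_left hR₁)
        intros; positivity
    _ = _ := by rw [Har, mul_sum]

end Crest.Agent.R32
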