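import Mathlib

/-! Row 32 (Heilbronn triangle lower bound): shared definitions. -/

set_option autoImplicit false

namespace Crest.Agent.R32

open Finset
open scoped Classical

/-- integer vectors -/
abbrev V3 : Type := ℤ × ℤ × ℤ

/-- dot product -/
def dot (a b : V3) : ℤ := a.1 * b.1 + a.2.1 * b.2.1 + a.2.2 * b.2.2

/-- cross product -/
def cross (a b : V3) : V3 :=
  (a.2.1 * b.2.2 - a.2.2 * b.2.1, a.2.2 * b.1 - a.1 * b.2.2, a.1 * b.2.1 - a.2.1 * b.1)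

/-- sum of the entries -/
def sm (a : V3) : ℤ := a.1 + a.2.1 + a.2.2

/-- primitive vector -/
def Prim (m : V3) : Prop := ∃ w : V3, dot w m = 1

/-- the integer box `[0, L)^3` -/
noncomputable def box (L : ℕ) : Finset V3 := Ico (0 : ℤ) L ×ˢ Ico (0 : ℤ) L ×ˢ Ico (0 : ℤ) L

/-- `b + W c` -/
def lift (W : ℕ) (b c : V3) : V3 :=
  (b.1 + W * c.1, b.2.1 + W * c.2.1, b.2.2 + W * c.2.2)

/-- `b + W (L + c)` -/
def liftZ (W L : ℕ) (b c : V3) : V3 :=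
  (b.1 + W * (L + c.1), b.2.1 + W * (L + c.2.1), b.2.2 + W * (L + c.2.2))

/-- all entries lie in `[a, b)` -/
def Btw (a b : ℤ) (v : V3) : Prop :=
  (a ≤ v.1 ∧ v.1 < b) ∧ (a ≤ v.2.1 ∧ v.2.1 < b) ∧ (a ≤ v.2.2 ∧ v.2.2 < b)

/-- all entries are coprime to `W` -/
def Cop (W : ℕ) (v : V3) : Prop :=
  IsCoprime v.1 (W : ℤ) ∧ IsCoprime v.2.1 (W : ℤ) ∧ IsCoprime v.2.2 (W : ℤ)

/-- all entries are non-zero and the third one is the largest in absolute value -/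
def Mx (M : V3) : Prop := M.1 ≠ 0 ∧ M.2.1 ≠ 0 ∧ |M.1| ≤ |M.2.2| ∧ |M.2.1| ≤ |M.2.2|

/-- gcd of the entries -/
def gcd3 (v : V3) : ℕ := Nat.gcd (Int.gcd v.1 v.2.1) v.2.2.natAbs

/-- the primitive vector in the direction of `M` with positive third entry -/
def prim (M : V3) : V3 :=
  (M.2.2.sign * (M.1 / gcd3 M), M.2.2.sign * (M.2.1 / gcd3 M), M.2.2.sign * (M.2.2 / gcd3 M))

/-- `gcd (W, M₁, M₃)` for `M = Y × Z` -/
def ell (W : ℕ) (Y Z : V3) : ℕ :=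
  Nat.gcd W (Int.gcd (cross Y Z).1 (cross Y Z).2.2)

/-- harmonic sum -/
noncomputable def Har (R : ℕ) : ℝ := ∑ k ∈ Icc 1 R, (1 : ℝ) / k

/-- primitive vectors with non-zero entries whose third entry is positive, largest and `≤ R` -/
noncomputable def rel (R : ℕ) : Finset V3 :=
  (Icc (-(R : ℤ)) R ×ˢ Icc (-(R : ℤ)) R ×ˢ Icc (1 : ℤ) R).filter fun m => Prim m ∧ Mx m

theorem mem_box {L : ℕ} {c : V3} : c ∈ box L ↔ Btw 0 L c := by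
  simp only [box, Btw, mem_product, mem_Ico]

theorem card_box (L : ℕ) : (box L).card = L ^ 3 := by
  simp only [box, card_product, Int.card_Ico, sub_zero, Int.toNat_natCast]; ring

theorem mem_rel {R : ℕ} {m : V3} :
    m ∈ rel R ↔ Prim m ∧ Mx m ∧ 0 < m.2.2 ∧ m.2.2 ≤ R := by
  simp only [rel, mem_filter, mem_product, mem_Icc, Mx]
  constructor
  · rintro ⟨⟨-, -, h1, h2⟩, h3, h4⟩
    exact ⟨h3, h4, h1, h2⟩
  · rintro ⟨h3, h4, h1, h2⟩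
    have e : |m.2.2| = m.2.2 := abs_of_pos h1
    have a := abs_le.1 (h4.2.2.1.trans (e.le.trans h2))
    have b := abs_le.1 (h4.2.2.2.trans (e.le.trans h2))
    exact ⟨⟨a, b, h1, h2⟩, h3, h4⟩

theorem gcd3_dvd (v : V3) :
    ((gcd3 v : ℕ) : ℤ) ∣ v.1 ∧ ((gcd3 v : ℕ) : ℤ) ∣ v.2.1 ∧ ((gcd3 v : ℕ) : ℤ) ∣ v.2.2 := by
  have h1 : ((gcd3 v : ℕ) : ℤ) ∣ ((Int.gcd v.1 v.2.1 : ℕ) : ℤ) :=
    Int.natCast_dvd_natCast.2 (Nat.gcd_dvd_left _ _)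
  exact ⟨h1.trans (Int.gcd_dvd_left _ _), h1.trans (Int.gcd_dvd_right _ _),
    Int.natCast_dvd.2 (Nat.gcd_dvd_right _ _)⟩

theorem exists_dot_eq_gcd3 (v : V3) : ∃ w : V3, dot w v = gcd3 v := by
  have h1 := Int.gcd_eq_gcd_ab v.1 v.2.1
  have h2 := Int.gcd_eq_gcd_ab ((Int.gcd v.1 v.2.1 : ℕ) : ℤ) v.2.2
  have e : gcd3 v = Int.gcd ((Int.gcd v.1 v.2.1 : ℕ) : ℤ) v.2.2 := by
    simp [gcd3, Int.gcd]
  refine ⟨(Int.gcdA v.1 v.2.1 * Int.gcdA ((Int.gcd v.1 v.2.1 : ℕ) : ℤ) v.2.2,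
    Int.gcdB v.1 v.2.1 * Int.gcdA ((Int.gcd v.1 v.2.1 : ℕ) : ℤ) v.2.2,
    Int.gcdB ((Int.gcd v.1 v.2.1 : ℕ) : ℤ) v.2.2), ?_⟩
  rw [e, h2]
  simp only [dot]
  linear_combination (-Int.gcdA ((Int.gcd v.1 v.2.1 : ℕ) : ℤ) v.2.2) * h1

theorem gcd3_pos {v : V3} (h : v.2.2 ≠ 0) : 0 < gcd3 v :=
  Nat.gcd_pos_of_pos_right _ (Int.natAbs_pos.2 h)

/-- A vector with non-zero third entry is `± gcd3` times the primitive vector `prim M`. -/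
theorem prim_spec {M : V3} (h : M.2.2 ≠ 0) :
    Prim (prim M) ∧ 0 < (prim M).2.2 ∧ ∃ g : ℤ, |g| = gcd3 M ∧
      M.1 = g * (prim M).1 ∧ M.2.1 = g * (prim M).2.1 ∧ M.2.2 = g * (prim M).2.2 := by
  obtain ⟨⟨a, ha⟩, ⟨b, hb⟩, ⟨c, hc⟩⟩ := gcd3_dvd M
  obtain ⟨w, hw⟩ := exists_dot_eq_gcd3 M
  have hg : (0 : ℤ) < gcd3 M := by exact_mod_cast gcd3_pos h
  have e1 : M.1 / gcd3 M = a := by rw [Int.ediv_eq_iff_eq_mul_right hg.ne' ⟨a, ha⟩]; exact ha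
  have e2 : M.2.1 / gcd3 M = b := by rw [Int.ediv_eq_iff_eq_mul_right hg.ne' ⟨b, hb⟩]; exact hb
  have e3 : M.2.2 / gcd3 M = c := by rw [Int.ediv_eq_iff_eq_mul_right hg.ne' ⟨c, hc⟩]; exact hc
  have hss : M.2.2.sign * M.2.2.sign = 1 := by
    rcases lt_or_gt_of_ne h with h1 | h1
    · simp [Int.sign_eq_neg_one_of_neg h1]
    · simp [Int.sign_eq_one_of_pos h1]
  have hw1 : w.1 * a + w.2.1 * b + w.2.2 * c = 1 := by
    apply mul_left_cancel₀ hg.ne'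
    simp only [dot] at hw
    linear_combination hw - w.1 * ha - w.2.1 * hb - w.2.2 * hc
  simp only [prim, e1, e2, e3]
  refine ⟨⟨(M.2.2.sign * w.1, M.2.2.sign * w.2.1, M.2.2.sign * w.2.2), ?_⟩, ?_,
    M.2.2.sign * gcd3 M, ?_, ?_, ?_, ?_⟩
  · simp only [dot]
    linear_combination (w.1 * a + w.2.1 * b + w.2.2 * c) * hss + hw1
  · have h1 : 0 < M.2.2.sign * M.2.2 := by
      rw [Int.sign_mul_self_eq_natAbs]; exact_mod_cast Int.natAbs_pos.2 h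
    have h2 : M.2.2.sign * M.2.2 = gcd3 M * (M.2.2.sign * c) := by linear_combination M.2.2.sign * hc
    rw [h2] at h1
    exact (mul_pos_iff_of_pos_left hg).1 h1
  · rw [abs_mul, Int.abs_sign_of_ne_zero h, one_mul, abs_of_pos hg]
  · linear_combination ha - gcd3 M * a * hss
  · linear_combination hb - gcd3 M * b * hss
  · linear_combination hc - gcd3 M * c * hss

theorem Har_nonneg (R : ℕ) : 0 ≤ Har R := sum_nonneg fun _ _ => by positivity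

theorem Har_mono {R R' : ℕ} (h : R ≤ R') : Har R ≤ Har R' :=
  sum_le_sum_of_subset_of_nonneg (Icc_subset_Icc_right h) fun _ _ _ => by positivity

theorem one_le_Har {R : ℕ} (h : 1 ≤ R) : 1 ≤ Har R := by
  have := Har_mono h
  simpa [Har] using this

theorem Har_le (R : ℕ) : Har R ≤ 1 + Real.log R := by
  have := harmonic_le_one_add_log R
  rw [harmonic_eq_sum_Icc] at this
  simpa [Har] using this

/-- The data modulo `F`: classes, and the triples of classes that can carry a small determinant. -/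
def FData (F A : ℕ) (ε : ℝ) : Prop :=
  ∃ (Γ : Type) (_ : Fintype Γ) (_ : Nonempty Γ) (DX DY DZ : Γ → ℤ) (Deg : Γ → Γ → Γ → Prop),
    (∀ γ, IsCoprime (DZ γ) (F : ℤ)) ∧
    (∀ (γ₁ γ₂ γ₃ : Γ) (t : ℤ), |t| ≤ A →
      t ≡ dot (cross (DY γ₁, DY γ₂, DY γ₃) (DZ γ₁, DZ γ₂, DZ γ₃)) (DX γ₁, DX γ₂, DX γ₃) [ZMOD F] →
      Deg γ₁ γ₂ γ₃) ∧
    (∑ γ ∈ (univ : Finset (Γ × Γ × Γ)).filter (fun γ => Deg γ.1 γ.2.1 γ.2.2),
      (ell F (DY γ.1, DY γ.2.1, DY γ.2.2) (DZ γ.1, DZ γ.2.1, DZ γ.2.2) : ℝ)) ≤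
        ε * (Fintype.card Γ : ℝ) ^ 3

/-- the residues `(y, z)` modulo `Q` with `z ≠ 0` -/
noncomputable def EQ (Q : ℕ) [NeZero Q] : Finset (ZMod Q × ZMod Q) := univ.filter fun a => a.2 ≠ 0

/-- the quadratic form `y² - ν z²` -/
def qf {Q : ℕ} (ν : ZMod Q) (a : ZMod Q × ZMod Q) : ZMod Q := a.1 ^ 2 - ν * a.2 ^ 2

/-- the sum over relations that appears in the lifting bound -/
noncomputable def Trel (W Wz R : ℕ) (bx by' bz : V3) : ℝ :=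
  ∑ m ∈ (rel R).filter (fun m => (W : ℤ) ∣ dot m bx ∧ (W : ℤ) ∣ dot m by' ∧ (Wz : ℤ) ∣ dot m bz),
    (1 : ℝ) / (m.2.2 : ℝ) ^ 3

end Crest.Agent.R32
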