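import Crest.Agent.R32.Defs

/-! Row 32: the deletion method and the passage to points of the unit square. -/

set_option autoImplicit false

namespace Crest.Agent.R32

open Finset
open scoped Classical

theorem del_sum_update {ι β : Type} [Fintype ι] [DecidableEq ι] [Fintype β] (i : ι) (F : (ι → β) → ℝ) :
    (Fintype.card β : ℝ) * ∑ g, F g = ∑ g, ∑ a, F (Function.update g i a) := by
  have hinv : Function.Involutive fun p : (ι → β) × β => (Function.update p.1 i p.2, p.1 i) := by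
    rintro ⟨g, a⟩; simp
  rw [← Fintype.sum_prod_type' fun g a => F (Function.update g i a)]
  have := Equiv.sum_comp hinv.toPerm fun p : (ι → β) × β => F p.1
  simp only [Function.Involutive.coe_toPerm] at this
  rw [this, Fintype.sum_prod_type]
  simp [Finset.mul_sum]

theorem del_sum2 {ι β : Type} [Fintype ι] [DecidableEq ι] [Fintype β] {i j : ι} (hij : i ≠ j) (F : β → β → ℝ) :
    (Fintype.card β : ℝ) ^ 2 * ∑ g : ι → β, F (g i) (g j) =
      Fintype.card (ι → β) * ∑ a, ∑ b, F a b := by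
  rw [pow_two, mul_assoc, del_sum_update j, del_sum_update i]
  simp [Function.update_of_ne hij]

theorem del_sum3 {ι β : Type} [Fintype ι] [DecidableEq ι] [Fintype β] {i j k : ι} (hij : i ≠ j) (hik : i ≠ k)
    (hjk : j ≠ k) (F : β → β → β → ℝ) :
    (Fintype.card β : ℝ) ^ 3 * ∑ g : ι → β, F (g i) (g j) (g k) =
      Fintype.card (ι → β) * ∑ a, ∑ b, ∑ c, F a b c := by
  rw [pow_succ', mul_assoc, pow_two, mul_assoc, del_sum_update k, del_sum_update j,
    del_sum_update i]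
  simp [Function.update_of_ne hij, Function.update_of_ne hik,
    Function.update_of_ne hjk]

theorem deletion {α : Type} (Ω : Finset α) (hΩ : Ω.Nonempty) (P2 : α → α → Prop)
    (P3 : α → α → α → Prop) (κ2 κ3 : ℝ) (n : ℕ)
    (h2 : ((((Ω ×ˢ Ω).filter fun ω => P2 ω.1 ω.2).card : ℕ) : ℝ) ≤ κ2 * (Ω.card : ℝ) ^ 2)
    (h3 : ((((Ω ×ˢ Ω ×ˢ Ω).filter fun ω => P3 ω.1 ω.2.1 ω.2.2).card : ℕ) : ℝ) ≤
      κ3 * (Ω.card : ℝ) ^ 3)
    (hκ2 : 0 ≤ κ2) (hκ3 : 0 ≤ κ3)
    (h : (2 * n : ℝ) ^ 2 * κ2 + (2 * n : ℝ) ^ 3 * κ3 ≤ n) :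
    ∃ f : Fin n → α, (∀ i, f i ∈ Ω) ∧ (∀ i j, i ≠ j → ¬ P2 (f i) (f j)) ∧
      ∀ i j k, i ≠ j → i ≠ k → j ≠ k → ¬ P3 (f i) (f j) (f k) := by
  have hne : Nonempty Ω := hΩ.to_subtype
  have hc : (0 : ℝ) < Fintype.card Ω := by exact_mod_cast Fintype.card_pos
  have hcard : (Fintype.card Ω : ℝ) = Ω.card := by simp
  set G : ℝ := ((Fintype.card (Fin (2 * n) → Ω) : ℕ) : ℝ) with hG
  have hG0 : 0 ≤ G := Nat.cast_nonneg _
  have a2 : ∀ i j : Fin (2 * n), i ≠ j →
      ∑ g : Fin (2 * n) → Ω, (if P2 (g i) (g j) then (1 : ℝ) else 0) ≤ G * κ2 := by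
    intro i j hij
    have e := del_sum2 hij fun a b : Ω => if P2 a b then (1 : ℝ) else 0
    have e2 : ∑ a : Ω, ∑ b : Ω, (if P2 a b then (1 : ℝ) else 0) =
        (((Ω ×ˢ Ω).filter fun ω => P2 ω.1 ω.2).card : ℕ) := by
      rw [Finset.card_filter, Finset.sum_product]
      push_cast
      rw [← Finset.sum_coe_sort Ω]
      exact Finset.sum_congr rfl fun a _ =>
        Finset.sum_coe_sort Ω fun b => if P2 a b then (1 : ℝ) else 0
    refine le_of_mul_le_mul_left ?_ (pow_pos hc 2)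
    rw [e, e2, hcard]
    have := mul_le_mul_of_nonneg_left h2 hG0
    convert this using 1; ring
  have a3 : ∀ i j k : Fin (2 * n), i ≠ j → i ≠ k → j ≠ k →
      ∑ g : Fin (2 * n) → Ω, (if P3 (g i) (g j) (g k) then (1 : ℝ) else 0) ≤ G * κ3 := by
    intro i j k hij hik hjk
    have e := del_sum3 hij hik hjk fun a b c : Ω => if P3 a b c then (1 : ℝ) else 0
    have e2 : ∑ a : Ω, ∑ b : Ω, ∑ c : Ω, (if P3 a b c then (1 : ℝ) else 0) =
        (((Ω ×ˢ Ω ×ˢ Ω).filter fun ω => P3 ω.1 ω.2.1 ω.2.2).card : ℕ) := by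
      rw [Finset.card_filter, Finset.sum_product]
      push_cast
      rw [← Finset.sum_coe_sort Ω]
      refine Finset.sum_congr rfl fun a _ => ?_
      rw [Finset.sum_product, ← Finset.sum_coe_sort Ω]
      exact Finset.sum_congr rfl fun b _ =>
        Finset.sum_coe_sort Ω fun c => if P3 a b c then (1 : ℝ) else 0
    refine le_of_mul_le_mul_left ?_ (pow_pos hc 3)
    rw [e, e2, hcard]
    have := mul_le_mul_of_nonneg_left h3 hG0
    convert this using 1; ring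
  let B2 : (Fin (2 * n) → Ω) → Finset (Fin (2 * n) × Fin (2 * n)) := fun g =>
    univ.filter fun p => p.1 ≠ p.2 ∧ P2 (g p.1) (g p.2)
  let B3 : (Fin (2 * n) → Ω) → Finset (Fin (2 * n) × Fin (2 * n) × Fin (2 * n)) := fun g =>
    univ.filter fun p => (p.1 ≠ p.2.1 ∧ p.1 ≠ p.2.2 ∧ p.2.1 ≠ p.2.2) ∧
      P3 (g p.1) (g p.2.1) (g p.2.2)
  have s2 : ∑ g, ((B2 g).card : ℝ) ≤ (2 * n : ℝ) ^ 2 * (G * κ2) := by
    simp only [B2, Finset.card_filter]
    push_cast
    rw [Finset.sum_comm]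
    refine (Finset.sum_le_card_nsmul _ _ (G * κ2) fun p _ => ?_).trans (le_of_eq ?_)
    · by_cases hp : p.1 = p.2
      · simp only [hp, ne_eq, not_true, false_and, if_false, Finset.sum_const_zero]; positivity
      · simpa only [ne_eq, hp, not_false_iff, true_and] using a2 _ _ hp
    · simp only [nsmul_eq_mul, card_univ, Fintype.card_prod, Fintype.card_fin]; push_cast; ring
  have s3 : ∑ g, ((B3 g).card : ℝ) ≤ (2 * n : ℝ) ^ 3 * (G * κ3) := by
    simp only [B3, Finset.card_filter]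
    push_cast
    rw [Finset.sum_comm]
    refine (Finset.sum_le_card_nsmul _ _ (G * κ3) fun p _ => ?_).trans (le_of_eq ?_)
    · by_cases hp : p.1 ≠ p.2.1 ∧ p.1 ≠ p.2.2 ∧ p.2.1 ≠ p.2.2
      · simpa only [hp, ne_eq, not_false_iff, true_and] using a3 _ _ _ hp.1 hp.2.1 hp.2.2
      · simp only [hp, false_and, if_false, Finset.sum_const_zero]; positivity
    · simp only [nsmul_eq_mul, card_univ, Fintype.card_prod, Fintype.card_fin]; push_cast; ring
  obtain ⟨g, -, hg⟩ : ∃ g ∈ (univ : Finset (Fin (2 * n) → Ω)),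
      ((B2 g).card : ℝ) + (B3 g).card ≤ n := by
    refine Finset.exists_le_of_sum_le Finset.univ_nonempty ?_
    rw [Finset.sum_add_distrib, Finset.sum_const, nsmul_eq_mul, Finset.card_univ, ← hG]
    nlinarith [mul_le_mul_of_nonneg_left h hG0]
  have hg' : (B2 g).card + (B3 g).card ≤ n := by exact_mod_cast hg
  set D := (B2 g).image Prod.fst ∪ (B3 g).image Prod.fst with hD
  have hDc : D.card ≤ n :=
    (Finset.card_union_le _ _).trans ((add_le_add card_image_le card_image_le).trans hg')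
  obtain ⟨T, hT, hTc⟩ := Finset.exists_subset_card_eq (s := univ \ D) (n := n) (by
    rw [Finset.card_univ_sdiff, Fintype.card_fin]; omega)
  let e : Fin n → Fin (2 * n) := T.orderEmbOfFin hTc
  have he : Function.Injective e := (T.orderEmbOfFin hTc).injective
  have heD : ∀ i, e i ∉ D := fun i => (Finset.mem_sdiff.1 (hT (T.orderEmbOfFin_mem hTc i))).2
  refine ⟨fun i => g (e i), fun i => (g (e i)).2, fun i j hij hP => ?_,
    fun i j k hij hik hjk hP => ?_⟩
  · exact heD i (mem_union_left _ (mem_image.2 ⟨(e i, e j), by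
      simp only [B2, mem_filter, mem_univ, true_and]; exact ⟨he.ne hij, hP⟩, rfl⟩))
  · exact heD i (mem_union_right _ (mem_image.2 ⟨(e i, e j, e k), by
      simp only [B3, mem_filter, mem_univ, true_and]
      exact ⟨⟨he.ne hij, he.ne hik, he.ne hjk⟩, hP⟩, rfl⟩))

theorem to_square (n A U1 U2 U3 : ℕ) (h1 : 0 < U1) (h2 : 0 < U2) (h3 : 0 < U3) (u : Fin n → V3)
    (hu : ∀ i, (0 ≤ (u i).1 ∧ (u i).1 < U1) ∧ (0 ≤ (u i).2.1 ∧ (u i).2.1 < U2) ∧
      ((U3 : ℤ) ≤ (u i).2.2 ∧ (u i).2.2 < 2 * (U3 : ℕ)))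
    (hp : ∀ i j, i ≠ j → ¬ ((u i).2.1 * (u j).2.2 = (u j).2.1 * (u i).2.2))
    (ht : ∀ i j k, i ≠ j → i ≠ k → j ≠ k →
      ¬ (Mx (cross ((u i).2.1, (u j).2.1, (u k).2.1) ((u i).2.2, (u j).2.2, (u k).2.2)) ∧
        |dot (cross ((u i).2.1, (u j).2.1, (u k).2.1) ((u i).2.2, (u j).2.2, (u k).2.2))
          ((u i).1, (u j).1, (u k).1)| ≤ A)) :
    ∃ P : Finset (ℝ × ℝ), P.card = n ∧
      (∀ p ∈ P, 0 ≤ p.1 ∧ p.1 ≤ 1 ∧ 0 ≤ p.2 ∧ p.2 ≤ 1) ∧
      ∀ p ∈ P, ∀ q ∈ P, ∀ r ∈ P, p ≠ q → p ≠ r → q ≠ r →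
        ((A : ℝ) + 1) / (16 * U1 * U2 * U3) ≤
          |(q.1 - p.1) * (r.2 - p.2) - (q.2 - p.2) * (r.1 - p.1)| / 2 := by
  have r1 : (0 : ℝ) < U1 := by exact_mod_cast h1
  have r2 : (0 : ℝ) < U2 := by exact_mod_cast h2
  have r3 : (0 : ℝ) < U3 := by exact_mod_cast h3
  have hz : ∀ i, (U3 : ℝ) ≤ (u i).2.2 ∧ ((u i).2.2 : ℝ) ≤ 2 * U3 := fun i =>
    ⟨by exact_mod_cast (hu i).2.2.1, by exact_mod_cast (hu i).2.2.2.le⟩
  have hz0 : ∀ i, (0 : ℝ) < (u i).2.2 := fun i => r3.trans_le (hz i).1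
  let pt : Fin n → ℝ × ℝ := fun i =>
    ((u i).1 * U3 / ((u i).2.2 * U1), (u i).2.1 * U3 / ((u i).2.2 * U2))
  have hinj : Function.Injective pt := by
    intro i j hij
    by_contra hne
    apply hp i j hne
    have := congrArg Prod.snd hij
    simp only [pt] at this
    have hi := (hz0 i).ne'
    have hj := (hz0 j).ne'
    field_simp at this
    have h' : ((u i).2.1 * (u j).2.2 : ℝ) = (u j).2.1 * (u i).2.2 := by linarith
    exact_mod_cast h'
  have key : ∀ i j k, i ≠ j → i ≠ k → j ≠ k → (A : ℤ) + 1 ≤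
      |dot (cross ((u i).2.1, (u j).2.1, (u k).2.1) ((u i).2.2, (u j).2.2, (u k).2.2))
          ((u i).1, (u j).1, (u k).1)| := by
    intro i j k hij hik hjk
    by_contra hlt
    have hle := Int.lt_add_one_iff.1 (not_le.1 hlt)
    have t1 := ht i j k hij hik hjk
    have t2 := ht j k i hjk hij.symm hik.symm
    have t3 := ht k i j hik.symm hjk.symm hij
    have p1 := sub_ne_zero.2 (hp i j hij)
    have p2 := sub_ne_zero.2 (hp j k hjk)
    have p3 := sub_ne_zero.2 (hp k i hik.symm)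
    simp only [dot, cross, Mx] at hle t1 t2 t3
    generalize ha : (u i).2.1 * (u j).2.2 - (u j).2.1 * (u i).2.2 = a at *
    generalize hb : (u j).2.1 * (u k).2.2 - (u k).2.1 * (u j).2.2 = b at *
    generalize hc : (u k).2.1 * (u i).2.2 - (u i).2.1 * (u k).2.2 = c at *
    rcases le_total |a| |b| with l1 | l1 <;> rcases le_total |b| |c| with l2 | l2 <;>
      rcases le_total |c| |a| with l3 | l3 <;>
      first
        | exact t1 ⟨⟨p2, p3, by linarith, by linarith⟩, hle⟩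
        | exact t2 ⟨⟨p3, p1, by linarith, by linarith⟩, by convert hle using 2; ring⟩
        | exact t3 ⟨⟨p1, p2, by linarith, by linarith⟩, by convert hle using 2; ring⟩
  refine ⟨univ.image pt, by rw [card_image_of_injective _ hinj]; simp, ?_, ?_⟩
  · intro p hp'
    obtain ⟨i, -, rfl⟩ := mem_image.1 hp'
    have x0 : (0 : ℝ) ≤ (u i).1 := by exact_mod_cast (hu i).1.1
    have x1 : ((u i).1 : ℝ) ≤ U1 := by exact_mod_cast (hu i).1.2.le
    have y0 : (0 : ℝ) ≤ (u i).2.1 := by exact_mod_cast (hu i).2.1.1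
    have y1 : ((u i).2.1 : ℝ) ≤ U2 := by exact_mod_cast (hu i).2.1.2.le
    have z0 := hz0 i
    have z1 := (hz i).1
    refine ⟨by positivity, ?_, by positivity, ?_⟩
    · rw [div_le_one (by positivity), mul_comm]
      exact mul_le_mul z1 x1 x0 z0.le
    · rw [div_le_one (by positivity), mul_comm]
      exact mul_le_mul z1 y1 y0 z0.le
  · intro p hp' q hq' r hr' hpq hpr hqr
    obtain ⟨i, -, rfl⟩ := mem_image.1 hp'
    obtain ⟨j, -, rfl⟩ := mem_image.1 hq'
    obtain ⟨k, -, rfl⟩ := mem_image.1 hr'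
    have hk := key i j k (fun h => hpq (h ▸ rfl)) (fun h => hpr (h ▸ rfl)) (fun h => hqr (h ▸ rfl))
    set d := dot (cross ((u i).2.1, (u j).2.1, (u k).2.1) ((u i).2.2, (u j).2.2, (u k).2.2))
          ((u i).1, (u j).1, (u k).1) with hd
    have hk' : (A : ℝ) + 1 ≤ |(d : ℝ)| := by exact_mod_cast hk
    have zi := hz0 i
    have zj := hz0 j
    have zk := hz0 k
    have e : ((pt j).1 - (pt i).1) * ((pt k).2 - (pt i).2) -
        ((pt j).2 - (pt i).2) * ((pt k).1 - (pt i).1) =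
        d * (U3 ^ 2 / (U1 * U2 * ((u i).2.2 * (u j).2.2 * (u k).2.2))) := by
      simp only [pt, hd, dot, cross]
      push_cast
      field_simp
      ring
    rw [e, abs_mul, abs_of_pos (by positivity : (0 : ℝ) <
      U3 ^ 2 / (U1 * U2 * ((u i).2.2 * (u j).2.2 * (u k).2.2)))]
    have hprod : ((u i).2.2 * (u j).2.2 * (u k).2.2 : ℝ) ≤ (2 * U3) * (2 * U3) * (2 * U3) := by
      gcongr
      exacts [(hz i).2, (hz j).2, (hz k).2]
    calc ((A : ℝ) + 1) / (16 * U1 * U2 * U3) =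
          (A + 1) * (U3 ^ 2 / (U1 * U2 * ((2 * U3) * (2 * U3) * (2 * U3)))) / 2 := by
          field_simp; ring
      _ ≤ _ := by gcongr

end Crest.Agent.R32
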