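import Crest.Agent.R32.Alg

/-! Row 32: the digit construction modulo `F = p ^ (8 K + 1)`. -/

set_option autoImplicit false

namespace Crest.Agent.R32

open Finset Polynomial
open scoped Classical

lemma two_pow_add_eq {a b c : ℕ} (h : 2 ^ a + 2 ^ b = 2 ^ (c + 1)) : a = c ∧ b = c := by
  have key : ∀ a b : ℕ, 2 ^ a + 2 ^ b = 2 ^ (c + 1) → a ≤ c := by
    intro a b h
    by_contra hc
    have h1 : 2 ^ (c + 1) ≤ 2 ^ a := Nat.pow_le_pow_right (by norm_num) (by omega)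
    have h2 : 0 < 2 ^ b := by positivity
    omega
  have key2 : ∀ a b : ℕ, 2 ^ a + 2 ^ b = 2 ^ (c + 1) → b ≤ c → c ≤ a := by
    intro a b h hb
    by_contra hc
    have h1 : 2 ^ a < 2 ^ c := Nat.pow_lt_pow_right (by norm_num) (by omega)
    have h2 : 2 ^ b ≤ 2 ^ c := Nat.pow_le_pow_right (by norm_num) hb
    rw [pow_succ] at h
    omega
  have ha := key a b h
  have hb := key b a (by rw [add_comm]; exact h)
  exact ⟨le_antisymm ha (key2 a b h hb), le_antisymm hb (key2 b a (by rw [add_comm]; exact h) ha)⟩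

/-- The middle coefficient of the product of the three digit polynomials. -/
lemma coeff_mid {R : Type*} [CommRing R] {m : ℕ} (a b c : Fin m → R) :
    ((∑ j : Fin m, monomial (2 ^ (j : ℕ)) (a j)) * (∑ j : Fin m, monomial (2 ^ (j : ℕ)) (b j)) *
      (1 + ∑ j : Fin m, monomial (2 ^ (m + 1) + 1 - 2 ^ ((j : ℕ) + 1)) (c j))).coeff
        (2 ^ (m + 1) + 1) = ∑ j, a j * b j * c j := by
  have hle : ∀ j : Fin m, 2 ^ (j : ℕ) ≤ 2 ^ m := fun j =>
    Nat.pow_le_pow_right (by norm_num) j.2.le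
  have hle' : ∀ j : Fin m, 2 ^ ((j : ℕ) + 1) ≤ 2 ^ m := fun j =>
    Nat.pow_le_pow_right (by norm_num) j.2
  rw [mul_add, mul_one, coeff_add, sum_mul_sum]
  simp only [monomial_mul_monomial, sum_mul, mul_sum, finsetSum_coeff, coeff_monomial]
  rw [sum_eq_zero, zero_add]
  · refine sum_congr rfl fun i _ => ?_
    rw [sum_eq_single i, sum_eq_single i, if_pos]
    · have := hle' i
      rw [pow_succ] at this ⊢
      rw [pow_succ]
      omega
    · intro k _ hk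
      rw [if_neg]
      intro h
      have h1 := hle' k
      have h2 := hle' i
      have h3 : 2 ^ m ≤ 2 ^ (m + 1) := Nat.pow_le_pow_right (by norm_num) (by omega)
      have := two_pow_add_eq (a := i) (b := i) (c := k) (by omega)
      exact hk (Fin.ext this.1.symm)
    · simp
    · intro j _ hj
      refine sum_eq_zero fun k _ => if_neg fun h => ?_
      have h1 := hle' k
      have h2 := hle' i
      have h2' := hle' j
      have h3 : 2 ^ m ≤ 2 ^ (m + 1) := Nat.pow_le_pow_right (by norm_num) (by omega)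
      have := two_pow_add_eq (a := j) (b := k) (c := i) (by omega)
      exact hj (Fin.ext this.1)
    · simp
  · refine fun i _ => sum_eq_zero fun j _ => if_neg ?_
    have h1 := hle i
    have h2 := hle j
    rw [pow_succ]
    omega

lemma coeff_le_eval_one (P : ℕ[X]) (l : ℕ) : P.coeff l ≤ P.eval 1 := by
  by_cases h : l ∈ P.support
  · rw [eval_eq_sum, Polynomial.sum]
    simp only [one_pow, mul_one]
    exact single_le_sum (f := fun l => P.coeff l) (fun _ _ => Nat.zero_le _) h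
  · rw [notMem_support_iff.1 h]; exact Nat.zero_le _

lemma geom_le (f : ℤ) (hf : 2 ≤ f) (K : ℕ) : f * ∑ l ∈ range K, f ^ l ≤ 2 * f ^ K := by
  induction K with
  | zero => simp
  | succ K ih =>
    rw [sum_range_succ, mul_add, pow_succ]
    have : 0 ≤ f ^ K := by positivity
    nlinarith

/-- No carries: a small residue forces the middle digit to vanish modulo `p`. -/
lemma digit_lemma (A B : ℕ[X]) (C p f K : ℕ) (hA : A.eval 1 ≤ C) (hB : B.eval 1 ≤ C)
    (hf : 4 * C < f) (hf2 : 2 ≤ f) (hp : p ∣ f) (t : ℤ) (ht : 2 * |t| ≤ (f : ℤ) ^ K)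
    (h : t ≡ ((A.eval f : ℕ) : ℤ) - ((B.eval f : ℕ) : ℤ) [ZMOD (p * (f : ℤ) ^ K)]) :
    (A.coeff K : ZMod p) = (B.coeff K : ZMod p) := by
  set d := max A.natDegree B.natDegree
  set c : ℕ → ℤ := fun l => (A.coeff l : ℤ) - B.coeff l with hc
  have hcb : ∀ l, |c l| ≤ C := by
    intro l
    have h1 : (A.coeff l : ℤ) ≤ C := by exact_mod_cast (coeff_le_eval_one A l).trans hA
    have h2 : (B.coeff l : ℤ) ≤ C := by exact_mod_cast (coeff_le_eval_one B l).trans hB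
    have h3 : (0 : ℤ) ≤ A.coeff l := Int.natCast_nonneg _
    have h4 : (0 : ℤ) ≤ B.coeff l := Int.natCast_nonneg _
    rw [abs_le]
    constructor <;> simp only [hc] <;> linarith
  have e : ((A.eval f : ℕ) : ℤ) - ((B.eval f : ℕ) : ℤ) =
      ∑ l ∈ range K, c l * (f : ℤ) ^ l +
        (f : ℤ) ^ K * (c K + f * ∑ l ∈ range d, c (K + 1 + l) * (f : ℤ) ^ l) := by
    rw [eval_eq_sum_range' (n := K + 1 + d) (by have := le_max_left A.natDegree B.natDegree; omega),
      eval_eq_sum_range' (p := B) (n := K + 1 + d)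
        (by have := le_max_right A.natDegree B.natDegree; omega)]
    push_cast
    rw [← sum_sub_distrib]
    have : ∀ l, (A.coeff l : ℤ) * (f : ℤ) ^ l - (B.coeff l : ℤ) * (f : ℤ) ^ l =
        c l * (f : ℤ) ^ l := fun l => by simp only [hc]; ring
    simp only [this]
    rw [sum_range_add, sum_range_succ, mul_add, mul_sum, mul_sum, add_assoc, mul_comm (c K)]
    congr 2
    exact sum_congr rfl fun l _ => by ring
  set low := ∑ l ∈ range K, c l * (f : ℤ) ^ l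
  set w := c K + f * ∑ l ∈ range d, c (K + 1 + l) * (f : ℤ) ^ l with hw
  have hfz : (2 : ℤ) ≤ f := by exact_mod_cast hf2
  have hfK : (0 : ℤ) < (f : ℤ) ^ K := by positivity
  have hlow : 2 * |low| < (f : ℤ) ^ K := by
    have h1 : |low| ≤ C * ∑ l ∈ range K, (f : ℤ) ^ l := by
      refine (abs_sum_le_sum_abs _ _).trans ?_
      rw [mul_sum]
      refine sum_le_sum fun l _ => ?_
      rw [abs_mul, abs_of_nonneg (a := (f : ℤ) ^ l) (by positivity)]
      exact mul_le_mul_of_nonneg_right (hcb l) (by positivity)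
    have h2 := geom_le f hfz K
    have h3 : (4 * C : ℤ) < f := by exact_mod_cast hf
    have h4 : (0 : ℤ) ≤ C := Int.natCast_nonneg _
    by_contra hcon
    push Not at hcon
    have h5 : (f : ℤ) * (f : ℤ) ^ K ≤ f * (2 * (C * ∑ l ∈ range K, (f : ℤ) ^ l)) :=
      mul_le_mul_of_nonneg_left (by linarith) (by linarith)
    have h6 : (2 * C : ℤ) * (f * ∑ l ∈ range K, (f : ℤ) ^ l) ≤ 2 * C * (2 * (f : ℤ) ^ K) :=
      mul_le_mul_of_nonneg_left h2 (by linarith)
    nlinarith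
  rw [e] at h
  obtain ⟨u, hu⟩ := h.dvd
  have h0 : low - t = 0 := by
    refine Int.eq_zero_of_abs_lt_dvd (m := (f : ℤ) ^ K) ⟨p * u - w, by linear_combination hu⟩ ?_
    have := abs_sub low t
    linarith
  have h1 : w = p * u := by
    apply mul_left_cancel₀ hfK.ne'
    linear_combination hu - h0
  obtain ⟨g, hg⟩ := hp
  have h2 : (p : ℤ) ∣ c K := by
    refine ⟨u - g * ∑ l ∈ range d, c (K + 1 + l) * (f : ℤ) ^ l, ?_⟩
    have hg' : (f : ℤ) = p * g := by exact_mod_cast hg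
    linear_combination h1 - hw - (∑ l ∈ range d, c (K + 1 + l) * (f : ℤ) ^ l) * hg'
  have h3 := (ZMod.intCast_zmod_eq_zero_iff_dvd (c K) p).2 h2
  simp only [hc] at h3
  push_cast at h3
  exact sub_eq_zero.1 h3

lemma digits_zero {K : ℕ} (f : ℤ) (hf : 0 < f) (d : Fin K → ℤ) (hd : ∀ l, |d l| < f) (i : ℕ)
    (h : f ^ i ∣ ∑ l, d l * f ^ (l : ℕ)) : ∀ l : Fin K, (l : ℕ) < i → d l = 0 := by
  suffices H : ∀ n, ∀ l : Fin K, (l : ℕ) = n → (l : ℕ) < i → d l = 0 from fun l => H _ l rfl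
  intro n
  induction n using Nat.strong_induction_on with
  | _ n ih =>
    intro l hl hi
    have h1 : f ^ (n + 1) ∣ ∑ l, d l * f ^ (l : ℕ) := (pow_dvd_pow f (by omega)).trans h
    rw [← add_sum_erase univ _ (mem_univ l)] at h1
    have h2 : f ^ (n + 1) ∣ ∑ l' ∈ univ.erase l, d l' * f ^ (l' : ℕ) := by
      refine dvd_sum fun l' hl' => ?_
      have hne : (l' : ℕ) ≠ n := fun e => (ne_of_mem_erase hl') (Fin.ext (e.trans hl.symm))
      rcases lt_or_gt_of_ne hne with h3 | h3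
      · rw [ih _ h3 l' rfl (by omega), zero_mul]; exact dvd_zero _
      · exact (pow_dvd_pow f h3).mul_left _
    have h3 := (dvd_add_left h2).1 h1
    rw [hl, pow_succ, mul_comm (d l)] at h3
    exact Int.eq_zero_of_abs_lt_dvd ((mul_dvd_mul_iff_left (pow_pos hf n).ne').1 h3) (hd l)

/-- The number of digit strings in a residue class modulo `f ^ i`. -/
lemma card_digits (K p : ℕ) (hp : 2 ≤ p) (i : ℕ) (y z r : ℤ) (hz : IsCoprime z (p : ℤ)) :
    ((univ : Finset (Fin K → Fin (p ^ 4))).filter fun ξ =>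
      ((p : ℤ) ^ 8) ^ i ∣ (y + ∑ l : Fin K, (p * (ξ l : ℕ) : ℤ) * ((p : ℤ) ^ 8) ^ (l : ℕ)) * z -
        r).card ≤
      (p ^ 4) ^ (K - i) := by
  have hpz : (2 : ℤ) ≤ p := by exact_mod_cast hp
  have hcard : Fintype.card ({l : Fin K // i ≤ (l : ℕ)} → Fin (p ^ 4)) ≤ (p ^ 4) ^ (K - i) := by
    rw [Fintype.card_fun, Fintype.card_fin]
    refine Nat.pow_le_pow_right (by positivity) ?_
    have := Fintype.card_le_of_injective (β := Fin (K - i))
      (fun l : {l : Fin K // i ≤ (l : ℕ)} => ⟨l.1 - i, by have := l.1.2; have := l.2; omega⟩)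
      (fun l l' h => by
        have h1 : (l.1 : ℕ) - i = l'.1 - i := congrArg Fin.val h
        have := l.2
        have := l'.2
        exact Subtype.ext (Fin.ext (by omega)))
    rwa [Fintype.card_fin] at this
  refine le_trans ?_ hcard
  refine card_le_card_of_injOn (t := univ) (fun ξ l => ξ l.1) (fun _ _ => mem_univ _) ?_
  intro ξ hξ ξ' hξ' he
  simp only [coe_filter, mem_univ, true_and, Set.mem_ofPred_eq] at hξ hξ'
  have h1 : ((p : ℤ) ^ 8) ^ i ∣
      (∑ l : Fin K, ((p * (ξ l : ℕ) : ℤ) - (p * (ξ' l : ℕ) : ℤ)) *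
        ((p : ℤ) ^ 8) ^ (l : ℕ)) * z := by
    have := dvd_sub hξ hξ'
    simp only [sub_mul, sum_sub_distrib]
    refine this.trans (dvd_of_eq ?_)
    ring
  have h2 := (hz.symm.pow_left (m := 8)).pow_left (m := i) |>.dvd_of_dvd_mul_right h1
  have h3 := digits_zero ((p : ℤ) ^ 8) (by positivity) _ (fun l => by
    have a1 : ((ξ l : ℕ) : ℤ) < (p : ℤ) ^ 4 := by exact_mod_cast (ξ l).2
    have a2 : ((ξ' l : ℕ) : ℤ) < (p : ℤ) ^ 4 := by exact_mod_cast (ξ' l).2
    have a3 : (0 : ℤ) ≤ ((ξ l : ℕ) : ℤ) := Int.natCast_nonneg _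
    have a4 : (0 : ℤ) ≤ ((ξ' l : ℕ) : ℤ) := Int.natCast_nonneg _
    have a5 : (p : ℤ) * (p : ℤ) ^ 4 ≤ (p : ℤ) ^ 8 := by
      rw [← pow_succ']; exact pow_le_pow_right₀ (by linarith) (by norm_num)
    rw [abs_lt]
    constructor <;> nlinarith) i h2
  funext l
  by_cases hl : (l : ℕ) < i
  · have h4 := h3 l hl
    rw [sub_eq_zero] at h4
    have h5 := mul_left_cancel₀ (by linarith : (p : ℤ) ≠ 0) h4
    exact Fin.ext (by exact_mod_cast h5)
  · exact congrFun he ⟨l, not_lt.1 hl⟩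

lemma ell_le (p K : ℕ) (hp : p.Prime) (Y Z : V3) :
    ell (p ^ (8 * K + 1)) Y Z ≤ ∑ i ∈ range (K + 1), p ^ 7 * (p ^ 8) ^ i *
      ((if ((p : ℤ) ^ 8) ^ i ∣ (cross Y Z).2.2 then 1 else 0) *
        if ((p : ℤ) ^ 8) ^ i ∣ (cross Y Z).1 then 1 else 0) := by
  obtain ⟨k, hk, e⟩ := (Nat.dvd_prime_pow hp).1
    (Nat.gcd_dvd_left (p ^ (8 * K + 1)) (Int.gcd (cross Y Z).1 (cross Y Z).2.2))
  have h1 : p ^ k ∣ Int.gcd (cross Y Z).1 (cross Y Z).2.2 := e ▸ Nat.gcd_dvd_right _ _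
  have h2 : ((p : ℤ) ^ 8) ^ (k / 8) ∣ ((Int.gcd (cross Y Z).1 (cross Y Z).2.2 : ℕ) : ℤ) := by
    rw [← pow_mul]
    refine (pow_dvd_pow (p : ℤ) (Nat.mul_div_le k 8)).trans ?_
    exact_mod_cast h1
  unfold ell
  rw [e]
  refine le_trans ?_ (single_le_sum (fun _ _ => Nat.zero_le _)
    (mem_range.2 (show k / 8 < K + 1 by omega)))
  rw [if_pos (h2.trans (Int.gcd_dvd_right _ _)), if_pos (h2.trans (Int.gcd_dvd_left _ _)),
    mul_one, mul_one, ← pow_mul, ← pow_add]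
  exact Nat.pow_le_pow_right hp.pos (by omega)

lemma card_deg (S : Type) [Fintype S] :
    ((univ : Finset (S × S × S)).filter fun σ =>
      σ.1 = σ.2.1 ∨ σ.1 = σ.2.2 ∨ σ.2.1 = σ.2.2).card ≤ 3 * Fintype.card S ^ 2 := by
  have hc : (univ : Finset (S × S)).card = Fintype.card S ^ 2 := by simp [sq]
  calc _ ≤ ((univ.image fun a : S × S => (a.1, a.1, a.2)) ∪
        (univ.image fun a : S × S => (a.1, a.2, a.1)) ∪
        (univ.image fun a : S × S => (a.2, a.1, a.1))).card := by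
        refine card_le_card ?_
        rintro ⟨a, b, c⟩ h
        simp only [mem_filter, mem_univ, true_and] at h
        simp only [mem_union, mem_image, mem_univ, true_and]
        rcases h with rfl | rfl | rfl
        · exact Or.inl (Or.inl ⟨(a, c), rfl⟩)
        · exact Or.inl (Or.inr ⟨(a, b), rfl⟩)
        · exact Or.inr ⟨(b, a), rfl⟩
    _ ≤ _ := by
        refine (card_union_le _ _).trans ?_
        have h1 := card_union_le (univ.image fun a : S × S => (a.1, a.1, a.2))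
          (univ.image fun a : S × S => (a.1, a.2, a.1))
        have h2 := card_image_le (s := univ) (f := fun a : S × S => (a.1, a.1, a.2))
        have h3 := card_image_le (s := univ) (f := fun a : S × S => (a.1, a.2, a.1))
        have h4 := card_image_le (s := univ) (f := fun a : S × S => (a.2, a.1, a.1))
        omega

section polys

variable {m p : ℕ}

/-- digit polynomial of the first coordinate -/
noncomputable def PX (a : Fin m → ZMod p) : ℕ[X] := ∑ j : Fin m, monomial (2 ^ (j : ℕ)) (a j).val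

/-- digit polynomial of the second coordinate -/
noncomputable def PY {K : ℕ} (b : Fin m → ZMod p) (ξ : Fin K → Fin (p ^ 4)) : ℕ[X] :=
  PX b + ∑ l : Fin K, monomial (l : ℕ) (p * ξ l)

/-- digit polynomial of the third coordinate -/
noncomputable def PZ (c : Fin m → ZMod p) : ℕ[X] :=
  1 + ∑ j : Fin m, monomial (2 ^ (m + 1) + 1 - 2 ^ ((j : ℕ) + 1)) (c j).val

lemma sum_val_le [NeZero p] (a : Fin m → ZMod p) : ∑ j, (a j).val ≤ m * p := by
  have := sum_le_card_nsmul univ (fun j => (a j).val) p fun j _ => (ZMod.val_lt (a j)).le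
  simpa using this

lemma PX_one [NeZero p] (a : Fin m → ZMod p) : (PX a).eval 1 ≤ m * p := by
  simpa [PX, eval_finsetSum] using sum_val_le a

lemma PY_one [NeZero p] {K : ℕ} (b : Fin m → ZMod p) (ξ : Fin K → Fin (p ^ 4)) :
    (PY b ξ).eval 1 ≤ m * p + K * (p * p ^ 4) := by
  have h1 := PX_one b
  have h2 := sum_le_card_nsmul univ (fun l => p * (ξ l : ℕ)) (p * p ^ 4) fun l _ =>
    Nat.mul_le_mul_left p (ξ l).2.le
  simp only [PY, eval_add, eval_finsetSum, eval_monomial, one_pow, mul_one]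
  simp only [card_univ, Fintype.card_fin, smul_eq_mul] at h2
  omega

lemma PZ_one [NeZero p] (c : Fin m → ZMod p) : (PZ c).eval 1 ≤ 1 + m * p := by
  simpa [PZ, eval_finsetSum] using sum_val_le c

lemma coeff_PXYZ [NeZero p] {K : ℕ} (a b c : Fin m → ZMod p) (ξ : Fin K → Fin (p ^ 4)) :
    (((PX a * PY b ξ * PZ c).coeff (2 ^ (m + 1) + 1) : ℕ) : ZMod p) = ∑ j, a j * b j * c j := by
  rw [← coeff_mid a b c]
  have : (((PX a * PY b ξ * PZ c).coeff (2 ^ (m + 1) + 1) : ℕ) : ZMod p) =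
      ((PX a * PY b ξ * PZ c).map (Nat.castRingHom (ZMod p))).coeff (2 ^ (m + 1) + 1) := by
    rw [coeff_map]; rfl
  rw [this]
  congr 1
  simp [PX, PY, PZ, Polynomial.map_mul, Polynomial.map_sum]

lemma PY_eval {K : ℕ} (b : Fin m → ZMod p) (ξ : Fin K → Fin (p ^ 4)) :
    (((PY b ξ).eval (p ^ 8) : ℕ) : ℤ) = (((PX b).eval (p ^ 8) : ℕ) : ℤ) +
      ∑ l : Fin K, (p * (ξ l : ℕ) : ℤ) * ((p : ℤ) ^ 8) ^ (l : ℕ) := by
  simp [PY, eval_finsetSum]

lemma PZ_coprime (c : Fin m → ZMod p) : IsCoprime (((PZ c).eval (p ^ 8) : ℕ) : ℤ) (p : ℤ) := by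
  have : (p : ℤ) ∣ ∑ j : Fin m,
      ((c j).val : ℤ) * ((p : ℤ) ^ 8) ^ (2 ^ (m + 1) + 1 - 2 ^ ((j : ℕ) + 1)) := by
    refine dvd_sum fun j _ => Dvd.dvd.mul_left ?_ _
    have h1 : 2 ^ ((j : ℕ) + 1) ≤ 2 ^ (m + 1) := Nat.pow_le_pow_right (by norm_num) (by omega)
    exact (dvd_pow_self _ (by norm_num)).trans (dvd_pow_self _ (by omega))
  obtain ⟨w, hw⟩ := this
  refine ⟨1, -w, ?_⟩
  simp only [PZ, eval_add, eval_one, eval_finsetSum, eval_monomial]
  push_cast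
  rw [hw]; ring

end polys

lemma sum_ite_mul {A B : Type} [Fintype A] [Fintype B] (P : A → Prop) (Q : B → Prop)
    [DecidablePred P] [DecidablePred Q] :
    ∑ η : A × B, (if P η.1 then 1 else 0) * (if Q η.2 then 1 else 0) =
      (univ.filter P).card * (univ.filter Q).card := by
  rw [card_filter, card_filter, sum_mul_sum, Fintype.sum_prod_type]

/-- The mean of `ell` over the random digits. -/
lemma sum_ell_le {m : ℕ} (p K : ℕ) (hp : p.Prime) (b₁ b₂ b₃ c₁ c₂ c₃ : Fin m → ZMod p) :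
    ∑ η : (Fin K → Fin (p ^ 4)) × (Fin K → Fin (p ^ 4)) × (Fin K → Fin (p ^ 4)),
      ell (p ^ (8 * K + 1))
        ((((PY b₁ η.2.1).eval (p ^ 8) : ℕ) : ℤ), (((PY b₂ η.1).eval (p ^ 8) : ℕ) : ℤ),
          (((PY b₃ η.2.2).eval (p ^ 8) : ℕ) : ℤ))
        ((((PZ c₁).eval (p ^ 8) : ℕ) : ℤ), (((PZ c₂).eval (p ^ 8) : ℕ) : ℤ),
          (((PZ c₃).eval (p ^ 8) : ℕ) : ℤ)) ≤ (K + 1) * p ^ 7 * ((p ^ 4) ^ K) ^ 3 := by
  refine (sum_le_sum fun η _ => ell_le p K hp _ _).trans ?_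
  rw [sum_comm]
  refine (sum_le_card_nsmul _ _ (p ^ 7 * ((p ^ 4) ^ K) ^ 3) fun i hi => ?_).trans
    (by rw [card_range, smul_eq_mul, mul_assoc])
  have hi' : i ≤ K := by have := mem_range.1 hi; omega
  rw [← mul_sum, Fintype.sum_prod_type]
  have hin : ∀ ξ₂ : Fin K → Fin (p ^ 4),
      ∑ η : (Fin K → Fin (p ^ 4)) × (Fin K → Fin (p ^ 4)),
        ((if ((p : ℤ) ^ 8) ^ i ∣ (((PY b₁ η.1).eval (p ^ 8) : ℕ) : ℤ) *
            (((PZ c₂).eval (p ^ 8) : ℕ) : ℤ) - (((PY b₂ ξ₂).eval (p ^ 8) : ℕ) : ℤ) *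
            (((PZ c₁).eval (p ^ 8) : ℕ) : ℤ) then 1 else 0) *
          if ((p : ℤ) ^ 8) ^ i ∣ (((PY b₂ ξ₂).eval (p ^ 8) : ℕ) : ℤ) *
            (((PZ c₃).eval (p ^ 8) : ℕ) : ℤ) - (((PY b₃ η.2).eval (p ^ 8) : ℕ) : ℤ) *
            (((PZ c₂).eval (p ^ 8) : ℕ) : ℤ) then 1 else 0) ≤
        (p ^ 4) ^ (K - i) * (p ^ 4) ^ (K - i) := by
    intro ξ₂
    refine le_trans (le_of_eq (sum_ite_mul
      (fun ξ : Fin K → Fin (p ^ 4) => ((p : ℤ) ^ 8) ^ i ∣ (((PY b₁ ξ).eval (p ^ 8) : ℕ) : ℤ) *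
            (((PZ c₂).eval (p ^ 8) : ℕ) : ℤ) - (((PY b₂ ξ₂).eval (p ^ 8) : ℕ) : ℤ) *
            (((PZ c₁).eval (p ^ 8) : ℕ) : ℤ))
      (fun ξ : Fin K → Fin (p ^ 4) => ((p : ℤ) ^ 8) ^ i ∣ (((PY b₂ ξ₂).eval (p ^ 8) : ℕ) : ℤ) *
            (((PZ c₃).eval (p ^ 8) : ℕ) : ℤ) - (((PY b₃ ξ).eval (p ^ 8) : ℕ) : ℤ) *
            (((PZ c₂).eval (p ^ 8) : ℕ) : ℤ)))) ?_
    refine Nat.mul_le_mul ?_ ?_
    · simp only [PY_eval b₁]
      exact card_digits K p hp.two_le i _ _ _ (PZ_coprime c₂)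
    · refine le_trans (card_le_card fun ξ hξ => ?_) (card_digits K p hp.two_le i
        (((PX b₃).eval (p ^ 8) : ℕ) : ℤ) _ ((((PY b₂ ξ₂).eval (p ^ 8) : ℕ) : ℤ) *
          (((PZ c₃).eval (p ^ 8) : ℕ) : ℤ)) (PZ_coprime c₂))
      rw [mem_filter] at hξ ⊢
      refine ⟨hξ.1, ?_⟩
      rw [← PY_eval b₃, ← dvd_neg, neg_sub]
      exact hξ.2
  have h2 := sum_le_card_nsmul univ _ _ fun ξ₂ _ => hin ξ₂
  simp only [card_univ, Fintype.card_fun, Fintype.card_fin, smul_eq_mul] at h2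
  refine (Nat.mul_le_mul_left _ h2).trans (le_of_eq ?_)
  obtain ⟨d, rfl⟩ := Nat.exists_eq_add_of_le hi'
  rw [Nat.add_sub_cancel_left]
  ring

theorem fdata : ∃ K p₀ : ℕ, ∀ p : ℕ, p.Prime → p₀ ≤ p →
    FData (p ^ (8 * K + 1)) (p ^ (8 * K) / 2) (1 / (p : ℝ) ^ 6) := by
  obtain ⟨m, hm⟩ := exists_tau
  refine ⟨2 ^ (m + 1) + 1, 12 * m * (m + (2 ^ (m + 1) + 1)) * (1 + m) +
    3 * (2 ^ (m + 1) + 1 + 1) + 4, fun p hp hp₀ => ?_⟩
  set K := 2 ^ (m + 1) + 1 with hK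
  obtain ⟨S, _, α, β, γ, hS, hτ⟩ := hm p hp (by omega)
  have : NeZero p := ⟨hp.ne_zero⟩
  have hp1 : 1 ≤ p := hp.pos
  have : Nonempty S := Fintype.card_pos_iff.1 (by rw [hS]; positivity)
  have : Nonempty (Fin (p ^ 4)) := ⟨⟨0, by positivity⟩⟩
  refine ⟨S × (Fin K → Fin (p ^ 4)), inferInstance, inferInstance,
    fun g => (((PX fun j => α j g.1).eval (p ^ 8) : ℕ) : ℤ),
    fun g => (((PY (fun j => β j g.1) g.2).eval (p ^ 8) : ℕ) : ℤ),
    fun g => (((PZ fun j => γ j g.1).eval (p ^ 8) : ℕ) : ℤ),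
    fun g₁ g₂ g₃ => g₁.1 = g₂.1 ∨ g₁.1 = g₃.1 ∨ g₂.1 = g₃.1, fun g => ?_, ?_, ?_⟩
  · push_cast
    exact (PZ_coprime _).pow_right
  · rintro ⟨s₁, ξ₁⟩ ⟨s₂, ξ₂⟩ ⟨s₃, ξ₃⟩ t ht h
    by_contra hcon
    simp only [not_or] at hcon
    refine hτ s₁ s₂ s₃ hcon.1 hcon.2.1 hcon.2.2 ?_
    have hb : ∀ (a b c : Fin m → ZMod p) (ξ : Fin K → Fin (p ^ 4)),
        (PX a * PY b ξ * PZ c).eval 1 ≤ m * (m + K) * (1 + m) * p ^ 7 := by
      intro a b c ξ
      rw [eval_mul, eval_mul]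
      have h1 := PX_one a
      have h2 : (PY b ξ).eval 1 ≤ (m + K) * p ^ 5 := by
        refine (PY_one b ξ).trans ?_
        have : p ≤ p ^ 5 := Nat.le_self_pow (by norm_num) p
        rw [add_mul m K, ← pow_succ']
        exact Nat.add_le_add_right (Nat.mul_le_mul_left m this) _
      have h3 : (PZ c).eval 1 ≤ (1 + m) * p := (PZ_one c).trans (by rw [add_mul]; omega)
      exact (Nat.mul_le_mul (Nat.mul_le_mul h1 h2) h3).trans (le_of_eq (by ring))
    have key := digit_lemma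
      (PX (fun j => α j s₁) * PY (fun j => β j s₂) ξ₂ * PZ (fun j => γ j s₃) +
        PX (fun j => α j s₂) * PY (fun j => β j s₃) ξ₃ * PZ (fun j => γ j s₁) +
        PX (fun j => α j s₃) * PY (fun j => β j s₁) ξ₁ * PZ (fun j => γ j s₂))
      (PX (fun j => α j s₁) * PY (fun j => β j s₃) ξ₃ * PZ (fun j => γ j s₂) +
        PX (fun j => α j s₂) * PY (fun j => β j s₁) ξ₁ * PZ (fun j => γ j s₃) +
        PX (fun j => α j s₃) * PY (fun j => β j s₂) ξ₂ * PZ (fun j => γ j s₁))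
      (3 * (m * (m + K) * (1 + m) * p ^ 7)) p (p ^ 8) K
      (by
        rw [eval_add, eval_add]
        exact (Nat.add_le_add (Nat.add_le_add (hb _ _ _ _) (hb _ _ _ _)) (hb _ _ _ _)).trans
          (le_of_eq (by ring)))
      (by
        rw [eval_add, eval_add]
        exact (Nat.add_le_add (Nat.add_le_add (hb _ _ _ _) (hb _ _ _ _)) (hb _ _ _ _)).trans
          (le_of_eq (by ring)))
      (by
        have h1 : 12 * m * (m + K) * (1 + m) < p := by omega
        calc 4 * (3 * (m * (m + K) * (1 + m) * p ^ 7)) = 12 * m * (m + K) * (1 + m) * p ^ 7 := by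
              ring
          _ < p * p ^ 7 := Nat.mul_lt_mul_of_pos_right h1 (by positivity)
          _ = p ^ 8 := by ring)
      (hp.two_le.trans (Nat.le_self_pow (by norm_num) p)) (dvd_pow_self p (by norm_num)) t
      (by
        have h1 : 2 * (p ^ (8 * K) / 2) ≤ p ^ (8 * K) := Nat.mul_div_le _ _
        have h2 : (2 : ℤ) * ((p ^ (8 * K) / 2 : ℕ) : ℤ) ≤ ((p ^ 8 : ℕ) : ℤ) ^ K := by
          rw [pow_mul] at h1 ⊢
          exact_mod_cast h1
        linarith)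
      (by
        have e1 : ((p ^ (8 * K + 1) : ℕ) : ℤ) = p * ((p ^ 8 : ℕ) : ℤ) ^ K := by
          push_cast; ring
        rw [← e1]
        convert h using 1
        simp only [dot, cross, eval_add, eval_mul]
        push_cast
        ring)
    simp only [coeff_add, Nat.cast_add, hK, coeff_PXYZ] at key
    rw [← sub_eq_zero] at key
    rw [← key]
    simp only [← sum_add_distrib, ← sum_sub_distrib]
    exact sum_congr rfl fun j _ => by ring
  · let e : (S × S × S) × ((Fin K → Fin (p ^ 4)) × (Fin K → Fin (p ^ 4)) × (Fin K → Fin (p ^ 4))) ≃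
        (S × (Fin K → Fin (p ^ 4))) × (S × (Fin K → Fin (p ^ 4))) × (S × (Fin K → Fin (p ^ 4))) :=
      { toFun := fun x => ((x.1.1, x.2.2.1), (x.1.2.1, x.2.1), (x.1.2.2, x.2.2.2))
        invFun := fun y => ((y.1.1, y.2.1.1, y.2.2.1), (y.2.1.2, y.1.2, y.2.2.2))
        left_inv := fun _ => rfl
        right_inv := fun _ => rfl }
    rw [← Nat.cast_sum, sum_filter, ← e.sum_comp, Fintype.sum_prod_type]
    simp only [e, Equiv.coe_fn_mk]
    simp only [sum_ite_irrel, sum_const_zero]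
    rw [← sum_filter]
    have h1 := sum_le_card_nsmul ((univ : Finset (S × S × S)).filter fun σ =>
      σ.1 = σ.2.1 ∨ σ.1 = σ.2.2 ∨ σ.2.1 = σ.2.2) _ _ fun σ _ =>
        sum_ell_le p K hp (fun j => β j σ.1) (fun j => β j σ.2.1) (fun j => β j σ.2.2)
          (fun j => γ j σ.1) (fun j => γ j σ.2.1) (fun j => γ j σ.2.2)
    have h2 := card_deg S
    rw [smul_eq_mul] at h1
    have h3 := h1.trans (Nat.mul_le_mul_right _ h2)
    have hpR : (0 : ℝ) < p := by exact_mod_cast hp.pos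
    rw [one_div, inv_mul_eq_div, le_div_iff₀ (by positivity)]
    simp only [Fintype.card_prod, Fintype.card_fun, Fintype.card_fin]
    rw [hS] at h3 ⊢
    have h4 : 3 * (K + 1) ≤ p ^ 2 := le_trans (by omega) (Nat.le_self_pow (by norm_num) p)
    have h5 := (Nat.mul_le_mul_right (p ^ 6) h3).trans
      (show 3 * (p ^ 15) ^ 2 * ((K + 1) * p ^ 7 * ((p ^ 4) ^ K) ^ 3) * p ^ 6 ≤
        (p ^ 15 * (p ^ 4) ^ K) ^ 3 from by
          calc _ = (3 * (K + 1)) * (p ^ 43 * ((p ^ 4) ^ K) ^ 3) := by ring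
            _ ≤ p ^ 2 * (p ^ 43 * ((p ^ 4) ^ K) ^ 3) := Nat.mul_le_mul_right _ h4
            _ = _ := by ring)
    exact_mod_cast h5

end Crest.Agent.R32
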