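import Crest.Agent.R32.FamilyX

/-! Row 32: the family of candidate vectors. -/

set_option autoImplicit false

namespace Crest.Agent.R32

open Finset
open scoped Classical

theorem card_filter_prod2 {α β : Type*} (A : Finset α) (B : Finset β)
    (P : α × β → Prop) [DecidablePred P] :
    ((((A ×ˢ B).filter P).card : ℕ) : ℝ) =
      ∑ a ∈ A, (((B.filter fun b => P (a, b)).card : ℕ) : ℝ) := by
  simp only [card_filter, sum_product]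
  push_cast
  rfl

/-- the candidate vector with class `b` and top part `c` -/
def vec (W Wz L3 : ℕ) (b c : V3) : V3 :=
  (b.1 + W * c.1, b.2.1 + W * c.2.1, b.2.2 + Wz * (L3 + c.2.2))

/-- the top parts -/
noncomputable def tops (L1 L2 L3 : ℕ) : Finset V3 :=
  Ico (0 : ℤ) L1 ×ˢ Ico (0 : ℤ) L2 ×ˢ Ico (0 : ℤ) L3

theorem card_tops (L1 L2 L3 : ℕ) : (tops L1 L2 L3).card = L1 * L2 * L3 := by
  simp only [tops, card_product, Int.card_Ico, sub_zero, Int.toNat_natCast]; ring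

theorem card_pairs {β : Type} (C : Finset β) (b : β → V3) (W Wz L1 L2 L3 : ℕ) (K : ℝ)
    (hK : ∀ k ∈ C, ∀ k' ∈ C,
      (((((Ico (0 : ℤ) L2 ×ˢ Ico (0 : ℤ) L3) ×ˢ (Ico (0 : ℤ) L2 ×ˢ Ico (0 : ℤ) L3)).filter fun c =>
      ((b k).2.1 + W * c.1.1) * ((b k').2.2 + Wz * (L3 + c.2.2)) =
        ((b k').2.1 + W * c.2.1) * ((b k).2.2 + Wz * (L3 + c.1.2))).card : ℕ) : ℝ) ≤ K) :
    (((((C ×ˢ tops L1 L2 L3) ×ˢ (C ×ˢ tops L1 L2 L3)).filter fun ω =>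
      (vec W Wz L3 (b ω.1.1) ω.1.2).2.1 * (vec W Wz L3 (b ω.2.1) ω.2.2).2.2 =
      (vec W Wz L3 (b ω.2.1) ω.2.2).2.1 * (vec W Wz L3 (b ω.1.1) ω.1.2).2.2).card : ℕ) : ℝ) ≤
      K * ((C.card : ℝ) * L1) ^ 2 := by
  have h1 : (((C ×ˢ tops L1 L2 L3) ×ˢ (C ×ˢ tops L1 L2 L3)).filter fun ω =>
      (vec W Wz L3 (b ω.1.1) ω.1.2).2.1 * (vec W Wz L3 (b ω.2.1) ω.2.2).2.2 =
      (vec W Wz L3 (b ω.2.1) ω.2.2).2.1 * (vec W Wz L3 (b ω.1.1) ω.1.2).2.2).card ≤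
      ((((C ×ˢ Ico (0 : ℤ) L1) ×ˢ (C ×ˢ Ico (0 : ℤ) L1)) ×ˢ
        ((Ico (0 : ℤ) L2 ×ˢ Ico (0 : ℤ) L3) ×ˢ (Ico (0 : ℤ) L2 ×ˢ Ico (0 : ℤ) L3))).filter fun x =>
      ((b x.1.1.1).2.1 + W * x.2.1.1) * ((b x.1.2.1).2.2 + Wz * (L3 + x.2.2.2)) =
        ((b x.1.2.1).2.1 + W * x.2.2.1) * ((b x.1.1.1).2.2 + Wz * (L3 + x.2.1.2))).card := by
    apply card_le_card_of_injOn
      (fun ω => (((ω.1.1, ω.1.2.1), (ω.2.1, ω.2.2.1)), (ω.1.2.2, ω.2.2.2)))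
    · intro ω hω
      simp only [coe_filter, mem_product, tops, vec, Set.mem_ofPred_eq] at hω ⊢
      tauto
    · rintro ⟨⟨a, b, c⟩, d, e, f⟩ - ⟨⟨a', b', c'⟩, d', e', f'⟩ - h
      simp only [Prod.mk.injEq] at h ⊢
      tauto
  refine le_trans (Nat.cast_le.2 h1) ?_
  rw [card_filter_prod2]
  calc _ ≤ ∑ x ∈ (C ×ˢ Ico (0 : ℤ) L1) ×ˢ (C ×ˢ Ico (0 : ℤ) L1), K := by
        apply sum_le_sum
        intro x hx
        simp only [mem_product] at hx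
        refine le_trans (le_of_eq ?_) (hK _ hx.1.1 _ hx.2.1)
        simp only
    _ = _ := by
        simp only [sum_const, card_product, Int.card_Ico, sub_zero, Int.toNat_natCast,
          nsmul_eq_mul]
        push_cast; ring

theorem r1_vec (W Wz L3 : ℕ) (b₁ b₂ b₃ c₁ c₂ c₃ : V3) :
    r1 (vec W Wz L3 b₁ c₁) (vec W Wz L3 b₂ c₂) (vec W Wz L3 b₃ c₃) =
      lift W (r1 b₁ b₂ b₃) (r1 c₁ c₂ c₃) := rfl

theorem r2_vec (W Wz L3 : ℕ) (b₁ b₂ b₃ c₁ c₂ c₃ : V3) :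
    r2 (vec W Wz L3 b₁ c₁) (vec W Wz L3 b₂ c₂) (vec W Wz L3 b₃ c₃) =
      lift W (r2 b₁ b₂ b₃) (r2 c₁ c₂ c₃) := rfl

theorem r3_vec (W Wz L3 : ℕ) (b₁ b₂ b₃ c₁ c₂ c₃ : V3) :
    r3 (vec W Wz L3 b₁ c₁) (vec W Wz L3 b₂ c₂) (vec W Wz L3 b₃ c₃) =
      liftZ Wz L3 (r3 b₁ b₂ b₃) (r3 c₁ c₂ c₃) := rfl

theorem card_triples {Γ β : Type} [Fintype Γ] (E : Finset β) (b : Γ → β → V3)
    (W Wz L1 L2 L3 A : ℕ) :
    (((((univ ×ˢ E) ×ˢ tops L1 L2 L3) ×ˢ ((univ ×ˢ E) ×ˢ tops L1 L2 L3) ×ˢ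
      ((univ ×ˢ E) ×ˢ tops L1 L2 L3)).filter
      (fun ω : ((Γ × β) × V3) × ((Γ × β) × V3) × ((Γ × β) × V3) =>
        Mx (cross (r2 (vec W Wz L3 (b ω.1.1.1 ω.1.1.2) ω.1.2)
          (vec W Wz L3 (b ω.2.1.1.1 ω.2.1.1.2) ω.2.1.2) (vec W Wz L3 (b ω.2.2.1.1 ω.2.2.1.2) ω.2.2.2))
          (r3 (vec W Wz L3 (b ω.1.1.1 ω.1.1.2) ω.1.2)
          (vec W Wz L3 (b ω.2.1.1.1 ω.2.1.1.2) ω.2.1.2) (vec W Wz L3 (b ω.2.2.1.1 ω.2.2.1.2) ω.2.2.2))) ∧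
        |dot (cross (r2 (vec W Wz L3 (b ω.1.1.1 ω.1.1.2) ω.1.2)
          (vec W Wz L3 (b ω.2.1.1.1 ω.2.1.1.2) ω.2.1.2) (vec W Wz L3 (b ω.2.2.1.1 ω.2.2.1.2) ω.2.2.2))
          (r3 (vec W Wz L3 (b ω.1.1.1 ω.1.1.2) ω.1.2)
          (vec W Wz L3 (b ω.2.1.1.1 ω.2.1.1.2) ω.2.1.2) (vec W Wz L3 (b ω.2.2.1.1 ω.2.2.1.2) ω.2.2.2)))
          (r1 (vec W Wz L3 (b ω.1.1.1 ω.1.1.2) ω.1.2)
          (vec W Wz L3 (b ω.2.1.1.1 ω.2.1.1.2) ω.2.1.2)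
          (vec W Wz L3 (b ω.2.2.1.1 ω.2.2.1.2) ω.2.2.2))| ≤ A)).card : ℝ) ≤
      ∑ γ : Γ × Γ × Γ, ∑ a ∈ E ×ˢ E ×ˢ E,
        (((box L1 ×ˢ box L2 ×ˢ box L3).filter fun c =>
          Mx (cross (lift W (r2 (b γ.1 a.1) (b γ.2.1 a.2.1) (b γ.2.2 a.2.2)) c.2.1)
            (liftZ Wz L3 (r3 (b γ.1 a.1) (b γ.2.1 a.2.1) (b γ.2.2 a.2.2)) c.2.2)) ∧
          |dot (cross (lift W (r2 (b γ.1 a.1) (b γ.2.1 a.2.1) (b γ.2.2 a.2.2)) c.2.1)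
            (liftZ Wz L3 (r3 (b γ.1 a.1) (b γ.2.1 a.2.1) (b γ.2.2 a.2.2)) c.2.2))
            (lift W (r1 (b γ.1 a.1) (b γ.2.1 a.2.1) (b γ.2.2 a.2.2)) c.1)| ≤ A).card : ℝ) := by
  rw [← sum_product', ← card_filter_prod2 (univ ×ˢ (E ×ˢ E ×ˢ E)) (box L1 ×ˢ box L2 ×ˢ box L3)
    (fun x : ((Γ × Γ × Γ) × (β × β × β)) × (V3 × V3 × V3) =>
      Mx (cross (lift W (r2 (b x.1.1.1 x.1.2.1) (b x.1.1.2.1 x.1.2.2.1) (b x.1.1.2.2 x.1.2.2.2)) x.2.2.1)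
        (liftZ Wz L3 (r3 (b x.1.1.1 x.1.2.1) (b x.1.1.2.1 x.1.2.2.1) (b x.1.1.2.2 x.1.2.2.2)) x.2.2.2)) ∧
      |dot (cross (lift W (r2 (b x.1.1.1 x.1.2.1) (b x.1.1.2.1 x.1.2.2.1) (b x.1.1.2.2 x.1.2.2.2)) x.2.2.1)
        (liftZ Wz L3 (r3 (b x.1.1.1 x.1.2.1) (b x.1.1.2.1 x.1.2.2.1) (b x.1.1.2.2 x.1.2.2.2)) x.2.2.2))
        (lift W (r1 (b x.1.1.1 x.1.2.1) (b x.1.1.2.1 x.1.2.2.1) (b x.1.1.2.2 x.1.2.2.2)) x.2.1)| ≤ A),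
    Nat.cast_le]
  apply card_le_card_of_injOn
    (fun ω => (((ω.1.1.1, ω.2.1.1.1, ω.2.2.1.1), (ω.1.1.2, ω.2.1.1.2, ω.2.2.1.2)),
      (r1 ω.1.2 ω.2.1.2 ω.2.2.2, r2 ω.1.2 ω.2.1.2 ω.2.2.2, r3 ω.1.2 ω.2.1.2 ω.2.2.2)))
  · intro ω hω
    simp only [coe_filter, mem_product, tops, box, Set.mem_ofPred_eq, mem_univ, true_and] at hω ⊢
    obtain ⟨⟨⟨a1, a2, a3, a4⟩, ⟨b1, b2, b3, b4⟩, ⟨c1, c2, c3, c4⟩⟩, h⟩ := hω
    rw [r1_vec, r2_vec, r3_vec] at h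
    exact ⟨⟨⟨a1, b1, c1⟩, ⟨a2, b2, c2⟩, ⟨a3, b3, c3⟩, ⟨a4, b4, c4⟩⟩, h⟩
  · rintro ⟨⟨⟨a1, a2⟩, a3, a4, a5⟩, ⟨⟨b1, b2⟩, b3, b4, b5⟩, ⟨⟨c1, c2⟩, c3, c4, c5⟩⟩ -
      ⟨⟨⟨a1', a2'⟩, a3', a4', a5'⟩, ⟨⟨b1', b2'⟩, b3', b4', b5'⟩, ⟨⟨c1', c2'⟩, c3', c4', c5'⟩⟩ - h
    simp only [Prod.mk.injEq] at h ⊢
    tauto

theorem det_congr {n : ℤ} {X X' Y Y' Z Z' : V3}
    (hX : X.1 ≡ X'.1 [ZMOD n] ∧ X.2.1 ≡ X'.2.1 [ZMOD n] ∧ X.2.2 ≡ X'.2.2 [ZMOD n])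
    (hY : Y.1 ≡ Y'.1 [ZMOD n] ∧ Y.2.1 ≡ Y'.2.1 [ZMOD n] ∧ Y.2.2 ≡ Y'.2.2 [ZMOD n])
    (hZ : Z.1 ≡ Z'.1 [ZMOD n] ∧ Z.2.1 ≡ Z'.2.1 [ZMOD n] ∧ Z.2.2 ≡ Z'.2.2 [ZMOD n]) :
    dot (cross Y Z) X ≡ dot (cross Y' Z') X' [ZMOD n] :=
  ((((hY.2.1.mul hZ.2.2).sub (hY.2.2.mul hZ.2.1)).mul hX.1).add
    (((hY.2.2.mul hZ.1).sub (hY.1.mul hZ.2.2)).mul hX.2.1)).add
    (((hY.1.mul hZ.2.1).sub (hY.2.1.mul hZ.1)).mul hX.2.2)

theorem add_mul_modEq {n W : ℤ} (h : n ∣ W) (x t : ℤ) : x + W * t ≡ x [ZMOD n] := by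
  apply Int.ModEq.symm
  rw [Int.modEq_iff_dvd]
  simpa using h.mul_right t

/-- the number of lifts with a small determinant of one triple of classes -/
theorem class_bound {F A Q1 Q L1 L2 L3 : ℕ} [Fact Q.Prime] {ν : ZMod Q} (hF : 0 < F)
    (hQ1 : 0 < Q1) (hL3 : (F * Q * Q1) ^ 2 ≤ L3) (hL2 : 2 * (F * Q) * (F * Q * Q1 * L3) ≤ L2)
    (hL1 : F * Q * L2 ≤ L1) {d₁ d₂ d₃ b₁ b₂ b₃ : V3} {a₁ a₂ a₃ : ZMod Q × ZMod Q}
    (h₁ : Cls F Q Q1 ν d₁ a₁ b₁) (h₂ : Cls F Q Q1 ν d₂ a₂ b₂) (h₃ : Cls F Q Q1 ν d₃ a₃ b₃)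
    (hc : Cop (F * Q * Q1) (r3 b₁ b₂ b₃)) (D : Prop) (h : ℤ) (hh : |h| ≤ A)
    (hD : ∀ t : ℤ, |t| ≤ A → t ≡ dot (cross (r2 d₁ d₂ d₃) (r3 d₁ d₂ d₃)) (r1 d₁ d₂ d₃) [ZMOD F] →
      D ∧ t = h) :
    (((box L1 ×ˢ box L2 ×ˢ box L3).filter fun c =>
          Mx (cross (lift (F * Q) (r2 b₁ b₂ b₃) c.2.1)
            (liftZ (F * Q * Q1) L3 (r3 b₁ b₂ b₃) c.2.2)) ∧
          |dot (cross (lift (F * Q) (r2 b₁ b₂ b₃) c.2.1)
            (liftZ (F * Q * Q1) L3 (r3 b₁ b₂ b₃) c.2.2))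
            (lift (F * Q) (r1 b₁ b₂ b₃) c.1)| ≤ A).card : ℝ) ≤
      if D then
        (if detQ ν (a₁, a₂, a₃) = h then
          400000 * ((F * Q).divisors.card : ℝ) * Har (2 * L2) *
            ((L1 : ℝ) ^ 2 * (L2 : ℝ) ^ 2 * (L3 : ℝ) ^ 2) / ((F * Q) * (F * Q * Q1)) *
            (ell F (r2 d₁ d₂ d₃) (r3 d₁ d₂ d₃) *
            (1 + if a₂.1 * a₃.2 - a₃.1 * a₂.2 = 0 ∧ a₁.1 * a₂.2 - a₂.1 * a₁.2 = 0
              then (Q : ℝ) else 0)) else 0) +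
        25 * (4 * (A : ℝ) + 1) ^ 2 * ((L1 : ℝ) ^ 2 * L2 * (L3 : ℝ) ^ 3) +
        15625 * ((L1 : ℝ) ^ 2 * (L2 : ℝ) ^ 2 * (L3 : ℝ) ^ 2) *
          Trel (F * Q) (F * Q * Q1) L3 (r1 b₁ b₂ b₃) (r2 b₁ b₂ b₃) (r3 b₁ b₂ b₃)
      else 0 := by
  have hQ : Q.Prime := Fact.out
  have hW : 0 < F * Q := Nat.mul_pos hF hQ.pos
  have hT : 0 ≤ Trel (F * Q) (F * Q * Q1) L3 (r1 b₁ b₂ b₃) (r2 b₁ b₂ b₃) (r3 b₁ b₂ b₃) := by
    apply sum_nonneg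
    intro m hm
    have : (0 : ℝ) < m.2.2 := by exact_mod_cast (mem_rel.1 (mem_filter.1 hm).1).2.2.1
    positivity
  have key : ∀ c : V3 × V3 × V3, |dot (cross (lift (F * Q) (r2 b₁ b₂ b₃) c.2.1)
            (liftZ (F * Q * Q1) L3 (r3 b₁ b₂ b₃) c.2.2))
            (lift (F * Q) (r1 b₁ b₂ b₃) c.1)| ≤ A → D ∧ detQ ν (a₁, a₂, a₃) = h ∧
            dot (cross (lift (F * Q) (r2 b₁ b₂ b₃) c.2.1)
            (liftZ (F * Q * Q1) L3 (r3 b₁ b₂ b₃) c.2.2))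
            (lift (F * Q) (r1 b₁ b₂ b₃) c.1) = h := by
    intro c hc
    have dW : ((F * Q : ℕ) : ℤ) ∣ ((F * Q * Q1 : ℕ) : ℤ) := ⟨Q1, by push_cast; ring⟩
    have e : dot (cross (lift (F * Q) (r2 b₁ b₂ b₃) c.2.1)
            (liftZ (F * Q * Q1) L3 (r3 b₁ b₂ b₃) c.2.2))
            (lift (F * Q) (r1 b₁ b₂ b₃) c.1) ≡
            dot (cross (r2 b₁ b₂ b₃) (r3 b₁ b₂ b₃)) (r1 b₁ b₂ b₃) [ZMOD ((F * Q : ℕ) : ℤ)] :=
      det_congr ⟨add_mul_modEq dvd_rfl _ _, add_mul_modEq dvd_rfl _ _, add_mul_modEq dvd_rfl _ _⟩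
        ⟨add_mul_modEq dvd_rfl _ _, add_mul_modEq dvd_rfl _ _, add_mul_modEq dvd_rfl _ _⟩
        ⟨add_mul_modEq dW _ _, add_mul_modEq dW _ _, add_mul_modEq dW _ _⟩
    have eF := (e.of_dvd (⟨Q, by push_cast; ring⟩ : (F : ℤ) ∣ ((F * Q : ℕ) : ℤ))).trans
      (det_congr (X' := r1 d₁ d₂ d₃) (Y' := r2 d₁ d₂ d₃) (Z' := r3 d₁ d₂ d₃)
        ⟨h₁.1.2.2.1, h₂.1.2.2.1, h₃.1.2.2.1⟩ ⟨h₁.2.1.2.2.1, h₂.2.1.2.2.1, h₃.2.1.2.2.1⟩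
        ⟨h₁.2.2.2.2.1, h₂.2.2.2.2.1, h₃.2.2.2.2.1⟩)
    obtain ⟨k1, k2⟩ := hD _ hc eF
    refine ⟨k1, ?_, k2⟩
    have eQ := (ZMod.intCast_eq_intCast_iff _ _ _).2
      (e.of_dvd (⟨F, by push_cast; ring⟩ : (Q : ℤ) ∣ ((F * Q : ℕ) : ℤ)))
    rw [k2] at eQ
    rw [eQ]
    simp only [dot, cross, detQ]
    push_cast
    rw [h₁.1.2.2.2, h₂.1.2.2.2, h₃.1.2.2.2, h₁.2.1.2.2.2, h₂.2.1.2.2.2, h₃.2.1.2.2.2,
      h₁.2.2.2.2.2.1, h₂.2.2.2.2.2.1, h₃.2.2.2.2.2.1]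
  by_cases hDD : D
  · rw [if_pos hDD]
    by_cases hq : detQ ν (a₁, a₂, a₃) = h
    · rw [if_pos hq]
      have hb := lift_bound (F * Q) (F * Q * Q1) L1 L2 L3 A hW (Nat.mul_pos hW hQ1)
        (Dvd.intro _ rfl) hL3 hL2 hL1 (r1 b₁ b₂ b₃) (r2 b₁ b₂ b₃) (r3 b₁ b₂ b₃)
        ⟨⟨h₁.2.1.1, h₁.2.1.2.1⟩, ⟨h₂.2.1.1, h₂.2.1.2.1⟩, ⟨h₃.2.1.1, h₃.2.1.2.1⟩⟩
        ⟨⟨h₁.2.2.1, h₁.2.2.2.1⟩, ⟨h₂.2.2.1, h₂.2.2.2.1⟩, ⟨h₃.2.2.1, h₃.2.2.2.1⟩⟩ hc h hh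
      have he := ell_le_cls hF h₁ h₂ h₃
      have hH := Har_nonneg (2 * L2)
      refine le_trans (le_trans (Nat.cast_le.2 (card_le_card ?_)) hb) ?_
      · intro c hc
        rw [mem_filter] at hc ⊢
        exact ⟨hc.1, hc.2.1, (key c hc.2.2).2.2⟩
      · refine add_le_add (add_le_add ?_ le_rfl) (le_of_eq (by ring))
        refine le_trans (le_of_eq ?_) (mul_le_mul_of_nonneg_left he (by positivity))
        push_cast; ring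
    · rw [if_neg hq, filter_false_of_mem]
      · simp only [card_empty, Nat.cast_zero]; positivity
      · intro c _ hc
        exact hq (key c hc.2).2.1
  · rw [if_neg hDD, filter_false_of_mem]
    · simp
    · intro c _ hc
      exact hDD (key c hc.2).1

theorem bd_lo {W L : ℕ} {b c : ℤ} (a1 : 0 ≤ b) (a2 : b < W) (c1 : 0 ≤ c) (c2 : c < L) :
    0 ≤ b + W * c ∧ b + W * c < ((W * L : ℕ) : ℤ) := by
  have hW : (0 : ℤ) ≤ W := by positivity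
  push_cast
  exact ⟨by positivity, by nlinarith⟩

theorem bd_hi {W L : ℕ} {b c : ℤ} (a1 : 0 ≤ b) (a2 : b < W) (c1 : 0 ≤ c) (c2 : c < L) :
    ((W * L : ℕ) : ℤ) ≤ b + W * (L + c) ∧ b + W * (L + c) < 2 * ((W * L : ℕ) : ℤ) := by
  have hW : (0 : ℤ) ≤ W := by positivity
  push_cast
  exact ⟨by nlinarith, by nlinarith⟩

theorem const_le {dv H : ℝ} (h1 : 1 ≤ dv) (h2 : 1 ≤ H) :
    (1600000 * dv + 15625 * 20736) * H + (1 + 15625 * 11520 * H) ≤ 10 ^ 9 * dv * H := by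
  nlinarith

theorem exists_family (F A Q1 Q L1 L2 L3 : ℕ) (ε : ℝ) (hF : FData F A ε) (hA : 2 * A < F)
    (hQ : Q.Prime) (hQ2 : 2 < Q) (hQF : Nat.Coprime Q F) (hQ1F : Nat.Coprime Q1 F)
    (hQ1Q : Nat.Coprime Q1 Q) (h3 : 3 * F ≤ Q1) (hεQ : (F : ℝ) ^ 2 * Q1 ≤ ε * Q)
    (hL3 : (F * Q * Q1) ^ 2 ≤ L3) (hL2 : 2 * (F * Q) * (F * Q * Q1 * L3) ≤ L2)
    (hL1 : F * Q * L2 ≤ L1) (hεL : 100 * (F : ℝ) ^ 4 * (Q : ℝ) ^ 3 * Q1 * L3 ≤ ε * L2) :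
    ∃ (α : Type) (Ω : Finset α) (u : α → V3), Ω.Nonempty ∧
      (∀ ω ∈ Ω, (0 ≤ (u ω).1 ∧ (u ω).1 < (F * Q * L1 : ℕ)) ∧
        (0 ≤ (u ω).2.1 ∧ (u ω).2.1 < (F * Q * L2 : ℕ)) ∧
        (((F * Q * Q1 * L3 : ℕ) : ℤ) ≤ (u ω).2.2 ∧ (u ω).2.2 < 2 * (F * Q * Q1 * L3 : ℕ))) ∧
      ((((Ω ×ˢ Ω).filter fun ω =>
        (u ω.1).2.1 * (u ω.2).2.2 = (u ω.2).2.1 * (u ω.1).2.2).card : ℕ) : ℝ) ≤
        4 * (Har L2 + 2 * (F * Q * Q1)) / (L2 * L3) * (Ω.card : ℝ) ^ 2 ∧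
      ((((Ω ×ˢ Ω ×ˢ Ω).filter fun ω =>
        Mx (cross ((u ω.1).2.1, (u ω.2.1).2.1, (u ω.2.2).2.1)
          ((u ω.1).2.2, (u ω.2.1).2.2, (u ω.2.2).2.2)) ∧
        |dot (cross ((u ω.1).2.1, (u ω.2.1).2.1, (u ω.2.2).2.1)
          ((u ω.1).2.2, (u ω.2.1).2.2, (u ω.2.2).2.2)) ((u ω.1).1, (u ω.2.1).1, (u ω.2.2).1)| ≤
          A).card : ℕ) : ℝ) ≤
        10 ^ 9 * ((F * Q).divisors.card : ℝ) * Har (2 * L2) * ε /
          ((F : ℝ) ^ 2 * (Q : ℝ) ^ 3 * Q1 * L1 * L2 * L3) * (Ω.card : ℝ) ^ 3 := by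
  obtain ⟨Γ, _, _, DX, DY, DZ, Deg, hDZ, hdet, hell⟩ := hF
  have : Fact Q.Prime := ⟨hQ⟩
  have hF0 : 0 < F := by omega
  have hQ10 : 0 < Q1 := by omega
  have hW : 0 < F * Q := Nat.mul_pos hF0 hQ.pos
  have hWz : 0 < F * Q * Q1 := Nat.mul_pos hW hQ10
  have hL30 : 0 < L3 := lt_of_lt_of_le (by positivity) hL3
  have hL20 : 0 < L2 := lt_of_lt_of_le (by positivity) hL2
  have hL10 : 0 < L1 := lt_of_lt_of_le (by positivity) hL1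
  have hFr : (0 : ℝ) < F := by exact_mod_cast hF0
  have hQr : (0 : ℝ) < Q := by exact_mod_cast hQ.pos
  have hQ1r : (0 : ℝ) < Q1 := by exact_mod_cast hQ10
  have hL1r : (0 : ℝ) < L1 := by exact_mod_cast hL10
  have hL2r : (0 : ℝ) < L2 := by exact_mod_cast hL20
  have hL3r : (0 : ℝ) < L3 := by exact_mod_cast hL30
  have hε : 0 < ε := by
    have : 0 < ε * Q := lt_of_lt_of_le (by positivity) hεQ
    exact (mul_pos_iff_of_pos_right hQr).1 this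
  obtain ⟨ν, hν⟩ : ∃ ν : ZMod Q, ¬ IsSquare ν :=
    FiniteField.exists_nonsquare (by rw [ZMod.ringChar_zmod_n]; omega)
  choose b hb using fun (γ : Γ) (a : ZMod Q × ZMod Q) =>
    exists_cls hF0 hQ.pos hQ10 hQF hQ1F hQ1Q ν (DX γ, DY γ, DZ γ) a
  have hE := card_EQ (Q := Q)
  have hE0 : (0 : ℝ) < (EQ Q).card := by
    have : (0 : ℝ) < (Q : ℝ) ^ 2 := by positivity
    linarith
  have hcard : ((((univ : Finset Γ) ×ˢ EQ Q) ×ˢ tops L1 L2 L3).card : ℝ) =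
      Fintype.card Γ * (EQ Q).card * (L1 * L2 * L3) := by
    rw [card_product, card_product, card_tops, card_univ]; push_cast; ring
  have hΓ : (0 : ℝ) < Fintype.card Γ := by exact_mod_cast Fintype.card_pos
  refine ⟨(Γ × (ZMod Q × ZMod Q)) × V3, (univ ×ˢ EQ Q) ×ˢ tops L1 L2 L3,
    fun ω => vec (F * Q) (F * Q * Q1) L3 (b ω.1.1 ω.1.2) ω.2, ?_, ?_, ?_, ?_⟩
  · rw [← card_pos, ← Nat.cast_pos (α := ℝ), hcard]; positivity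
  · intro ω hω
    simp only [mem_product, tops, mem_Ico] at hω
    obtain ⟨-, ⟨c1, c2⟩, ⟨c3, c4⟩, c5, c6⟩ := hω
    obtain ⟨⟨a1, a2, -⟩, ⟨a3, a4, -⟩, a5, a6, -⟩ := hb ω.1.1 ω.1.2
    exact ⟨bd_lo a1 a2 c1 c2, bd_lo a3 a4 c3 c4, bd_hi a5 a6 c5 c6⟩
  · have := card_pairs ((univ : Finset Γ) ×ˢ EQ Q) (fun k => b k.1 k.2) (F * Q) (F * Q * Q1) L1 L2 L3
      (4 * (Har L2 + 2 * (F * Q * Q1 : ℕ)) * L2 * L3) (by
        intro k hk k' hk'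
        refine pair_count (F * Q) (F * Q * Q1) L2 L3 hW hWz (Dvd.intro _ rfl) hL30 ?_ _ _ _ _
          ⟨(hb _ _).2.2.1, (hb _ _).2.2.2.1⟩ ⟨(hb _ _).2.2.1, (hb _ _).2.2.2.1⟩
          ((hb _ _).cop (mem_product.1 hk).2 (hDZ _))
        refine le_trans ?_ hL2
        calc 2 * (F * Q * Q1 * L3) = 2 * 1 * (F * Q * Q1 * L3) := by ring
          _ ≤ _ := by gcongr; exact hW)
    refine le_trans (le_of_eq ?_) (this.trans (le_of_eq ?_))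
    · congr
    · rw [hcard, card_product, card_univ]; push_cast; field_simp
  · have h1 := card_triples (EQ Q) b (F * Q) (F * Q * Q1) L1 L2 L3 A
    refine le_trans (le_of_eq ?_) (h1.trans ?_)
    · congr
    clear h1
    have hh : ∀ γ : Γ × Γ × Γ, ∃ h : ℤ, |h| ≤ A ∧ ∀ t : ℤ, |t| ≤ A →
        t ≡ dot (cross (DY γ.1, DY γ.2.1, DY γ.2.2) (DZ γ.1, DZ γ.2.1, DZ γ.2.2))
          (DX γ.1, DX γ.2.1, DX γ.2.2) [ZMOD F] → Deg γ.1 γ.2.1 γ.2.2 ∧ t = h := by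
      intro γ
      by_cases hex : ∃ h : ℤ, |h| ≤ A ∧
          h ≡ dot (cross (DY γ.1, DY γ.2.1, DY γ.2.2) (DZ γ.1, DZ γ.2.1, DZ γ.2.2))
          (DX γ.1, DX γ.2.1, DX γ.2.2) [ZMOD F]
      · obtain ⟨h, k1, k2⟩ := hex
        refine ⟨h, k1, fun t t1 t2 => ⟨hdet _ _ _ t t1 t2, ?_⟩⟩
        by_contra hne
        have k3 := (k2.trans t2.symm).dvd
        have k4 := Int.le_of_dvd (abs_pos.2 (sub_ne_zero.2 hne)) ((dvd_abs _ _).2 k3)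
        have k5 := abs_sub t h
        omega
      · exact ⟨0, by simp, fun t t1 t2 => absurd ⟨t, t1, t2⟩ hex⟩
    choose h hhA hh using hh
    set LL : ℝ := (L1 : ℝ) ^ 2 * (L2 : ℝ) ^ 2 * (L3 : ℝ) ^ 2 with hLL
    set dv : ℝ := ((F * Q).divisors.card : ℝ) with hdv
    have hdv1 : 1 ≤ dv := by
      have : 0 < (F * Q).divisors.card := card_pos.2 ⟨1, Nat.one_mem_divisors.2 hW.ne'⟩
      rw [hdv]; exact_mod_cast this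
    have hH1 : 1 ≤ Har (2 * L2) := one_le_Har (by omega)
    have hL32 : L3 ≤ L2 := by
      refine le_trans ?_ hL2
      calc L3 = 1 * (1 * L3) := by ring
        _ ≤ _ := by gcongr <;> omega
    have hH2 : Har (2 * L3) ≤ Har (2 * L2) := Har_mono (by omega)
    have hH3 := Har_nonneg (2 * L3)
    set H := Har (2 * L2) with hH
    set E : ℝ := ((EQ Q).card : ℝ) with hEdef
    set G : ℝ := (Fintype.card Γ : ℝ) with hG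
    set Den : ℝ := (F : ℝ) ^ 2 * (Q : ℝ) ^ 3 * Q1 with hDen
    have hDen0 : 0 < Den := by positivity
    have hQ6 : (Q : ℝ) ^ 6 ≤ 8 * E ^ 3 := by
      calc (Q : ℝ) ^ 6 = ((Q : ℝ) ^ 2) ^ 3 := by ring
        _ ≤ (2 * E) ^ 3 := by gcongr
        _ = _ := by ring
    set c1 : ℝ := (1600000 * dv + 15625 * 20736) * H * LL * E ^ 3 / Den with hc1
    set c2 : ℝ := (1 + 15625 * 11520 * H) * LL * E ^ 3 * ε / Den with hc2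
    have hc10 : 0 ≤ c1 := by positivity
    have hc20 : 0 ≤ c2 := by positivity
    calc _ ≤ ∑ γ : Γ × Γ × Γ, ((if Deg γ.1 γ.2.1 γ.2.2 then c1 *
          (ell F (DY γ.1, DY γ.2.1, DY γ.2.2) (DZ γ.1, DZ γ.2.1, DZ γ.2.2) : ℝ) else 0) + c2) := by
          apply sum_le_sum
          intro γ _
          refine le_trans (sum_le_sum fun a ha => class_bound hF0 hQ10 hL3 hL2 hL1
            (hb γ.1 a.1) (hb γ.2.1 a.2.1) (hb γ.2.2 a.2.2)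
            ⟨(hb _ _).cop (mem_product.1 ha).1 (hDZ _),
              (hb _ _).cop (mem_product.1 (mem_product.1 ha).2).1 (hDZ _),
              (hb _ _).cop (mem_product.1 (mem_product.1 ha).2).2 (hDZ _)⟩
            (Deg γ.1 γ.2.1 γ.2.2) (h γ) (hhA γ) (hh γ)) ?_
          by_cases hD : Deg γ.1 γ.2.1 γ.2.2
          swap
          · simp only [hD, if_false, sum_const_zero, zero_add]; exact hc20
          simp only [hD, if_true]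
          rw [sum_add_distrib, sum_add_distrib, ← sum_filter, ← mul_sum, ← mul_sum, ← mul_sum,
            sum_const, nsmul_eq_mul, card_product, card_product]
          have s1 := sum_ellQ (ν := ν) (h γ : ZMod Q)
          have s3 := sum_Trel hν hF0 hQ1F h3 L3 (d₁ := (DX γ.1, DY γ.1, DZ γ.1))
            (d₂ := (DX γ.2.1, DY γ.2.1, DZ γ.2.1)) (d₃ := (DX γ.2.2, DY γ.2.2, DZ γ.2.2))
            (hDZ _) (b γ.1) (b γ.2.1) (b γ.2.2) (hb _) (hb _) (hb _)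
          simp only [r2, r3] at s3 ⊢
          set l : ℝ := (ell F (DY γ.1, DY γ.2.1, DY γ.2.2) (DZ γ.1, DZ γ.2.1, DZ γ.2.2) : ℝ)
          have hl : 0 ≤ l := by positivity
          have t1 : 400000 * dv * H * LL / ((F * Q) * (F * Q * Q1)) * (l * (4 * E ^ 3 / Q)) =
              1600000 * dv * H * LL * E ^ 3 / Den * l := by
            rw [hDen]; field_simp; ring
          have t2 : ((EQ Q).card * ((EQ Q).card * (EQ Q).card) : ℕ) *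
              (25 * (4 * (A : ℝ) + 1) ^ 2 * ((L1 : ℝ) ^ 2 * L2 * (L3 : ℝ) ^ 3)) ≤
              LL * E ^ 3 * ε / Den := by
            have a1 : 4 * (A : ℝ) + 1 ≤ 2 * F := by
              have : 4 * A + 1 ≤ 2 * F := by omega
              exact_mod_cast this
            rw [le_div_iff₀ hDen0]
            push_cast
            calc _ ≤ E * (E * E) * (25 * (2 * (F : ℝ)) ^ 2 *
                  ((L1 : ℝ) ^ 2 * L2 * (L3 : ℝ) ^ 3)) * Den := by gcongr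
              _ = E ^ 3 * ((L1 : ℝ) ^ 2 * L2 * (L3 : ℝ) ^ 2) *
                  (100 * (F : ℝ) ^ 4 * (Q : ℝ) ^ 3 * Q1 * L3) := by rw [hDen]; ring
              _ ≤ E ^ 3 * ((L1 : ℝ) ^ 2 * L2 * (L3 : ℝ) ^ 2) * (ε * L2) := by gcongr
              _ = _ := by rw [hLL]; ring
          have t3 : 2592 * (Q : ℝ) ^ 3 * l * Har (2 * L3) / ((F : ℝ) ^ 2 * Q1) ≤
              20736 * H * E ^ 3 / Den * l := by
            calc _ = 2592 * (Q : ℝ) ^ 6 * Har (2 * L3) / Den * l := by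
                  rw [hDen]; field_simp
              _ ≤ 2592 * (8 * E ^ 3) * H / Den * l := by gcongr
              _ = _ := by ring
          have t4 : 1440 * (Q : ℝ) ^ 2 * Har (2 * L3) ≤ 11520 * H * E ^ 3 * ε / Den := by
            rw [le_div_iff₀ hDen0]
            calc _ = 1440 * (Q : ℝ) ^ 5 * Har (2 * L3) * ((F : ℝ) ^ 2 * Q1) := by
                  rw [hDen]; ring
              _ ≤ 1440 * (Q : ℝ) ^ 5 * H * (ε * Q) := by gcongr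
              _ = 1440 * (Q : ℝ) ^ 6 * H * ε := by ring
              _ ≤ 1440 * (8 * E ^ 3) * H * ε := by gcongr
              _ = _ := by ring
          calc _ ≤ 400000 * dv * H * LL / ((F * Q) * (F * Q * Q1)) * (l * (4 * E ^ 3 / Q)) +
                LL * E ^ 3 * ε / Den + 15625 * LL * (20736 * H * E ^ 3 / Den * l +
                  11520 * H * E ^ 3 * ε / Den) := by
                refine add_le_add (add_le_add ?_ (le_trans (le_of_eq (by ring)) t2)) ?_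
                · gcongr
                · refine le_trans (le_of_eq ?_) (mul_le_mul_of_nonneg_left
                    (s3.trans (add_le_add t3 t4)) (show 0 ≤ 15625 * LL by positivity))
                  rw [hLL]
                  simp only [mul_assoc, mul_sum]
            _ = _ := by rw [t1, hc1, hc2]; ring
      _ = c1 * ∑ γ ∈ (univ : Finset (Γ × Γ × Γ)).filter (fun γ => Deg γ.1 γ.2.1 γ.2.2),
          (ell F (DY γ.1, DY γ.2.1, DY γ.2.2) (DZ γ.1, DZ γ.2.1, DZ γ.2.2) : ℝ) + c2 * G ^ 3 := by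
          rw [sum_add_distrib, ← sum_filter, ← mul_sum, sum_const, card_univ, nsmul_eq_mul,
            Fintype.card_prod, Fintype.card_prod, hG]
          push_cast; ring
      _ ≤ c1 * (ε * G ^ 3) + c2 * G ^ 3 := by gcongr
      _ = ((1600000 * dv + 15625 * 20736) * H + (1 + 15625 * 11520 * H)) *
          (LL * E ^ 3 * ε * G ^ 3 / Den) := by rw [hc1, hc2]; ring
      _ ≤ (10 ^ 9 * dv * H) * (LL * E ^ 3 * ε * G ^ 3 / Den) := by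
          exact mul_le_mul_of_nonneg_right (const_le hdv1 hH1) (by positivity)
      _ = _ := by
          rw [hcard, hLL, hDen]; field_simp

end Crest.Agent.R32
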