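import Crest.Agent.R32.Basic

/-! Row 32: sums over integer relations. -/

set_option autoImplicit false

namespace Crest.Agent.R32

open Finset
open scoped Classical

theorem msum_card_le_of_fib {α β : Type} (s : Finset α) (t : Finset β) (f : α → β)
    (hf : ∀ a ∈ s, f a ∈ t) (c : ℝ)
    (h : ∀ b ∈ t, (∃ a ∈ s, f a = b) → ((s.filter (fun a => f a = b)).card : ℝ) ≤ c) (hc : 0 ≤ c) :
    (s.card : ℝ) ≤ c * t.card := by
  rw [card_eq_sum_card_fiberwise (f := f) (s := s) (t := t) (fun a ha => hf a ha)]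
  push_cast
  rw [mul_comm, ← nsmul_eq_mul]
  refine sum_le_card_nsmul _ _ _ fun b hb => ?_
  by_cases hne : ∃ a ∈ s, f a = b
  · exact h b hb hne
  · rw [filter_eq_empty_iff.2 (fun a ha e => hne ⟨a, ha, e⟩)]
    simpa using hc

/-- non-zero multiples of `e` in `[-J, J]` -/
noncomputable def msumMult (e J : ℕ) : Finset ℤ :=
  (Icc (-(J : ℤ)) J).filter fun j => j ≠ 0 ∧ (e : ℤ) ∣ j

theorem msum_card_mult (e J : ℕ) (he : 0 < e) : ((msumMult e J).card : ℝ) ≤ 2 * J / e := by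
  have h1 : msumMult e J ⊆
      ((Icc (-((J / e : ℕ) : ℤ)) (J / e : ℕ)).erase 0).image (fun k : ℤ => (e : ℤ) * k) := by
    intro j hj
    simp only [msumMult, mem_filter, mem_Icc] at hj
    obtain ⟨⟨h1, h2⟩, h3, k, rfl⟩ := hj
    refine mem_image.2 ⟨k, mem_erase.2 ⟨fun h => h3 (by simp [h]), ?_⟩, rfl⟩
    have he' : (0 : ℤ) < e := by exact_mod_cast he
    rw [mem_Icc, Int.natCast_div, neg_le, Int.le_ediv_iff_mul_le he', Int.le_ediv_iff_mul_le he']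
    constructor <;> linarith
  have h2 := (card_le_card h1).trans card_image_le
  rw [card_erase_of_mem (by simp; positivity), Int.card_Icc] at h2
  have h3 : (msumMult e J).card ≤ 2 * (J / e) := by
    generalize J / e = k at h2
    omega
  calc ((msumMult e J).card : ℝ) ≤ ((2 * (J / e) : ℕ) : ℝ) := by exact_mod_cast h3
    _ ≤ 2 * J / e := by
      rw [Nat.cast_mul, mul_div_assoc]
      exact mul_le_mul_of_nonneg_left Nat.cast_div_le (by norm_num)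

theorem msum_hom {K : Type} [AddCommGroup K] [Fintype K] {F : ℕ} [NeZero F] (φ : K →+ ZMod F) :
    ∃ e : ℕ, 0 < e ∧ (∀ (j : ℤ) (x : K), φ x = j → (e : ℤ) ∣ j) ∧
      ∀ y, (univ.filter fun x => φ x = y).card * F ≤ Fintype.card K * e := by
  refine ⟨φ.range.index, Nat.pos_of_ne_zero AddSubgroup.index_ne_zero_of_finite, ?_, ?_⟩
  · intro j x hx
    obtain ⟨a, ha⟩ := Int.subgroup_cyclic (φ.range.comap (Int.castAddHom (ZMod F)))
    have h1 : (φ.range.comap (Int.castAddHom (ZMod F))).index = φ.range.index :=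
      AddSubgroup.index_comap_of_surjective _ (ZMod.intCast_surjective)
    have h2 : j ∈ φ.range.comap (Int.castAddHom (ZMod F)) := ⟨x, hx⟩
    rw [ha, ← AddSubgroup.zmultiples_eq_closure] at h1 h2
    rw [← h1, Int.index_zmultiples, Int.natAbs_dvd]
    exact Int.mem_zmultiples_iff.1 h2
  · intro y
    by_cases hy : y ∈ Set.range φ
    · rw [AddMonoidHom.card_fiber_eq_of_mem_range φ hy (y := 0) ⟨0, map_zero φ⟩]
      have h1 : (univ.filter fun x => φ x = 0).card = Nat.card φ.ker := by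
        rw [Nat.card_eq_fintype_card, Fintype.card_subtype]
        simp [AddMonoidHom.mem_ker]
      have h2 := φ.ker.card_mul_index
      have h3 := φ.range.card_mul_index
      rw [AddSubgroup.index_ker] at h2
      rw [Nat.card_zmod] at h3
      rw [h1, ← Nat.card_eq_fintype_card, ← h2, mul_assoc, h3]
    · rw [filter_eq_empty_iff.2 (fun x _ e => hy ⟨x, e⟩)]
      simp

theorem msum_hom_sub {G : Type} [AddCommGroup G] [Fintype G] {F : ℕ} [NeZero F]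
    (K : AddSubgroup G) (φ : G →+ ZMod F) (J : ℕ) :
    (((Icc (-(J : ℤ)) J ×ˢ (univ : Finset G)).filter
      fun p => p.1 ≠ 0 ∧ p.2 ∈ K ∧ φ p.2 = p.1).card : ℝ) ≤ 2 * J * Nat.card K / F := by
  obtain ⟨e, he, h1, h2⟩ := msum_hom (φ.comp K.subtype)
  have hF : (0 : ℝ) < F := by exact_mod_cast Nat.pos_of_ne_zero (NeZero.ne F)
  have he' : (0 : ℝ) < e := by exact_mod_cast he
  refine (msum_card_le_of_fib _ (msumMult e J) Prod.fst ?_ (Nat.card K * e / F) ?_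
    (by positivity)).trans ?_
  · intro p hp
    simp only [mem_filter, mem_product, mem_univ, and_true] at hp
    exact mem_filter.2 ⟨hp.1, hp.2.1, h1 p.1 ⟨p.2, hp.2.2.1⟩ hp.2.2.2⟩
  · intro j _ _
    rw [le_div_iff₀ hF, Nat.card_eq_fintype_card]
    have h3 : ((univ.filter fun x => (φ.comp K.subtype) x = (j : ZMod F)).card : ℝ) * F ≤
        Fintype.card K * e := by exact_mod_cast h2 (j : ZMod F)
    refine le_trans ?_ h3
    refine mul_le_mul_of_nonneg_right (Nat.cast_le.2 ?_) hF.le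
    refine card_le_card_of_surjOn (fun x : K => (j, (x : G))) ?_
    rintro ⟨j', x⟩ hp
    simp only [coe_filter, mem_filter, mem_product, mem_univ, and_true, Set.mem_ofPred_eq] at hp
    obtain ⟨⟨-, -, h5, h4⟩, h6⟩ := hp
    subst h6
    exact ⟨⟨x, h5⟩, by simpa using h4, rfl⟩
  · refine (mul_le_mul_of_nonneg_left (msum_card_mult e J he) (by positivity)).trans (le_of_eq ?_)
    field_simp

/-- the linear form `a x + b y` -/
def msumLin {F : ℕ} (a b : ZMod F) : ZMod F × ZMod F →+ ZMod F where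
  toFun x := a * x.1 + b * x.2
  map_zero' := by simp
  map_add' x y := by simp only [Prod.fst_add, Prod.snd_add]; ring

theorem msum_card_ker {F : ℕ} [NeZero F] (a b : ℤ) :
    (Nat.card (msumLin (a : ZMod F) (b : ZMod F)).ker : ℝ) ≤ F * (Nat.gcd F (Int.gcd a b) : ℕ) := by
  obtain ⟨e, he, h1, h2⟩ := msum_hom (msumLin (a : ZMod F) (b : ZMod F))
  have hF : 0 < F := Nat.pos_of_ne_zero (NeZero.ne F)
  have h3 : (e : ℤ) ∣ (F : ℤ) := h1 F 0 (by simp)
  have h4 : (e : ℤ) ∣ (Int.gcd a b : ℤ) := by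
    refine h1 _ ((Int.gcdA a b : ZMod F), (Int.gcdB a b : ZMod F)) ?_
    rw [Int.gcd_eq_gcd_ab]
    simp [msumLin]
  have h5 : e ≤ Nat.gcd F (Int.gcd a b) :=
    Nat.le_of_dvd (Nat.gcd_pos_of_pos_left _ hF)
      (Nat.dvd_gcd (Int.natCast_dvd_natCast.1 h3) (Int.natCast_dvd_natCast.1 h4))
  have h6 : (univ.filter fun x => msumLin (a : ZMod F) (b : ZMod F) x = 0).card =
      Nat.card (msumLin (a : ZMod F) (b : ZMod F)).ker := by
    rw [Nat.card_eq_fintype_card, Fintype.card_subtype]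
    simp [AddMonoidHom.mem_ker]
  have h7 := h2 0
  rw [h6, Fintype.card_prod, ZMod.card, mul_assoc, mul_comm F] at h7
  have h8 := (Nat.le_of_mul_le_mul_right h7 hF).trans (Nat.mul_le_mul_left F h5)
  exact_mod_cast h8

theorem msum_abs {R ρ : ℕ} {m : V3} (hm : m ∈ rel R) (hρ : m.2.2 ≤ (ρ : ℤ)) :
    m.1 ≠ 0 ∧ m.2.1 ≠ 0 ∧ 0 < m.2.2 ∧ (-(ρ : ℤ) ≤ m.1 ∧ m.1 ≤ ρ) ∧
      (-(ρ : ℤ) ≤ m.2.1 ∧ m.2.1 ≤ ρ) := by
  obtain ⟨-, h, h0, -⟩ := mem_rel.1 hm
  have e : |m.2.2| = m.2.2 := abs_of_pos h0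
  exact ⟨h.1, h.2.1, h0, abs_le.1 (h.2.2.1.trans (e.le.trans hρ)),
    abs_le.1 (h.2.2.2.trans (e.le.trans hρ))⟩

theorem msum_ker (F Q1 R : ℕ) (hF : 0 < F) (hQ1 : Nat.Coprime Q1 F) (h3 : 3 * F ≤ Q1)
    (By Bz : V3) (hc : IsCoprime Bz.2.1 (F : ℤ)) :
    ∑ m ∈ (rel R).filter (fun m => (F : ℤ) ∣ dot m By ∧ (F : ℤ) ∣ dot m Bz ∧
        (Q1 : ℤ) ∣ sm m ∧ sm m ≠ 0), (1 : ℝ) / (m.2.2 : ℝ) ^ 3 ≤
      864 * ell F By Bz * Har (2 * R) / ((F : ℝ) ^ 2 * Q1) := by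
  have : NeZero F := ⟨hF.ne'⟩
  have hF' : (0 : ℝ) < F := by exact_mod_cast hF
  have hQ0 : 0 < Q1 := by omega
  have hQ' : (0 : ℝ) < Q1 := by exact_mod_cast hQ0
  have hQz : (0 : ℤ) < Q1 := by exact_mod_cast hQ0
  obtain ⟨w, w', hw⟩ : IsCoprime ((Q1 : ℤ) * Bz.2.1) (F : ℤ) :=
    (Nat.isCoprime_iff_coprime.2 hQ1).mul_left hc
  have hw1 : (w : ZMod F) * (Q1 * Bz.2.1) = 1 := by
    have := congrArg (fun z : ℤ => (z : ZMod F)) hw
    simpa using this
  refine (sum_inv_pow_le _ 3 1 R (54 * ell F By Bz / ((F : ℝ) ^ 2 * Q1)) (by positivity) le_rfl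
    ?_ ?_).trans (le_of_eq (by field_simp; ring))
  · intro m hm
    obtain ⟨-, -, h0, h1⟩ := mem_rel.1 (mem_filter.1 hm).1
    exact ⟨by exact_mod_cast h0, h1⟩
  · intro ρ hρ
    have hρ' : (1 : ℝ) ≤ ρ := by exact_mod_cast hρ
    set K := (msumLin (((cross By Bz).2.2 : ℤ) : ZMod F) ((-(cross By Bz).1 : ℤ) : ZMod F)).ker
    set φ := msumLin (((w * (Bz.2.1 - Bz.1) : ℤ)) : ZMod F) ((w * (Bz.2.1 - Bz.2.2) : ℤ) : ZMod F)
    have hK : (Nat.card K : ℝ) ≤ F * ell F By Bz := by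
      have := msum_card_ker (F := F) (cross By Bz).2.2 (-(cross By Bz).1)
      rwa [Int.gcd_neg, Int.gcd_comm] at this
    have hT := msum_hom_sub K φ (3 * ρ / Q1)
    refine (msum_card_le_of_fib _ _
      (fun m : V3 => (sm m / Q1, ((m.1 : ZMod F), (m.2.2 : ZMod F)))) ?_
      (4 * ρ / F * (2 * ρ / F)) ?_ (by positivity)).trans
      ((mul_le_mul_of_nonneg_left hT (by positivity)).trans ?_)
    · intro m hm
      simp only [mem_filter] at hm
      obtain ⟨⟨hm, hy, hz, ⟨j, hj⟩, h0⟩, hm3⟩ := hm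
      obtain ⟨-, -, a0, a1, a2⟩ := msum_abs hm hm3
      have ej : sm m / Q1 = j := by rw [hj, Int.mul_ediv_cancel_left _ hQz.ne']
      have hy' := (ZMod.intCast_zmod_eq_zero_iff_dvd _ _).2 hy
      have hz' := (ZMod.intCast_zmod_eq_zero_iff_dvd _ _).2 hz
      have hj' := congrArg (fun z : ℤ => (z : ZMod F)) hj
      simp only [dot, sm] at hy' hz' hj' hj
      push_cast at hy' hz' hj'
      simp only [mem_filter, mem_product, mem_univ, and_true, mem_Icc, ej]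
      refine ⟨?_, ?_, ?_, ?_⟩
      · rw [Int.natCast_div, neg_le, Int.le_ediv_iff_mul_le hQz, Int.le_ediv_iff_mul_le hQz]
        push_cast
        constructor <;> linarith [a1.1, a1.2, a2.1, a2.2]
      · rintro rfl
        exact h0 (by simpa [sm] using hj)
      · simp only [K, AddMonoidHom.mem_ker, msumLin, cross, AddMonoidHom.coe_mk, ZeroHom.coe_mk]
        push_cast
        linear_combination (Bz.2.1 : ZMod F) * hy' - (By.2.1 : ZMod F) * hz'
      · simp only [φ, msumLin, AddMonoidHom.coe_mk, ZeroHom.coe_mk]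
        push_cast
        linear_combination (-(w : ZMod F)) * hz' + (w : ZMod F) * (Bz.2.1 : ZMod F) * hj' +
          (j : ZMod F) * hw1
    · rintro b - ⟨m₀, hm₀, rfl⟩
      have hFρ : (F : ℝ) ≤ ρ := by
        simp only [mem_filter] at hm₀
        obtain ⟨⟨hm, -, -, hd, h0⟩, hm3⟩ := hm₀
        obtain ⟨-, -, a0, a1, a2⟩ := msum_abs hm hm3
        have h1 := Int.le_of_dvd (abs_pos.2 h0) ((dvd_abs _ _).2 hd)
        have h2 : |sm m₀| ≤ 3 * ρ := by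
          rw [abs_le, sm]
          constructor <;> linarith [a1.1, a1.2, a2.1, a2.2]
        have h4 : F ≤ ρ := by omega
        exact_mod_cast h4
      have c1 := card_modEq_le (-(ρ : ℤ)) (ρ + 1) m₀.1 F hF (by omega)
      have c2 := card_modEq_le 1 (ρ + 1) m₀.2.2 F hF (by omega)
      push_cast at c1 c2
      have d1 : ((ρ : ℝ) + 1 - -ρ) / F + 1 ≤ 4 * ρ / F := by
        rw [div_add_one hF'.ne']
        gcongr
        linarith
      have d2 : ((ρ : ℝ) + 1 - 1) / F + 1 ≤ 2 * ρ / F := by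
        rw [div_add_one hF'.ne']
        gcongr
        linarith
      refine le_trans ?_ (mul_le_mul (c1.trans d1) (c2.trans d2) (Nat.cast_nonneg _) (by positivity))
      rw [← Nat.cast_mul, ← card_product]
      refine Nat.cast_le.2 (card_le_card_of_injOn (fun m : V3 => (m.1, m.2.2)) ?_ ?_)
      · intro m hm
        simp only [coe_filter, mem_filter, Set.mem_ofPred_eq, Prod.mk.injEq] at hm
        obtain ⟨⟨⟨hm, -⟩, hm3⟩, -, e1, e3⟩ := hm
        obtain ⟨-, -, a0, a1, a2⟩ := msum_abs hm hm3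
        simp only [coe_product, coe_filter, mem_Ico, Set.mem_prod, Set.mem_ofPred_eq]
        exact ⟨⟨⟨a1.1, by omega⟩, (ZMod.intCast_eq_intCast_iff _ _ _).1 e1⟩, ⟨by omega, by omega⟩,
          (ZMod.intCast_eq_intCast_iff _ _ _).1 e3⟩
      · rintro ⟨a, b, c⟩ hm ⟨a', b', c'⟩ hm' h
        simp only [coe_filter, mem_filter, Set.mem_ofPred_eq, Prod.mk.injEq] at hm hm' h
        obtain ⟨⟨⟨-, -, -, hd, -⟩, -⟩, e, -⟩ := hm
        obtain ⟨⟨⟨-, -, -, hd', -⟩, -⟩, e', -⟩ := hm'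
        obtain ⟨rfl, rfl⟩ := h
        have h1 := Int.mul_ediv_cancel' hd
        have h2 := Int.mul_ediv_cancel' hd'
        rw [e] at h1
        rw [e', h1] at h2
        simp only [sm] at h2
        have : b = b' := by omega
        rw [this]
    · have hJ : ((3 * ρ / Q1 : ℕ) : ℝ) ≤ 3 * ρ / Q1 := by
        have := Nat.cast_div_le (α := ℝ) (m := 3 * ρ) (n := Q1)
        push_cast at this
        exact this
      have hl : (0 : ℝ) ≤ ell F By Bz := Nat.cast_nonneg _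
      calc 4 * (ρ : ℝ) / F * (2 * ρ / F) * (2 * ((3 * ρ / Q1 : ℕ) : ℝ) * Nat.card K / F)
          ≤ 4 * (ρ : ℝ) / F * (2 * ρ / F) * (2 * (3 * ρ / Q1) * (F * ell F By Bz) / F) := by
            gcongr
        _ = 48 * ell F By Bz / ((F : ℝ) ^ 2 * Q1) * ρ ^ 3 := by field_simp; ring
        _ ≤ _ := by gcongr; norm_num

theorem msum_all (R : ℕ) : ∑ m ∈ rel R, (1 : ℝ) / (m.2.2 : ℝ) ^ 3 ≤ 144 * Har (2 * R) := by
  refine (sum_inv_pow_le _ 3 1 R 9 (by norm_num) le_rfl ?_ ?_).trans (le_of_eq (by norm_num))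
  · intro m hm
    obtain ⟨-, -, h0, h1⟩ := mem_rel.1 hm
    exact ⟨by exact_mod_cast h0, h1⟩
  · intro ρ hρ
    have h1 : (rel R).filter (fun m : V3 => m.2.2 ≤ (ρ : ℤ)) ⊆
        Icc (-(ρ : ℤ)) ρ ×ˢ Icc (-(ρ : ℤ)) ρ ×ˢ Icc (1 : ℤ) ρ := by
      intro m hm
      obtain ⟨hm, hm3⟩ := mem_filter.1 hm
      obtain ⟨-, -, a0, a1, a2⟩ := msum_abs hm hm3
      simp only [mem_product, mem_Icc]
      exact ⟨a1, a2, a0, hm3⟩
    have h2 := card_le_card h1
    rw [card_product, card_product, Int.card_Icc, Int.card_Icc,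
      show ((ρ : ℤ) + 1 - -ρ).toNat = 2 * ρ + 1 by omega,
      show ((ρ : ℤ) + 1 - 1).toNat = ρ by omega] at h2
    have h3 : (2 * ρ + 1) * ((2 * ρ + 1) * ρ) ≤ (3 * ρ) * ((3 * ρ) * ρ) := by
      gcongr <;> omega
    have h4 : (3 * ρ) * ((3 * ρ) * ρ) = 9 * ρ ^ 3 := by ring
    exact_mod_cast h2.trans (h3.trans h4.le)

/-- triples whose first entry is a non-zero multiple of `Q` and whose sum is a multiple of `Q` -/
noncomputable def msumU (Q ρ : ℕ) : Finset V3 :=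
  (Icc (-(ρ : ℤ)) ρ ×ˢ Icc (-(ρ : ℤ)) ρ ×ˢ Icc (-(ρ : ℤ)) ρ).filter
    fun m => m.1 ≠ 0 ∧ (Q : ℤ) ∣ m.1 ∧ (Q : ℤ) ∣ sm m

theorem msum_card_U (Q ρ : ℕ) (hQ : 0 < Q) (hρ : 1 ≤ ρ) :
    ((msumU Q ρ).card : ℝ) ≤ 24 / (Q : ℝ) ^ 2 * (ρ : ℝ) ^ 3 := by
  have hQ' : (0 : ℝ) < Q := by exact_mod_cast hQ
  have hρ' : (1 : ℝ) ≤ ρ := by exact_mod_cast hρ
  refine (msum_card_le_of_fib _ (msumMult Q ρ ×ˢ Icc (-(ρ : ℤ)) ρ) (fun m : V3 => (m.1, m.2.1)) ?_
    (4 * ρ / Q) ?_ (by positivity)).trans ?_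
  · intro m hm
    simp only [msumU, msumMult, mem_filter, mem_product] at hm ⊢
    exact ⟨⟨hm.1.1, hm.2.1, hm.2.2.1⟩, hm.1.2.1⟩
  · rintro ⟨a, b⟩ hb -
    simp only [msumMult, mem_filter, mem_product, mem_Icc] at hb
    obtain ⟨⟨h1, h2, h3⟩, -⟩ := hb
    have hQρ : (Q : ℝ) ≤ ρ := by
      have h4 := (Int.le_of_dvd (abs_pos.2 h2) ((dvd_abs _ _).2 h3)).trans (abs_le.2 h1)
      exact_mod_cast h4
    have c1 := card_dvd_lin_le (-(ρ : ℤ)) (ρ + 1) (a + b) 1 Q hQ (by omega) isCoprime_one_left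
    push_cast at c1
    have d1 : ((ρ : ℝ) + 1 - -ρ) / Q + 1 ≤ 4 * ρ / Q := by
      rw [div_add_one hQ'.ne']
      gcongr
      linarith
    refine le_trans (Nat.cast_le.2 (card_le_card_of_injOn (fun m : V3 => m.2.2) ?_ ?_)) (c1.trans d1)
    · rintro ⟨x, y, z⟩ hm
      simp only [msumU, coe_filter, mem_filter, mem_product, mem_Icc, Set.mem_ofPred_eq,
        Prod.mk.injEq, sm] at hm
      obtain ⟨⟨⟨-, -, h4⟩, -, -, h5⟩, rfl, rfl⟩ := hm
      simp only [coe_filter, mem_Ico, Set.mem_ofPred_eq, one_mul]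
      exact ⟨⟨h4.1, by omega⟩, h5⟩
    · rintro ⟨x, y, z⟩ hm ⟨x', y', z'⟩ hm' h
      simp only [coe_filter, Set.mem_ofPred_eq, Prod.mk.injEq] at hm hm' h
      rw [hm.2.1, hm.2.2, hm'.2.1, hm'.2.2, h]
  · rw [card_product, Int.card_Icc, show ((ρ : ℤ) + 1 - -ρ).toNat = 2 * ρ + 1 by omega]
    push_cast
    have h1 := msum_card_mult Q ρ hQ
    calc 4 * (ρ : ℝ) / Q * ((msumMult Q ρ).card * (2 * ρ + 1))
        ≤ 4 * (ρ : ℝ) / Q * (2 * ρ / Q * (3 * ρ)) := by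
          gcongr
          linarith
      _ = _ := by field_simp; norm_num

theorem msum_dvd (Q R : ℕ) (hQ : 0 < Q) :
    ∑ m ∈ (rel R).filter (fun m => (Q : ℤ) ∣ sm m ∧
        ((Q : ℤ) ∣ m.1 ∨ (Q : ℤ) ∣ m.2.1 ∨ (Q : ℤ) ∣ m.2.2)), (1 : ℝ) / (m.2.2 : ℝ) ^ 3 ≤
      1296 * Har (2 * R) / (Q : ℝ) ^ 2 := by
  have hQ' : (0 : ℝ) < Q := by exact_mod_cast hQ
  refine (sum_inv_pow_le _ 3 1 R (81 / (Q : ℝ) ^ 2) (by positivity) le_rfl ?_ ?_).trans
    (le_of_eq (by field_simp; ring))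
  · intro m hm
    obtain ⟨-, -, h0, h1⟩ := mem_rel.1 (mem_filter.1 hm).1
    exact ⟨by exact_mod_cast h0, h1⟩
  · intro ρ hρ
    have h1 : ((rel R).filter (fun m => (Q : ℤ) ∣ sm m ∧
        ((Q : ℤ) ∣ m.1 ∨ (Q : ℤ) ∣ m.2.1 ∨ (Q : ℤ) ∣ m.2.2))).filter
          (fun m : V3 => m.2.2 ≤ (ρ : ℤ)) ⊆
        msumU Q ρ ∪ ((msumU Q ρ).image (fun m : V3 => (m.2.1, m.1, m.2.2)) ∪
          (msumU Q ρ).image (fun m : V3 => (m.2.2, m.2.1, m.1))) := by
      rintro ⟨x, y, z⟩ hm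
      simp only [mem_filter] at hm
      obtain ⟨⟨hm, hs, hd⟩, hm3⟩ := hm
      obtain ⟨n1, n2, a0, a1, a2⟩ := msum_abs hm hm3
      simp only [sm] at n1 n2 a0 a1 a2 hs
      have a3 : -(ρ : ℤ) ≤ z ∧ z ≤ ρ := ⟨by omega, hm3⟩
      simp only [mem_union, mem_image, msumU, mem_filter, mem_product, mem_Icc, sm]
      rcases hd with hd | hd | hd
      · exact Or.inl ⟨⟨a1, a2, a3⟩, n1, hd, hs⟩
      · exact Or.inr (Or.inl ⟨(y, x, z), ⟨⟨a2, a1, a3⟩, n2, hd, by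
          rwa [show y + x + z = x + y + z by ring]⟩, rfl⟩)
      · exact Or.inr (Or.inr ⟨(z, y, x), ⟨⟨a3, a2, a1⟩, a0.ne', hd, by
          rwa [show z + y + x = x + y + z by ring]⟩, rfl⟩)
    have h2 := (card_le_card h1).trans ((card_union_le _ _).trans
      (Nat.add_le_add_left ((card_union_le _ _).trans (Nat.add_le_add card_image_le card_image_le)) _))
    have h3 := msum_card_U Q ρ hQ hρ
    refine le_trans (Nat.cast_le.2 h2) ?_
    push_cast
    have h4 : 81 / (Q : ℝ) ^ 2 * (ρ : ℝ) ^ 3 =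
        3 * (24 / (Q : ℝ) ^ 2 * (ρ : ℝ) ^ 3) + 9 / (Q : ℝ) ^ 2 * (ρ : ℝ) ^ 3 := by ring
    have h5 : 0 ≤ 9 / (Q : ℝ) ^ 2 * (ρ : ℝ) ^ 3 := by positivity
    linarith

end Crest.Agent.R32
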