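import Crest.Agent.R32.Defs

/-! Row 32: counting on the paraboloid modulo a prime. -/

set_option autoImplicit false

namespace Crest.Agent.R32

open Finset
open scoped Classical

theorem qc_quad {K : Type*} [Field K] (s : Finset K) {A B C : K} (h : A ≠ 0 ∨ B ≠ 0)
    (hs : ∀ x ∈ s, A * x ^ 2 + B * x + C = 0) : s.card ≤ 2 := by
  by_contra hc
  obtain ⟨x, hx, y, hy, z, hz, hxy, hxz, hyz⟩ := Finset.two_lt_card.1 (not_le.1 hc)
  have h1 : A * (x + y) + B = 0 :=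
    mul_left_cancel₀ (sub_ne_zero.2 hxy) (by linear_combination hs x hx - hs y hy)
  have h2 : A * (x + z) + B = 0 :=
    mul_left_cancel₀ (sub_ne_zero.2 hxz) (by linear_combination hs x hx - hs z hz)
  have h3 : A = 0 := mul_left_cancel₀ (sub_ne_zero.2 hyz) (by linear_combination h1 - h2)
  rcases h with h | h
  · exact h h3
  · exact h (by linear_combination h1 - (x + y) * h3)

theorem qc_fiber {α β K : Type*} [Field K] (s : Finset α) (t : Finset β) (f : α → β) (g : α → K)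
    (A B C : β → K) (hm : ∀ a ∈ s, f a ∈ t)
    (hi : ∀ a ∈ s, ∀ a' ∈ s, f a = f a' → g a = g a' → a = a')
    (hq : ∀ a ∈ s, (A (f a) ≠ 0 ∨ B (f a) ≠ 0) ∧ A (f a) * g a ^ 2 + B (f a) * g a + C (f a) = 0) :
    s.card ≤ 2 * t.card := by
  refine card_le_mul_card_image_of_maps_to hm 2 fun b _ => ?_
  rcases (s.filter fun a => f a = b).eq_empty_or_nonempty with h | ⟨a, ha⟩
  · rw [h]; simp
  rw [mem_filter] at ha
  rw [← card_image_of_injOn (f := g) fun x hx y hy hxy => hi x (mem_filter.1 hx).1 y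
    (mem_filter.1 hy).1 ((mem_filter.1 hx).2.trans (mem_filter.1 hy).2.symm) hxy]
  refine qc_quad _ (A := A b) (B := B b) (C := C b) (ha.2 ▸ (hq a ha.1).1) fun x hx => ?_
  obtain ⟨y, hy, rfl⟩ := mem_image.1 hx
  rw [mem_filter] at hy
  exact hy.2 ▸ (hq y hy.1).2

variable {Q : ℕ} [Fact Q.Prime]

/-- the non-zero residues -/
noncomputable def qcZ (Q : ℕ) [NeZero Q] : Finset (ZMod Q) := univ.filter fun z => z ≠ 0

theorem qc_mem_EQ {a : ZMod Q × ZMod Q} : a ∈ EQ Q ↔ a.2 ≠ 0 := by simp [EQ]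

theorem qc_mem_Z {a : ZMod Q} : a ∈ qcZ Q ↔ a ≠ 0 := by simp [qcZ]

theorem qc_card_EQ : (EQ Q).card = Q * (qcZ Q).card := by
  have : EQ Q = univ ×ˢ qcZ Q := by ext a; simp [qc_mem_EQ, qc_mem_Z]
  rw [this, card_product, card_univ, ZMod.card]

theorem qc_card_Z : (qcZ Q).card + 1 = Q := by
  have : qcZ Q = univ.erase 0 := by ext a; simp [qc_mem_Z]
  rw [this, card_erase_add_one (mem_univ _), card_univ, ZMod.card]

theorem qc_aniso {ν : ZMod Q} (hν : ¬ IsSquare ν) {y z : ZMod Q} (h : y ^ 2 - ν * z ^ 2 = 0) :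
    z = 0 := by
  by_contra hz
  exact hν ⟨y / z, by field_simp; linear_combination -h⟩

theorem card_EQ : (Q : ℝ) ^ 2 ≤ 2 * ((EQ Q).card : ℝ) := by
  have h1 : ((qcZ Q).card : ℝ) + 1 = Q := by exact_mod_cast qc_card_Z (Q := Q)
  have h2 : (2 : ℝ) ≤ Q := by exact_mod_cast (Fact.out : Q.Prime).two_le
  rw [qc_card_EQ]
  push_cast
  nlinarith

theorem q_det (ν h : ZMod Q) :
    ((((EQ Q ×ˢ EQ Q ×ˢ EQ Q).filter fun a =>
      (a.2.1.1 * a.2.2.2 - a.2.2.1 * a.2.1.2) * qf ν a.1 +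
      (a.2.2.1 * a.1.2 - a.1.1 * a.2.2.2) * qf ν a.2.1 +
      (a.1.1 * a.2.1.2 - a.2.1.1 * a.1.2) * qf ν a.2.2 = h).card : ℕ) : ℝ) * Q ≤
      3 * ((EQ Q).card : ℝ) ^ 3 := by
  set s := (EQ Q ×ˢ EQ Q ×ˢ EQ Q).filter fun a =>
      (a.2.1.1 * a.2.2.2 - a.2.2.1 * a.2.1.2) * qf ν a.1 +
      (a.2.2.1 * a.1.2 - a.1.1 * a.2.2.2) * qf ν a.2.1 +
      (a.1.1 * a.2.1.2 - a.2.1.1 * a.1.2) * qf ν a.2.2 = h with hs
  have h1 : (s.filter fun a => a.1.1 * a.2.1.2 - a.2.1.1 * a.1.2 = 0).card ≤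
      (qcZ Q ×ˢ EQ Q ×ˢ EQ Q).card := by
    refine card_le_card_of_injOn (fun a => (a.1.2, a.2)) ?_ ?_
    · intro a ha
      simp only [hs, coe_filter, mem_filter, mem_product, qc_mem_EQ, Set.mem_ofPred_eq] at ha
      simp only [mem_coe, mem_product, qc_mem_EQ, qc_mem_Z]
      exact ha.1.1
    · rintro ⟨⟨y1, z1⟩, ⟨y2, z2⟩, a3⟩ ha ⟨⟨y1', z1'⟩, a2', a3'⟩ ha' hh
      simp only [Prod.mk.injEq] at hh
      obtain ⟨rfl, rfl, rfl⟩ := hh
      simp only [hs, coe_filter, mem_filter, mem_product, qc_mem_EQ, Set.mem_ofPred_eq] at ha ha'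
      have : y1 = y1' := mul_right_cancel₀ ha.1.1.2.1 (by linear_combination ha.2 - ha'.2)
      rw [this]
  have h2 : (s.filter fun a => ¬ a.1.1 * a.2.1.2 - a.2.1.1 * a.1.2 = 0).card ≤
      2 * (EQ Q ×ˢ EQ Q ×ˢ qcZ Q).card := by
    refine qc_fiber _ _ (fun a => (a.1, a.2.1, a.2.2.2)) (fun a => a.2.2.1)
      (fun b => b.1.1 * b.2.1.2 - b.2.1.1 * b.1.2)
      (fun b => b.1.2 * qf ν b.2.1 - b.2.1.2 * qf ν b.1)
      (fun b => b.2.1.1 * b.2.2 * qf ν b.1 - b.1.1 * b.2.2 * qf ν b.2.1 -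
        (b.1.1 * b.2.1.2 - b.2.1.1 * b.1.2) * ν * b.2.2 ^ 2 - h) ?_ ?_ ?_
    · intro a ha
      simp only [hs, mem_filter, mem_product, qc_mem_EQ] at ha
      simp only [mem_product, qc_mem_EQ, qc_mem_Z]
      exact ha.1.1
    · rintro ⟨a1, a2, y3, z3⟩ - ⟨a1', a2', y3', z3'⟩ - hh hg
      simp only [Prod.mk.injEq] at hh hg ⊢
      exact ⟨hh.1, hh.2.1, hg, hh.2.2⟩
    · intro a ha
      simp only [hs, mem_filter] at ha
      refine ⟨Or.inl ha.2, ?_⟩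
      have := ha.1.2
      rw [show qf ν a.2.2 = a.2.2.1 ^ 2 - ν * a.2.2.2 ^ 2 from rfl] at this
      linear_combination this
  have h3 := card_filter_add_card_filter_not (s := s)
    (fun a => a.1.1 * a.2.1.2 - a.2.1.1 * a.1.2 = 0)
  simp only [card_product] at h1 h2
  have h4 : s.card * Q ≤ 3 * (EQ Q).card ^ 3 := by
    calc s.card * Q ≤ (3 * ((qcZ Q).card * ((EQ Q).card * (EQ Q).card))) * Q := by
          refine Nat.mul_le_mul_right _ ?_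
          nlinarith
      _ = 3 * ((Q * (qcZ Q).card) * (EQ Q).card ^ 2) := by ring
      _ = _ := by rw [← qc_card_EQ]; ring
  exact_mod_cast h4

theorem q_par :
    ((((EQ Q ×ˢ EQ Q ×ˢ EQ Q).filter fun a =>
      a.2.1.1 * a.2.2.2 - a.2.2.1 * a.2.1.2 = 0 ∧
      a.1.1 * a.2.1.2 - a.2.1.1 * a.1.2 = 0).card : ℕ) : ℝ) * (Q : ℝ) ^ 2 ≤
      ((EQ Q).card : ℝ) ^ 3 := by
  have h1 : ((EQ Q ×ˢ EQ Q ×ˢ EQ Q).filter fun a =>
      a.2.1.1 * a.2.2.2 - a.2.2.1 * a.2.1.2 = 0 ∧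
      a.1.1 * a.2.1.2 - a.2.1.1 * a.1.2 = 0).card ≤ (qcZ Q ×ˢ EQ Q ×ˢ qcZ Q).card := by
    refine card_le_card_of_injOn (fun a => (a.1.2, a.2.1, a.2.2.2)) ?_ ?_
    · intro a ha
      simp only [coe_filter, mem_product, qc_mem_EQ, Set.mem_ofPred_eq] at ha
      simp only [mem_coe, mem_product, qc_mem_EQ, qc_mem_Z]
      exact ha.1
    · rintro ⟨⟨y1, z1⟩, ⟨y2, z2⟩, y3, z3⟩ ha ⟨⟨y1', z1'⟩, a2', y3', z3'⟩ ha' hh
      simp only [Prod.mk.injEq] at hh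
      obtain ⟨rfl, rfl, rfl⟩ := hh
      simp only [coe_filter, mem_product, qc_mem_EQ, Set.mem_ofPred_eq] at ha ha'
      have e1 : y1 = y1' := mul_right_cancel₀ ha.1.2.1 (by linear_combination ha.2.2 - ha'.2.2)
      have e3 : y3 = y3' := mul_right_cancel₀ ha.1.2.1 (by linear_combination ha'.2.1 - ha.2.1)
      rw [e1, e3]
  simp only [card_product] at h1
  have h2 := Nat.mul_le_mul_right (Q ^ 2) h1
  have h3 : (qcZ Q).card * ((EQ Q).card * (qcZ Q).card) * Q ^ 2 = (EQ Q).card ^ 3 := by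
    rw [qc_card_EQ]; ring
  rw [h3] at h2
  exact_mod_cast h2

/-- triples on the paraboloid satisfying the linear relation with coefficients `m₁ m₂ m₃` -/
noncomputable def relQ (ν m₁ m₂ m₃ : ZMod Q) :
    Finset ((ZMod Q × ZMod Q) × (ZMod Q × ZMod Q) × (ZMod Q × ZMod Q)) :=
  (EQ Q ×ˢ EQ Q ×ˢ EQ Q).filter fun a =>
    m₁ * qf ν a.1 + m₂ * qf ν a.2.1 + m₃ * qf ν a.2.2 = 0 ∧
    m₁ * a.1.1 + m₂ * a.2.1.1 + m₃ * a.2.2.1 = 0 ∧
    m₁ * a.1.2 + m₂ * a.2.1.2 + m₃ * a.2.2.2 = 0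

theorem q_rel_ne {ν : ZMod Q} (hν : ¬ IsSquare ν) {m₁ m₂ m₃ : ZMod Q} (hs : m₁ + m₂ + m₃ ≠ 0) :
    (relQ ν m₁ m₂ m₃).card ≤ 3 * Q ^ 3 := by
  have h2 : (2 : ZMod Q) ≠ 0 := by
    intro h
    have h1 : Q ∣ 2 := (ZMod.natCast_eq_zero_iff 2 Q).1 (by exact_mod_cast h)
    have h3 : Q = 2 := (Nat.prime_dvd_prime_iff_eq Fact.out Nat.prime_two).1 h1
    exact hν (FiniteField.isSquare_of_char_two (by rw [ZMod.ringChar_zmod_n, h3]) ν)
  have hq : ∀ a : ZMod Q × ZMod Q, a.2 ≠ 0 → qf ν a ≠ 0 := fun a ha h => ha (qc_aniso hν h)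
  rcases (relQ ν m₁ m₂ m₃).eq_empty_or_nonempty with h | ⟨a₀, ha₀⟩
  · rw [h]; simp
  simp only [relQ, mem_filter, mem_product, qc_mem_EQ] at ha₀
  obtain ⟨⟨z1, z2, z3⟩, e0, e1, e2⟩ := ha₀
  have h12 : ¬ (m₁ = 0 ∧ m₂ = 0) := by
    rintro ⟨rfl, rfl⟩
    have : m₃ = 0 := (mul_eq_zero.1 (by linear_combination e2)).resolve_right z3
    exact hs (by rw [this]; ring)
  have hm1 : m₁ ≠ 0 := by
    rintro rfl
    have : m₂ * ((m₂ + m₃) * qf ν a₀.2.1) = 0 := by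
      unfold qf at e0 ⊢
      linear_combination m₃ * e0 - (m₃ * a₀.2.2.1 - m₂ * a₀.2.1.1) * e1 +
        ν * (m₃ * a₀.2.2.2 - m₂ * a₀.2.1.2) * e2
    exact h12 ⟨rfl, (mul_eq_zero.1 this).resolve_right
      (mul_ne_zero (by simpa using hs) (hq _ z2))⟩
  have hm2 : m₂ ≠ 0 := by
    rintro rfl
    have : m₁ * ((m₁ + m₃) * qf ν a₀.1) = 0 := by
      unfold qf at e0 ⊢
      linear_combination m₃ * e0 - (m₃ * a₀.2.2.1 - m₁ * a₀.1.1) * e1 +
        ν * (m₃ * a₀.2.2.2 - m₁ * a₀.1.2) * e2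
    exact hm1 ((mul_eq_zero.1 this).resolve_right (mul_ne_zero (by simpa using hs) (hq _ z1)))
  have hm3 : m₃ ≠ 0 := by
    rintro rfl
    have : m₁ * ((m₁ + m₂) * qf ν a₀.1) = 0 := by
      unfold qf at e0 ⊢
      linear_combination m₂ * e0 - (m₂ * a₀.2.1.1 - m₁ * a₀.1.1) * e1 +
        ν * (m₂ * a₀.2.1.2 - m₁ * a₀.1.2) * e2
    exact hm1 ((mul_eq_zero.1 this).resolve_right (mul_ne_zero (by simpa using hs) (hq _ z1)))
  have hdet : ∀ a ∈ relQ ν m₁ m₂ m₃, ∀ a' ∈ relQ ν m₁ m₂ m₃, a.1 = a'.1 → a.2.1 = a'.2.1 →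
      a = a' := by
    rintro ⟨a1, a2, y3, z3⟩ ha ⟨a1', a2', y3', z3'⟩ ha' h1 h2
    simp only at h1 h2
    subst h1 h2
    simp only [relQ, mem_filter] at ha ha'
    have e1 : y3 = y3' := mul_left_cancel₀ hm3 (by linear_combination ha.2.2.1 - ha'.2.2.1)
    have e2 : z3 = z3' := mul_left_cancel₀ hm3 (by linear_combination ha.2.2.2 - ha'.2.2.2)
    rw [e1, e2]
  have h3 : ((relQ ν m₁ m₂ m₃).filter fun a => a.2.1.1 = 0).card ≤
      (univ : Finset ((ZMod Q × ZMod Q) × ZMod Q)).card := by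
    refine card_le_card_of_injOn (fun a => (a.1, a.2.1.2)) (fun _ _ => mem_univ _) ?_
    intro a ha a' ha' hh
    simp only [Prod.mk.injEq] at hh
    simp only [coe_filter, Set.mem_ofPred_eq] at ha ha'
    exact hdet a ha.1 a' ha'.1 hh.1 (Prod.ext (ha.2.trans ha'.2.symm) hh.2)
  have h4 : ((relQ ν m₁ m₂ m₃).filter fun a => ¬ a.2.1.1 = 0).card ≤
      2 * (univ : Finset ((ZMod Q × ZMod Q) × ZMod Q)).card := by
    refine qc_fiber _ _ (fun a => (a.2.1, a.1.2)) (fun a => a.1.1) (fun _ => m₁ * (m₁ + m₃))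
      (fun b => 2 * m₁ * m₂ * b.1.1)
      (fun b => -(m₁ * (m₁ + m₃) * ν * b.2 ^ 2) + m₂ * (m₂ + m₃) * qf ν b.1 -
        2 * m₁ * m₂ * ν * b.2 * b.1.2) (fun _ _ => mem_univ _) ?_ ?_
    · intro a ha a' ha' hh hg
      simp only [Prod.mk.injEq] at hh
      exact hdet a (mem_filter.1 ha).1 a' (mem_filter.1 ha').1 (Prod.ext hg hh.2) hh.1
    · intro a ha
      simp only [relQ, mem_filter] at ha
      obtain ⟨⟨-, e0, e1, e2⟩, h5⟩ := ha
      refine ⟨Or.inr (mul_ne_zero (mul_ne_zero (mul_ne_zero h2 hm1) hm2) h5), ?_⟩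
      unfold qf at e0 ⊢
      linear_combination m₃ * e0 - (m₃ * a.2.2.1 - m₁ * a.1.1 - m₂ * a.2.1.1) * e1 +
        ν * (m₃ * a.2.2.2 - m₁ * a.1.2 - m₂ * a.2.1.2) * e2
  have h5 := card_filter_add_card_filter_not (s := relQ ν m₁ m₂ m₃) (fun a => a.2.1.1 = 0)
  simp only [card_univ, Fintype.card_prod, ZMod.card] at h3 h4
  have h6 : Q * Q * Q = Q ^ 3 := by ring
  omega

theorem q_rel_units {ν : ZMod Q} (hν : ¬ IsSquare ν) {m₁ m₂ m₃ : ZMod Q} (hs : m₁ + m₂ + m₃ = 0)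
    (h₁ : m₁ ≠ 0) (h₂ : m₂ ≠ 0) (h₃ : m₃ ≠ 0) : (relQ ν m₁ m₂ m₃).card ≤ Q ^ 2 := by
  have key : ∀ a ∈ relQ ν m₁ m₂ m₃, a.2.1 = a.1 ∧ a.2.2 = a.1 := by
    rintro ⟨⟨y1, z1⟩, ⟨y2, z2⟩, y3, z3⟩ ha
    simp only [relQ, mem_filter, qf] at ha
    obtain ⟨-, e0, e1, e2⟩ := ha
    have h4 : (y1 - y2) ^ 2 - ν * (z1 - z2) ^ 2 = 0 := by
      apply mul_left_cancel₀ (mul_ne_zero h₁ h₂)
      linear_combination (m₁ * (y1 ^ 2 - ν * z1 ^ 2) + m₂ * (y2 ^ 2 - ν * z2 ^ 2)) * hs -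
        (m₃ * e0 - (m₃ * y3 - m₁ * y1 - m₂ * y2) * e1 + ν * (m₃ * z3 - m₁ * z1 - m₂ * z2) * e2)
    have h5 := qc_aniso hν h4
    rw [h5] at h4
    have h6 : y1 - y2 = 0 := pow_eq_zero_iff (two_ne_zero) |>.1 (by linear_combination h4)
    obtain rfl : z1 = z2 := sub_eq_zero.1 h5
    obtain rfl : y1 = y2 := sub_eq_zero.1 h6
    have h7 : y3 = y1 := mul_left_cancel₀ h₃ (by linear_combination e1 - y1 * hs)
    have h8 : z3 = z1 := mul_left_cancel₀ h₃ (by linear_combination e2 - z1 * hs)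
    simp [h7, h8]
  have h4 : (relQ ν m₁ m₂ m₃).card ≤ (univ : Finset (ZMod Q × ZMod Q)).card := by
    refine card_le_card_of_injOn (fun a => a.1) (fun _ _ => mem_univ _) ?_
    intro a ha a' ha' hh
    simp only at hh
    exact Prod.ext hh (Prod.ext (by rw [(key a ha).1, (key a' ha').1, hh])
      (by rw [(key a ha).2, (key a' ha').2, hh]))
  simpa [sq] using h4

theorem q_rel_any (ν : ZMod Q) {m₁ m₂ m₃ : ZMod Q} (h : m₁ ≠ 0 ∨ m₂ ≠ 0 ∨ m₃ ≠ 0) :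
    (relQ ν m₁ m₂ m₃).card ≤ Q ^ 4 := by
  have hc : (univ : Finset ((ZMod Q × ZMod Q) × (ZMod Q × ZMod Q))).card = Q ^ 4 := by
    simp only [card_univ, Fintype.card_prod, ZMod.card]; ring
  rw [← hc]
  rcases h with h | h | h
  · refine card_le_card_of_injOn (fun a => a.2) (fun _ _ => mem_univ _) ?_
    rintro ⟨⟨y, z⟩, a2, a3⟩ ha ⟨⟨y', z'⟩, a2', a3'⟩ ha' hh
    simp only [Prod.mk.injEq] at hh
    obtain ⟨rfl, rfl⟩ := hh
    simp only [relQ, coe_filter, Set.mem_ofPred_eq] at ha ha'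
    have e1 : y = y' := mul_left_cancel₀ h (by linear_combination ha.2.2.1 - ha'.2.2.1)
    have e2 : z = z' := mul_left_cancel₀ h (by linear_combination ha.2.2.2 - ha'.2.2.2)
    rw [e1, e2]
  · refine card_le_card_of_injOn (fun a => (a.1, a.2.2)) (fun _ _ => mem_univ _) ?_
    rintro ⟨a2, ⟨y, z⟩, a3⟩ ha ⟨a2', ⟨y', z'⟩, a3'⟩ ha' hh
    simp only [Prod.mk.injEq] at hh
    obtain ⟨rfl, rfl⟩ := hh
    simp only [relQ, coe_filter, Set.mem_ofPred_eq] at ha ha'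
    have e1 : y = y' := mul_left_cancel₀ h (by linear_combination ha.2.2.1 - ha'.2.2.1)
    have e2 : z = z' := mul_left_cancel₀ h (by linear_combination ha.2.2.2 - ha'.2.2.2)
    rw [e1, e2]
  · refine card_le_card_of_injOn (fun a => (a.1, a.2.1)) (fun _ _ => mem_univ _) ?_
    rintro ⟨a2, a3, y, z⟩ ha ⟨a2', a3', y', z'⟩ ha' hh
    simp only [Prod.mk.injEq] at hh
    obtain ⟨rfl, rfl⟩ := hh
    simp only [relQ, coe_filter, Set.mem_ofPred_eq] at ha ha'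
    have e1 : y = y' := mul_left_cancel₀ h (by linear_combination ha.2.2.1 - ha'.2.2.1)
    have e2 : z = z' := mul_left_cancel₀ h (by linear_combination ha.2.2.2 - ha'.2.2.2)
    rw [e1, e2]

end Crest.Agent.R32
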