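import Crest.Agent.R32.Lift
import Crest.Agent.R32.QCount
import Crest.Agent.R32.MSum

/-! Row 32: residue classes of the candidate vectors and averages over them. -/

set_option autoImplicit false

namespace Crest.Agent.R32

open Finset
open scoped Classical

theorem crt {m n : ℕ} (hm : 0 < m) (hn : 0 < n) (h : Nat.Coprime m n) (a b : ℤ) :
    ∃ x : ℤ, 0 ≤ x ∧ x < ((m * n : ℕ) : ℤ) ∧ x ≡ a [ZMOD m] ∧ x ≡ b [ZMOD n] := by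
  obtain ⟨u, v, huv⟩ := Nat.isCoprime_iff_coprime.2 h
  have hp : (0 : ℤ) < ((m * n : ℕ) : ℤ) := by exact_mod_cast Nat.mul_pos hm hn
  refine ⟨(a * (v * n) + b * (u * m)) % ((m * n : ℕ) : ℤ), Int.emod_nonneg _ hp.ne',
    Int.emod_lt_of_pos _ hp, ?_, ?_⟩
  · refine ((Int.mod_modEq _ _).of_dvd ⟨n, by push_cast; ring⟩).trans ?_
    apply Int.ModEq.symm
    rw [Int.modEq_iff_dvd]
    exact ⟨(b - a) * u, by linear_combination a * huv⟩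
  · refine ((Int.mod_modEq _ _).of_dvd ⟨m, by push_cast; ring⟩).trans ?_
    apply Int.ModEq.symm
    rw [Int.modEq_iff_dvd]
    exact ⟨(a - b) * v, by linear_combination b * huv⟩

/-- the residue class of a vector modulo `F Q` (resp. `F Q Q1`) -/
def Cls (F Q Q1 : ℕ) (ν : ZMod Q) (d : V3) (a : ZMod Q × ZMod Q) (b : V3) : Prop :=
  (0 ≤ b.1 ∧ b.1 < ((F * Q : ℕ) : ℤ) ∧ b.1 ≡ d.1 [ZMOD F] ∧ (b.1 : ZMod Q) = qf ν a) ∧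
  (0 ≤ b.2.1 ∧ b.2.1 < ((F * Q : ℕ) : ℤ) ∧ b.2.1 ≡ d.2.1 [ZMOD F] ∧ (b.2.1 : ZMod Q) = a.1) ∧
  (0 ≤ b.2.2 ∧ b.2.2 < ((F * Q * Q1 : ℕ) : ℤ) ∧ b.2.2 ≡ d.2.2 [ZMOD F] ∧ (b.2.2 : ZMod Q) = a.2 ∧
    b.2.2 ≡ 1 [ZMOD Q1])

theorem exists_cls {F Q Q1 : ℕ} (hF : 0 < F) (hQ : 0 < Q) (hQ1 : 0 < Q1) (hQF : Nat.Coprime Q F)
    (hQ1F : Nat.Coprime Q1 F) (hQ1Q : Nat.Coprime Q1 Q) (ν : ZMod Q) (d : V3)
    (a : ZMod Q × ZMod Q) : ∃ b : V3, Cls F Q Q1 ν d a b := by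
  have key : ∀ (t : ℤ) (s : ZMod Q), ∃ x : ℤ, 0 ≤ x ∧ x < ((F * Q : ℕ) : ℤ) ∧ x ≡ t [ZMOD F] ∧
      (x : ZMod Q) = s := by
    intro t s
    obtain ⟨s', rfl⟩ := ZMod.intCast_surjective s
    obtain ⟨x, h1, h2, h3, h4⟩ := crt hF hQ hQF.symm t s'
    exact ⟨x, h1, h2, h3, (ZMod.intCast_eq_intCast_iff _ _ _).2 h4⟩
  obtain ⟨x, hx⟩ := key d.1 (qf ν a)
  obtain ⟨y, hy⟩ := key d.2.1 a.1
  obtain ⟨z', -, -, z1, z2⟩ := key d.2.2 a.2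
  obtain ⟨z, h1, h2, h3, h4⟩ := crt (Nat.mul_pos hF hQ) hQ1
    (Nat.Coprime.mul_right hQ1F hQ1Q).symm z' 1
  refine ⟨(x, y, z), hx, hy, h1, h2, (h3.of_dvd ⟨Q, by push_cast; ring⟩).trans z1, ?_, h4⟩
  rw [← z2]
  exact (ZMod.intCast_eq_intCast_iff _ _ _).2 (h3.of_dvd ⟨F, by push_cast; ring⟩)

/-- first coordinates -/
abbrev r1 (p q r : V3) : V3 := (p.1, q.1, r.1)
/-- second coordinates -/
abbrev r2 (p q r : V3) : V3 := (p.2.1, q.2.1, r.2.1)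
/-- third coordinates -/
abbrev r3 (p q r : V3) : V3 := (p.2.2, q.2.2, r.2.2)

section
variable {F Q Q1 : ℕ} [Fact Q.Prime] {ν : ZMod Q}

theorem Cls.cop {d b : V3} {a : ZMod Q × ZMod Q} (h : Cls F Q Q1 ν d a b) (ha : a ∈ EQ Q)
    (hd : IsCoprime d.2.2 (F : ℤ)) : IsCoprime b.2.2 ((F * Q * Q1 : ℕ) : ℤ) := by
  obtain ⟨-, -, -, -, h1, h2, h3⟩ := h
  push_cast
  refine IsCoprime.mul_right (IsCoprime.mul_right ?_ ?_) ?_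
  · obtain ⟨k, hk⟩ := h1.symm.dvd
    have : b.2.2 = d.2.2 + F * k := by linarith
    rw [this]; exact hd.add_mul_left_left k
  · have hp : Prime (Q : ℤ) := Nat.prime_iff_prime_int.1 Fact.out
    apply IsCoprime.symm
    rw [hp.coprime_iff_not_dvd]
    intro hdv
    have := (ZMod.intCast_zmod_eq_zero_iff_dvd _ _).2 hdv
    rw [h2] at this
    exact (mem_filter.1 ha).2 this
  · obtain ⟨k, hk⟩ := h3.symm.dvd
    have : b.2.2 = 1 + Q1 * k := by linarith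
    rw [this]; exact isCoprime_one_left.add_mul_left_left k

/-- the determinant modulo `Q` -/
def detQ (ν : ZMod Q) (a : (ZMod Q × ZMod Q) × (ZMod Q × ZMod Q) × (ZMod Q × ZMod Q)) : ZMod Q :=
  (a.2.1.1 * a.2.2.2 - a.2.2.1 * a.2.1.2) * qf ν a.1 +
    (a.2.2.1 * a.1.2 - a.1.1 * a.2.2.2) * qf ν a.2.1 +
    (a.1.1 * a.2.1.2 - a.2.1.1 * a.1.2) * qf ν a.2.2

theorem ell_le_cls {d₁ d₂ d₃ b₁ b₂ b₃ : V3} {a₁ a₂ a₃ : ZMod Q × ZMod Q} (hF : 0 < F)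
    (h₁ : Cls F Q Q1 ν d₁ a₁ b₁) (h₂ : Cls F Q Q1 ν d₂ a₂ b₂) (h₃ : Cls F Q Q1 ν d₃ a₃ b₃) :
    (ell (F * Q) (r2 b₁ b₂ b₃) (r3 b₁ b₂ b₃) : ℝ) ≤ ell F (r2 d₁ d₂ d₃) (r3 d₁ d₂ d₃) *
      (1 + if a₂.1 * a₃.2 - a₃.1 * a₂.2 = 0 ∧ a₁.1 * a₂.2 - a₂.1 * a₁.2 = 0 then (Q : ℝ) else 0) := by
  have hQ : Q.Prime := Fact.out
  have e : ell F (r2 b₁ b₂ b₃) (r3 b₁ b₂ b₃) = ell F (r2 d₁ d₂ d₃) (r3 d₁ d₂ d₃) :=
    ell_congr ⟨h₁.2.1.2.2.1, h₂.2.1.2.2.1, h₃.2.1.2.2.1⟩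
      ⟨h₁.2.2.2.2.1, h₂.2.2.2.2.1, h₃.2.2.2.2.1⟩
  rw [← e]
  have h1 : ell (F * Q) (r2 b₁ b₂ b₃) (r3 b₁ b₂ b₃) ≤
      ell F (r2 b₁ b₂ b₃) (r3 b₁ b₂ b₃) * ell Q (r2 b₁ b₂ b₃) (r3 b₁ b₂ b₃) := by
    unfold ell
    apply Nat.le_of_dvd (Nat.mul_pos (Nat.gcd_pos_of_pos_left _ hF)
      (Nat.gcd_pos_of_pos_left _ hQ.pos))
    rw [Nat.gcd_comm, Nat.gcd_comm F, Nat.gcd_comm Q]
    exact Nat.gcd_mul_right_dvd_mul_gcd _ _ _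
  refine le_trans (Nat.cast_le.2 h1) ?_
  push_cast
  gcongr
  rcases (Nat.dvd_prime hQ).1 (Nat.gcd_dvd_left Q (Int.gcd (cross (r2 b₁ b₂ b₃) (r3 b₁ b₂ b₃)).1
    (cross (r2 b₁ b₂ b₃) (r3 b₁ b₂ b₃)).2.2)) with h | h
  · unfold ell
    rw [h]
    split_ifs <;> simp
  · have d0 : (Q : ℤ) ∣ ((Int.gcd (cross (r2 b₁ b₂ b₃) (r3 b₁ b₂ b₃)).1
        (cross (r2 b₁ b₂ b₃) (r3 b₁ b₂ b₃)).2.2 : ℕ) : ℤ) := by
      rw [Int.natCast_dvd_natCast, ← h]; exact Nat.gcd_dvd_right _ _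
    have d1 := (ZMod.intCast_zmod_eq_zero_iff_dvd _ _).2 (d0.trans (Int.gcd_dvd_left _ _))
    have d3 := (ZMod.intCast_zmod_eq_zero_iff_dvd _ _).2 (d0.trans (Int.gcd_dvd_right _ _))
    simp only [cross] at d1 d3
    push_cast at d1 d3
    rw [h₂.2.1.2.2.2, h₃.2.1.2.2.2, h₂.2.2.2.2.2.1, h₃.2.2.2.2.2.1] at d1
    rw [h₂.2.1.2.2.2, h₁.2.1.2.2.2, h₂.2.2.2.2.2.1, h₁.2.2.2.2.2.1] at d3
    unfold ell
    rw [h, if_pos ⟨d1, d3⟩]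
    simp

theorem sum_ellQ (h : ZMod Q) :
    ∑ a ∈ (EQ Q ×ˢ EQ Q ×ˢ EQ Q).filter (fun a => detQ ν a = h),
      (1 + if a.2.1.1 * a.2.2.2 - a.2.2.1 * a.2.1.2 = 0 ∧ a.1.1 * a.2.1.2 - a.2.1.1 * a.1.2 = 0
        then (Q : ℝ) else 0) ≤ 4 * ((EQ Q).card : ℝ) ^ 3 / Q := by
  have hQ : (0 : ℝ) < Q := by exact_mod_cast (Fact.out : Q.Prime).pos
  have h1 := q_det ν h
  have h2 := q_par (Q := Q)
  rw [sum_add_distrib, sum_const, nsmul_eq_mul, mul_one, ← sum_filter, sum_const, nsmul_eq_mul,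
    le_div_iff₀ hQ, add_mul]
  have h3 : ((((EQ Q ×ˢ EQ Q ×ˢ EQ Q).filter (fun a => detQ ν a = h)).card : ℕ) : ℝ) * Q ≤
      3 * ((EQ Q).card : ℝ) ^ 3 := by
    refine le_trans ?_ h1
    gcongr
    rfl
  have h4 : (((((EQ Q ×ˢ EQ Q ×ˢ EQ Q).filter (fun a => detQ ν a = h)).filter fun a =>
      a.2.1.1 * a.2.2.2 - a.2.2.1 * a.2.1.2 = 0 ∧ a.1.1 * a.2.1.2 - a.2.1.1 * a.1.2 = 0).card : ℕ) : ℝ)
      * Q * Q ≤ ((EQ Q).card : ℝ) ^ 3 := by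
    refine le_trans ?_ h2
    rw [mul_assoc, ← sq]
    gcongr
    exact filter_subset _ _
  linarith

theorem relQ_le (hν : ¬ IsSquare ν) {m : V3} (hm : Prim m) :
    (((relQ ν (m.1 : ZMod Q) (m.2.1 : ZMod Q) (m.2.2 : ZMod Q)).card : ℕ) : ℝ) ≤
      (if sm m ≠ 0 then 3 * (Q : ℝ) ^ 3 else 0) + (Q : ℝ) ^ 2 +
      (if (Q : ℤ) ∣ sm m ∧ ((Q : ℤ) ∣ m.1 ∨ (Q : ℤ) ∣ m.2.1 ∨ (Q : ℤ) ∣ m.2.2)
        then (Q : ℝ) ^ 4 else 0) := by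
  have n1 : 0 ≤ (if sm m ≠ 0 then 3 * (Q : ℝ) ^ 3 else 0) := by split_ifs <;> positivity
  have n2 : 0 ≤ (Q : ℝ) ^ 2 := by positivity
  have n3 : 0 ≤ (if (Q : ℤ) ∣ sm m ∧ ((Q : ℤ) ∣ m.1 ∨ (Q : ℤ) ∣ m.2.1 ∨ (Q : ℤ) ∣ m.2.2)
        then (Q : ℝ) ^ 4 else 0) := by split_ifs <;> positivity
  have hs : ((sm m : ℤ) : ZMod Q) = (m.1 : ZMod Q) + m.2.1 + m.2.2 := by simp [sm]
  by_cases h0 : (m.1 : ZMod Q) + m.2.1 + m.2.2 = 0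
  · have hd : (Q : ℤ) ∣ sm m := (ZMod.intCast_zmod_eq_zero_iff_dvd _ _).1 (hs.trans h0)
    by_cases h1 : (Q : ℤ) ∣ m.1 ∨ (Q : ℤ) ∣ m.2.1 ∨ (Q : ℤ) ∣ m.2.2
    · rw [if_pos (show _ ∧ _ from ⟨hd, h1⟩)]
      have : (m.1 : ZMod Q) ≠ 0 ∨ (m.2.1 : ZMod Q) ≠ 0 ∨ (m.2.2 : ZMod Q) ≠ 0 := by
        by_contra hc
        push Not at hc
        obtain ⟨w, hw⟩ := hm
        have := congrArg (Int.cast : ℤ → ZMod Q) hw
        simp only [dot] at this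
        push_cast at this
        rw [hc.1, hc.2.1, hc.2.2] at this
        simp at this
      have h2 : (((relQ ν (m.1 : ZMod Q) (m.2.1 : ZMod Q) (m.2.2 : ZMod Q)).card : ℕ) : ℝ) ≤
          (Q : ℝ) ^ 4 := by exact_mod_cast q_rel_any ν this
      linarith
    · push Not at h1
      simp only [← ZMod.intCast_zmod_eq_zero_iff_dvd] at h1
      have h2 : (((relQ ν (m.1 : ZMod Q) (m.2.1 : ZMod Q) (m.2.2 : ZMod Q)).card : ℕ) : ℝ) ≤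
          (Q : ℝ) ^ 2 := by exact_mod_cast q_rel_units hν h0 h1.1 h1.2.1 h1.2.2
      linarith
  · have hne : sm m ≠ 0 := by
      intro h; apply h0; rw [← hs, h]; simp
    rw [if_pos hne]
    have h2 : (((relQ ν (m.1 : ZMod Q) (m.2.1 : ZMod Q) (m.2.2 : ZMod Q)).card : ℕ) : ℝ) ≤
        3 * (Q : ℝ) ^ 3 := by exact_mod_cast q_rel_ne hν h0
    linarith

theorem sum_Trel (hν : ¬ IsSquare ν) (hF : 0 < F) (hQ1F : Nat.Coprime Q1 F) (h3 : 3 * F ≤ Q1)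
    (R : ℕ) {d₁ d₂ d₃ : V3} (hd : IsCoprime d₂.2.2 (F : ℤ)) (b₁ b₂ b₃ : ZMod Q × ZMod Q → V3)
    (h₁ : ∀ a, Cls F Q Q1 ν d₁ a (b₁ a)) (h₂ : ∀ a, Cls F Q Q1 ν d₂ a (b₂ a))
    (h₃ : ∀ a, Cls F Q Q1 ν d₃ a (b₃ a)) :
    ∑ a ∈ EQ Q ×ˢ EQ Q ×ˢ EQ Q, Trel (F * Q) (F * Q * Q1) R (r1 (b₁ a.1) (b₂ a.2.1) (b₃ a.2.2))
      (r2 (b₁ a.1) (b₂ a.2.1) (b₃ a.2.2)) (r3 (b₁ a.1) (b₂ a.2.1) (b₃ a.2.2)) ≤
      2592 * (Q : ℝ) ^ 3 * ell F (r2 d₁ d₂ d₃) (r3 d₁ d₂ d₃) * Har (2 * R) / ((F : ℝ) ^ 2 * Q1) +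
        1440 * (Q : ℝ) ^ 2 * Har (2 * R) := by
  have hQ : Q.Prime := Fact.out
  have hQr : (0 : ℝ) < Q := by exact_mod_cast hQ.pos
  have k1 := msum_ker F Q1 R hF hQ1F h3 (r2 d₁ d₂ d₃) (r3 d₁ d₂ d₃) hd
  have k2 := msum_all R
  have k3 := msum_dvd Q R hQ.pos
  simp only [Trel, sum_filter] at k1 k3 ⊢
  rw [sum_comm]
  calc _ ≤ ∑ m ∈ rel R, (3 * (Q : ℝ) ^ 3 * (if (F : ℤ) ∣ dot m (r2 d₁ d₂ d₃) ∧
          (F : ℤ) ∣ dot m (r3 d₁ d₂ d₃) ∧ (Q1 : ℤ) ∣ sm m ∧ sm m ≠ 0 then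
          (1 : ℝ) / (m.2.2 : ℝ) ^ 3 else 0) + (Q : ℝ) ^ 2 * ((1 : ℝ) / (m.2.2 : ℝ) ^ 3) +
          (Q : ℝ) ^ 4 * (if (Q : ℤ) ∣ sm m ∧
            ((Q : ℤ) ∣ m.1 ∨ (Q : ℤ) ∣ m.2.1 ∨ (Q : ℤ) ∣ m.2.2) then
            (1 : ℝ) / (m.2.2 : ℝ) ^ 3 else 0)) := by
        apply sum_le_sum
        intro m hm
        obtain ⟨p1, -, p3, -⟩ := mem_rel.1 hm
        have p3' : (0 : ℝ) < m.2.2 := by exact_mod_cast p3
        rw [← sum_filter, sum_const, nsmul_eq_mul]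
        by_cases hc : (F : ℤ) ∣ dot m (r2 d₁ d₂ d₃) ∧ (F : ℤ) ∣ dot m (r3 d₁ d₂ d₃) ∧
            (Q1 : ℤ) ∣ sm m
        · calc _ ≤ (((relQ ν (m.1 : ZMod Q) (m.2.1 : ZMod Q) (m.2.2 : ZMod Q)).card : ℕ) : ℝ) *
                (1 / (m.2.2 : ℝ) ^ 3) := by
                gcongr
                intro a ha
                rw [mem_filter] at ha
                obtain ⟨ha, e1, e2, e3⟩ := ha
                have dQ : (Q : ℤ) ∣ ((F * Q : ℕ) : ℤ) := ⟨F, by push_cast; ring⟩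
                have dQ' : (Q : ℤ) ∣ ((F * Q * Q1 : ℕ) : ℤ) := ⟨F * Q1, by push_cast; ring⟩
                have f1 := (ZMod.intCast_zmod_eq_zero_iff_dvd _ _).2 (dQ.trans e1)
                have f2 := (ZMod.intCast_zmod_eq_zero_iff_dvd _ _).2 (dQ.trans e2)
                have f3 := (ZMod.intCast_zmod_eq_zero_iff_dvd _ _).2 (dQ'.trans e3)
                simp only [dot] at f1 f2 f3
                push_cast at f1 f2 f3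
                rw [(h₁ _).1.2.2.2, (h₂ _).1.2.2.2, (h₃ _).1.2.2.2] at f1
                rw [(h₁ _).2.1.2.2.2, (h₂ _).2.1.2.2.2, (h₃ _).2.1.2.2.2] at f2
                rw [(h₁ _).2.2.2.2.2.1, (h₂ _).2.2.2.2.2.1, (h₃ _).2.2.2.2.2.1] at f3
                exact mem_filter.2 ⟨ha, f1, f2, f3⟩
            _ ≤ ((if sm m ≠ 0 then 3 * (Q : ℝ) ^ 3 else 0) + (Q : ℝ) ^ 2 +
                (if (Q : ℤ) ∣ sm m ∧ ((Q : ℤ) ∣ m.1 ∨ (Q : ℤ) ∣ m.2.1 ∨ (Q : ℤ) ∣ m.2.2)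
                  then (Q : ℝ) ^ 4 else 0)) * (1 / (m.2.2 : ℝ) ^ 3) := by
                gcongr
                exact relQ_le hν p1
            _ = _ := by
                simp only [hc.1, hc.2.1, hc.2.2, true_and]
                split_ifs <;> ring
        · rw [filter_false_of_mem]
          · simp only [card_empty, Nat.cast_zero, zero_mul]
            split_ifs <;> positivity
          · rintro a - ⟨e1, e2, e3⟩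
            apply hc
            have dF : (F : ℤ) ∣ ((F * Q : ℕ) : ℤ) := ⟨Q, by push_cast; ring⟩
            have dF' : (F : ℤ) ∣ ((F * Q * Q1 : ℕ) : ℤ) := ⟨Q * Q1, by push_cast; ring⟩
            have dQ1 : (Q1 : ℤ) ∣ ((F * Q * Q1 : ℕ) : ℤ) := ⟨F * Q, by push_cast; ring⟩
            refine ⟨?_, ?_, ?_⟩
            · refine (Int.ModEq.dvd_iff ?_).1 (dF.trans e2)
              exact (((h₁ _).2.1.2.2.1.mul_left _).add ((h₂ _).2.1.2.2.1.mul_left _)).add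
                ((h₃ _).2.1.2.2.1.mul_left _)
            · refine (Int.ModEq.dvd_iff ?_).1 (dF'.trans e3)
              exact (((h₁ _).2.2.2.2.1.mul_left _).add ((h₂ _).2.2.2.2.1.mul_left _)).add
                ((h₃ _).2.2.2.2.1.mul_left _)
            · refine (Int.ModEq.dvd_iff ?_).1 (dQ1.trans e3)
              have := (((h₁ a.1).2.2.2.2.2.2.mul_left m.1).add
                ((h₂ a.2.1).2.2.2.2.2.2.mul_left m.2.1)).add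
                ((h₃ a.2.2).2.2.2.2.2.2.mul_left m.2.2)
              simpa [dot, sm] using this
    _ ≤ 3 * (Q : ℝ) ^ 3 * (864 * ell F (r2 d₁ d₂ d₃) (r3 d₁ d₂ d₃) * Har (2 * R) /
          ((F : ℝ) ^ 2 * Q1)) + (Q : ℝ) ^ 2 * (144 * Har (2 * R)) +
          (Q : ℝ) ^ 4 * (1296 * Har (2 * R) / (Q : ℝ) ^ 2) := by
        rw [sum_add_distrib, sum_add_distrib, ← mul_sum, ← mul_sum, ← mul_sum]
        gcongr
    _ = _ := by field_simp; ring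

end

end Crest.Agent.R32
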