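import Crest.Agent.R32.Family
import Crest.Agent.R32.Digits
import Crest.Agent.R32.Delete

/-! Row 32: choice of the parameters. -/

set_option autoImplicit false

namespace Crest.Agent.R32

open Finset
open scoped Classical

lemma final_Har_le (p b : ℕ) (hp : 1 ≤ p) :
    Har (2 * (p ^ b) ^ 30) ≤ (2 + 30 * b : ℝ) * p := by
  have hp' : (1 : ℝ) ≤ p := by exact_mod_cast hp
  refine (Har_le _).trans ?_
  push_cast
  rw [Real.log_mul (by norm_num) (by positivity), Real.log_pow, Real.log_pow]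
  have h1 : Real.log 2 ≤ 1 := by
    have := Real.log_le_sub_one_of_pos (by norm_num : (0 : ℝ) < 2)
    linarith
  have h2 : Real.log p ≤ p := by
    have := Real.log_le_sub_one_of_pos (by linarith : (0 : ℝ) < p)
    linarith
  have h3 : (b : ℝ) * Real.log p ≤ b * p := by gcongr
  push_cast
  nlinarith

lemma final_card_div (p k Q : ℕ) (hp : p.Prime) (hQ : Q.Prime) (h : Nat.Coprime Q (p ^ k)) :
    (p ^ k * Q).divisors.card ≤ 2 * (k + 1) := by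
  rw [Nat.Coprime.card_divisors_mul h.symm, Nat.divisors_prime_pow hp, card_map, card_range,
    hQ.divisors, mul_comm]
  exact Nat.mul_le_mul_right _ card_le_two

/-- the construction for one large prime `p` -/
theorem for_prime : ∃ D p₀ : ℕ, ∀ p : ℕ, p.Prime → p₀ ≤ p → ∀ n : ℕ, n ^ 2 ≤ p ^ (D + 3) →
    ∃ P : Finset (ℝ × ℝ), P.card = n ∧
      (∀ p ∈ P, 0 ≤ p.1 ∧ p.1 ≤ 1 ∧ 0 ≤ p.2 ∧ p.2 ≤ 1) ∧
      ∀ a ∈ P, ∀ q ∈ P, ∀ r ∈ P, a ≠ q → a ≠ r → q ≠ r →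
        1 / (p : ℝ) ^ (D + 2) ≤
          |(q.1 - a.1) * (r.2 - a.2) - (q.2 - a.2) * (r.1 - a.1)| / 2 := by
  obtain ⟨K, p₀, hK⟩ := fdata
  obtain ⟨k, hk⟩ : ∃ k, k = 8 * K + 1 := ⟨_, rfl⟩
  obtain ⟨b, hb⟩ : ∃ b, b = 12 * k + 23 := ⟨_, rfl⟩
  obtain ⟨D, hD⟩ : ∃ D, D = 18 + 12 * k + 81 * b := ⟨_, rfl⟩
  obtain ⟨C, hC⟩ : ∃ C, C = 16 * 10 ^ 9 * (2 * (k + 1)) * (2 + 30 * b) := ⟨_, rfl⟩
  refine ⟨D, p₀ + C + 65536, fun p hp hp₀ n hn => ?_⟩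
  have hFD := hK p hp (by omega)
  rw [← hk] at hFD
  have hpC : C ≤ p := by omega
  have hp1 : 65536 ≤ p := by omega
  have hp1' : 1 ≤ p := by omega
  obtain ⟨F, hF⟩ : ∃ F, F = p ^ k := ⟨_, rfl⟩
  obtain ⟨B, hB⟩ : ∃ B, B = p ^ b := ⟨_, rfl⟩
  obtain ⟨A, hA⟩ : ∃ A, A = p ^ (8 * K) / 2 := ⟨_, rfl⟩
  rw [← hF, ← hA] at hFD
  have hF1 : 1 ≤ F := by rw [hF]; exact Nat.one_le_pow _ _ hp1'
  have hFp : F = p ^ (8 * K) * p := by rw [hF, hk, pow_succ]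
  have hP1 : 1 ≤ p ^ (8 * K) := Nat.one_le_pow _ _ hp1'
  obtain ⟨Q1, hQ1⟩ : ∃ Q1, Q1 = 3 * F + 1 := ⟨_, rfl⟩
  have hp6 : 1 ≤ p ^ 6 := Nat.one_le_pow _ _ hp1'
  obtain ⟨Q, hQ, hQl, hQu⟩ := Nat.exists_prime_lt_and_le_two_mul (p ^ 6 * F ^ 2 * Q1)
    (by rw [hQ1]; positivity)
  have hQ1l : F ≤ Q1 := by omega
  have hQ1u : Q1 ≤ 4 * F := by omega
  have hQl' : p ^ 6 * F ^ 3 ≤ Q := by
    calc p ^ 6 * F ^ 3 = p ^ 6 * F ^ 2 * F := by ring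
      _ ≤ p ^ 6 * F ^ 2 * Q1 := by gcongr
      _ ≤ Q := hQl.le
  have hQu' : Q ≤ 8 * p ^ 6 * F ^ 3 := by
    calc Q ≤ 2 * (p ^ 6 * F ^ 2 * Q1) := hQu
      _ ≤ 2 * (p ^ 6 * F ^ 2 * (4 * F)) := by gcongr
      _ = _ := by ring
  have hQ1Q : Q1 < Q := by
    calc Q1 = 1 * 1 ^ 2 * Q1 := by ring
      _ ≤ p ^ 6 * F ^ 2 * Q1 := by gcongr
      _ < Q := hQl
  have hpQ : p < Q := by
    calc p = p ^ 1 * 1 ^ 2 * 1 := by ring
      _ ≤ p ^ 6 * F ^ 2 * Q1 := by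
          gcongr
          · omega
          · omega
      _ < Q := hQl
  have hBF : B = F ^ 12 * p ^ 23 := by rw [hB, hF, hb]; ring
  have hG : F * Q * Q1 ≤ B := by
    calc F * Q * Q1 ≤ F * (8 * p ^ 6 * F ^ 3) * (4 * F) := by gcongr
      _ = F ^ 5 * (32 * p ^ 6) := by ring
      _ ≤ F ^ 12 * (p ^ 17 * p ^ 6) := by
          have h32 : 32 ≤ p ^ 17 := le_trans (by omega) (Nat.le_self_pow (by norm_num) p)
          gcongr
          omega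
      _ = B := by rw [hBF]; ring
  have hQ0 : 1 ≤ Q := hQ.one_le
  have hQ10 : 1 ≤ Q1 := by omega
  have hFQ : F * Q ≤ B := le_trans (Nat.le_mul_of_pos_right _ hQ10) hG
  have hFB : F ≤ B := le_trans (Nat.le_mul_of_pos_right _ hQ0) hFQ
  have hp6B : p ^ 6 ≤ B := by rw [hB]; exact Nat.pow_le_pow_right hp1' (by omega)
  have hp2B : p ^ 2 ≤ B := by rw [hB]; exact Nat.pow_le_pow_right hp1' (by omega)
  have hpB : p ≤ B := by
    calc p = p ^ 1 := by ring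
      _ ≤ p ^ b := Nat.pow_le_pow_right hp1' (by omega)
      _ = B := hB.symm
  have hB1 : 1 ≤ B := by omega
  have hcop : Nat.Coprime Q F := by
    rw [hF]
    exact Nat.Coprime.pow_right _ ((Nat.coprime_primes hQ hp).2 hpQ.ne')
  have hp' : (1 : ℝ) ≤ p := by exact_mod_cast hp1'
  have hp6' : (0 : ℝ) < (p : ℝ) ^ 6 := by positivity
  obtain ⟨α, Ω, u, hΩ, hu, h2, h3⟩ := exists_family F A Q1 Q (B ^ 31) (B ^ 30) (B ^ 20)
    (1 / (p : ℝ) ^ 6) hFD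
    (by
      have h1 : 2 * A ≤ p ^ (8 * K) := by omega
      have h2 : p ^ (8 * K) * 1 < p ^ (8 * K) * p := by gcongr; omega
      omega)
    hQ (by omega) hcop
    (by rw [hQ1]; simp)
    ((Nat.coprime_of_lt_prime (by omega) hQ1Q hQ).symm)
    (by omega)
    (by
      rw [one_div, inv_mul_eq_div, le_div_iff₀ hp6']
      have : F ^ 2 * Q1 * p ^ 6 ≤ Q := by
        calc F ^ 2 * Q1 * p ^ 6 = p ^ 6 * F ^ 2 * Q1 := by ring
          _ ≤ Q := hQl.le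
      exact_mod_cast this)
    (by
      calc (F * Q * Q1) ^ 2 ≤ B ^ 2 := by gcongr
        _ ≤ B ^ 20 := Nat.pow_le_pow_right hB1 (by omega))
    (by
      calc 2 * (F * Q) * (F * Q * Q1 * B ^ 20) ≤ B * B * (B * B ^ 20) := by gcongr; omega
        _ = B ^ 23 := by ring
        _ ≤ B ^ 30 := Nat.pow_le_pow_right hB1 (by omega))
    (by
      calc F * Q * B ^ 30 ≤ B * B ^ 30 := by gcongr
        _ = B ^ 31 := by ring)
    (by
      rw [one_div, inv_mul_eq_div, le_div_iff₀ hp6']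
      have : 100 * F ^ 4 * Q ^ 3 * Q1 * B ^ 20 * p ^ 6 ≤ B ^ 30 := by
        calc 100 * F ^ 4 * Q ^ 3 * Q1 * B ^ 20 * p ^ 6
            = 100 * F * (F * Q) ^ 2 * (F * Q * Q1) * B ^ 20 * p ^ 6 := by ring
          _ ≤ B * B * B ^ 2 * B * B ^ 20 * B := by gcongr; omega
          _ = B ^ 26 := by ring
          _ ≤ B ^ 30 := Nat.pow_le_pow_right hB1 (by omega)
      exact_mod_cast this)
  have hpD : p ^ D = p ^ 18 * F ^ 12 * B ^ 81 := by rw [hD, hF, hB]; ring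
  have hTl : p ^ D ≤ F ^ 2 * Q ^ 3 * Q1 * B ^ 31 * B ^ 30 * B ^ 20 := by
    calc p ^ D = F ^ 2 * (p ^ 6 * F ^ 3) ^ 3 * F * B ^ 31 * B ^ 30 * B ^ 20 := by rw [hpD]; ring
      _ ≤ _ := by gcongr
  have hTu : F ^ 2 * Q ^ 3 * Q1 * B ^ 31 * B ^ 30 * B ^ 20 ≤ 2048 * p ^ D := by
    calc _ ≤ F ^ 2 * (8 * p ^ 6 * F ^ 3) ^ 3 * (4 * F) * B ^ 31 * B ^ 30 * B ^ 20 := by gcongr
      _ = _ := by rw [hpD]; ring
  have hnB : n ≤ B ^ 41 := by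
    have : n ^ 2 ≤ (B ^ 41) ^ 2 := by
      calc n ^ 2 ≤ p ^ (D + 3) := hn
        _ ≤ p ^ (b * 82) := Nat.pow_le_pow_right hp1' (by omega)
        _ = _ := by rw [hB]; ring
    exact (Nat.pow_le_pow_iff_left (by norm_num)).1 this
  have hH2 : Har (2 * B ^ 30) ≤ (2 + 30 * b : ℝ) * p := by
    rw [hB]; exact final_Har_le p b hp1'
  have hbp : 2 + 30 * b ≤ p := by
    calc 2 + 30 * b = 1 * 1 * (2 + 30 * b) := by ring
      _ ≤ 16 * 10 ^ 9 * (2 * (k + 1)) * (2 + 30 * b) := by gcongr <;> omega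
      _ ≤ p := hC ▸ hpC
  have hH1 : Har (B ^ 30) ≤ B := by
    refine (Har_mono (by omega)).trans (hH2.trans ?_)
    have : (2 + 30 * b) * p ≤ B := by
      calc (2 + 30 * b) * p ≤ p * p := by gcongr
        _ = p ^ 2 := by ring
        _ ≤ B := hp2B
    exact_mod_cast this
  have hB' : (1 : ℝ) ≤ B := by exact_mod_cast hB1
  have hF' : (1 : ℝ) ≤ F := by exact_mod_cast hF1
  have hQ' : (1 : ℝ) ≤ Q := by exact_mod_cast hQ0
  have hQ1' : (1 : ℝ) ≤ Q1 := by exact_mod_cast hQ10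
  have hHa := Har_nonneg (B ^ 30)
  have hHb := Har_nonneg (2 * B ^ 30)
  have hκ2 : 8 * (n : ℝ) * (4 * (Har (B ^ 30) + 2 * (F * Q * Q1)) /
      (((B ^ 30 : ℕ) : ℝ) * ((B ^ 20 : ℕ) : ℝ))) ≤ 1 := by
    have hG' : (F * Q * Q1 : ℝ) ≤ B := by exact_mod_cast hG
    have hn' : (n : ℝ) ≤ (B : ℝ) ^ 41 := by exact_mod_cast hnB
    have h96 : (96 : ℝ) ≤ B := by exact_mod_cast (by omega : 96 ≤ B)
    push_cast
    rw [← mul_div_assoc, div_le_one (by positivity)]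
    calc 8 * (n : ℝ) * (4 * (Har (B ^ 30) + 2 * (F * Q * Q1)))
        ≤ 8 * (B : ℝ) ^ 41 * (4 * (B + 2 * B)) := by gcongr
      _ = 96 * (B : ℝ) ^ 42 := by ring
      _ ≤ B * (B : ℝ) ^ 42 := by gcongr
      _ = (B : ℝ) ^ 43 := by ring
      _ ≤ (B : ℝ) ^ 50 := pow_le_pow_right₀ hB' (by omega)
      _ = _ := by ring
  have hκ3 : 16 * (n : ℝ) ^ 2 * (10 ^ 9 * ((F * Q).divisors.card : ℝ) * Har (2 * B ^ 30) *
      (1 / (p : ℝ) ^ 6) / ((F : ℝ) ^ 2 * (Q : ℝ) ^ 3 * Q1 * ((B ^ 31 : ℕ) : ℝ) *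
        ((B ^ 30 : ℕ) : ℝ) * ((B ^ 20 : ℕ) : ℝ))) ≤ 1 := by
    have hd : ((F * Q).divisors.card : ℝ) ≤ 2 * (k + 1) := by
      have := final_card_div p k Q hp hQ (hF ▸ hcop)
      rw [← hF] at this
      exact_mod_cast this
    have hn' : (n : ℝ) ^ 2 ≤ (p : ℝ) ^ (D + 3) := by exact_mod_cast hn
    have hT : (p : ℝ) ^ D ≤ (F : ℝ) ^ 2 * (Q : ℝ) ^ 3 * Q1 * ((B ^ 31 : ℕ) : ℝ) *
        ((B ^ 30 : ℕ) : ℝ) * ((B ^ 20 : ℕ) : ℝ) := by exact_mod_cast hTl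
    have hC' : (16 * 10 ^ 9 * (2 * (k + 1)) * (2 + 30 * b) : ℝ) ≤ p := by
      have := hC ▸ hpC
      exact_mod_cast this
    rw [← mul_div_assoc, div_le_one (by positivity)]
    refine le_trans ?_ hT
    calc 16 * (n : ℝ) ^ 2 * (10 ^ 9 * ((F * Q).divisors.card : ℝ) * Har (2 * B ^ 30) *
          (1 / (p : ℝ) ^ 6))
        ≤ 16 * (p : ℝ) ^ (D + 3) * (10 ^ 9 * (2 * (k + 1)) * ((2 + 30 * b : ℝ) * p) *
          (1 / (p : ℝ) ^ 6)) := by gcongr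
      _ = (16 * 10 ^ 9 * (2 * (k + 1)) * (2 + 30 * b) : ℝ) * ((p : ℝ) ^ D / p ^ 2) := by
          field_simp
          ring
      _ ≤ p * ((p : ℝ) ^ D / p ^ 2) := by gcongr
      _ = (p : ℝ) ^ D / p := by field_simp
      _ ≤ _ := div_le_self (by positivity) hp'
  obtain ⟨f, hf, hf2, hf3⟩ := deletion Ω hΩ
    (fun x y => (u x).2.1 * (u y).2.2 = (u y).2.1 * (u x).2.2)
    (fun x y z => Mx (cross ((u x).2.1, (u y).2.1, (u z).2.1) ((u x).2.2, (u y).2.2, (u z).2.2)) ∧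
      |dot (cross ((u x).2.1, (u y).2.1, (u z).2.1) ((u x).2.2, (u y).2.2, (u z).2.2))
        ((u x).1, (u y).1, (u z).1)| ≤ A) _ _ n (by convert h2) (by convert h3) (by positivity)
    (by positivity) (by
      have hn0 : (0 : ℝ) ≤ n := Nat.cast_nonneg n
      have e2 := mul_le_mul_of_nonneg_left hκ2 (by positivity : (0 : ℝ) ≤ n / 2)
      have e3 := mul_le_mul_of_nonneg_left hκ3 (by positivity : (0 : ℝ) ≤ n / 2)
      linarith)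
  obtain ⟨P, hP, hP1', hP2⟩ := to_square n A (F * Q * B ^ 31) (F * Q * B ^ 30) (F * Q * Q1 * B ^ 20)
    (by positivity) (by positivity) (by positivity) (fun i => u (f i)) (fun i => hu _ (hf i))
    hf2 hf3
  refine ⟨P, hP, hP1', fun a ha q hq r hr h1 h2 h3 => le_trans ?_ (hP2 a ha q hq r hr h1 h2 h3)⟩
  rw [div_le_div_iff₀ (by positivity) (by positivity)]
  have : 1 * (16 * (F * Q * B ^ 31) * (F * Q * B ^ 30) * (F * Q * Q1 * B ^ 20))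
      ≤ (A + 1) * p ^ (D + 2) := by
    have h4 : p ^ (8 * K) ≤ 2 * (A + 1) := by omega
    calc 1 * (16 * (F * Q * B ^ 31) * (F * Q * B ^ 30) * (F * Q * Q1 * B ^ 20))
        = 16 * F * (F ^ 2 * Q ^ 3 * Q1 * B ^ 31 * B ^ 30 * B ^ 20) := by ring
      _ ≤ 16 * F * (2048 * p ^ D) := by gcongr
      _ = 16 * (p ^ (8 * K) * p) * (2048 * p ^ D) := by rw [← hFp]
      _ ≤ 16 * (2 * (A + 1) * p) * (2048 * p ^ D) := by gcongr
      _ = (A + 1) * (65536 * p ^ (D + 1)) := by ring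
      _ ≤ (A + 1) * (p * p ^ (D + 1)) := by gcongr
      _ = _ := by ring
  exact_mod_cast this

theorem heilbronn :
    ∃ η : ℝ, 0 < η ∧ ∃ c : ℝ, 0 < c ∧ ∃ n₀ : ℕ, ∀ n : ℕ, n₀ ≤ n →
      ∃ P : Finset (ℝ × ℝ), P.card = n ∧
        (∀ p ∈ P, 0 ≤ p.1 ∧ p.1 ≤ 1 ∧ 0 ≤ p.2 ∧ p.2 ≤ 1) ∧
        ∀ p ∈ P, ∀ q ∈ P, ∀ r ∈ P, p ≠ q → p ≠ r → q ≠ r →
          c * (n : ℝ) ^ (-2 + η) ≤ |(q.1 - p.1) * (r.2 - p.2) - (q.2 - p.2) * (r.1 - p.1)| / 2 := by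
  obtain ⟨D, p₀, h⟩ := for_prime
  refine ⟨2 / (D + 3), by positivity, 1 / 4 ^ (D + 2), by positivity, (p₀ + 1) ^ (D + 3),
    fun n hn => ?_⟩
  have hn1 : 1 ≤ n := le_trans (Nat.one_le_pow _ _ (by omega)) hn
  have hn0 : (0 : ℝ) < n := by exact_mod_cast hn1
  set x : ℝ := (n : ℝ) ^ ((2 : ℝ) / (D + 3)) with hx
  have hx0 : 0 < x := Real.rpow_pos_of_pos hn0 _
  have hxD : x ^ (D + 3) = (n : ℝ) ^ 2 := by
    rw [hx, ← Real.rpow_natCast, ← Real.rpow_mul hn0.le, ← Real.rpow_natCast]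
    congr 1
    push_cast
    field_simp
  have hxp : (p₀ + 1 : ℝ) ≤ x := by
    refine le_of_pow_le_pow_left₀ (n := D + 3) (by omega) hx0.le ?_
    rw [hxD]
    have : (p₀ + 1) ^ (D + 3) ≤ n ^ 2 := hn.trans (Nat.le_self_pow (by norm_num) n)
    exact_mod_cast this
  have hx1 : 1 ≤ x := by
    have : (0 : ℝ) ≤ p₀ := Nat.cast_nonneg _
    linarith
  have ht1 : x ≤ ⌈x⌉₊ := Nat.le_ceil x
  have ht2 : (⌈x⌉₊ : ℝ) < x + 1 := Nat.ceil_lt_add_one hx0.le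
  obtain ⟨p, hp, hl, hu⟩ := Nat.exists_prime_lt_and_le_two_mul ⌈x⌉₊
    (Nat.ceil_pos.2 hx0).ne'
  have hl' : x ≤ p := ht1.trans (by exact_mod_cast hl.le)
  have hu' : (p : ℝ) ≤ 4 * x := by
    have : (p : ℝ) ≤ 2 * ⌈x⌉₊ := by exact_mod_cast hu
    linarith
  obtain ⟨P, hP, hP1, hP2⟩ := h p hp (by
    have : (p₀ : ℝ) ≤ p := by linarith
    exact_mod_cast this) n (by
    have : (n : ℝ) ^ 2 ≤ (p : ℝ) ^ (D + 3) := by
      rw [← hxD]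
      gcongr
    exact_mod_cast this)
  refine ⟨P, hP, hP1, fun a ha q hq r hr h1 h2 h3 => le_trans ?_ (hP2 a ha q hq r hr h1 h2 h3)⟩
  have e : (n : ℝ) ^ (-2 + (2 : ℝ) / (D + 3)) = 1 / x ^ (D + 2) := by
    rw [Real.rpow_add hn0, ← hx, Real.rpow_neg hn0.le, Real.rpow_two, ← hxD]
    field_simp
    ring
  have hp0 : (0 : ℝ) < p := by linarith
  rw [e, div_mul_div_comm, one_mul, ← mul_pow]
  gcongr

end Crest.Agent.R32
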