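import Crest.Agent.R32.Basic

/-! Row 32: relations of middle height, mean gcds, parallel pairs. -/

set_option autoImplicit false

namespace Crest.Agent.R32

open Finset
open scoped Classical

theorem lb_card_le_of_sep {α : Type*} (S : Finset α) (f : α → ℝ) (δ : ℝ) (hδ : 0 < δ)
    (h1 : ∀ a ∈ S, -1 ≤ f a ∧ f a ≤ 1) (h2 : ∀ a ∈ S, ∀ b ∈ S, a ≠ b → δ ≤ |f a - f b|) :
    (S.card : ℝ) ≤ 2 / δ + 1 := by
  have hmap : ∀ a ∈ S, ⌊(f a + 1) / δ⌋₊ ∈ range (⌊2 / δ⌋₊ + 1) := by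
    intro a ha
    rw [mem_range, Nat.lt_succ_iff]
    apply Nat.floor_le_floor
    gcongr
    linarith [(h1 a ha).2]
  have hinj : Set.InjOn (fun a => ⌊(f a + 1) / δ⌋₊) S := by
    intro a ha b hb hab
    by_contra hne
    have h3 := h2 a ha b hb hne
    have pa : 0 ≤ (f a + 1) / δ := div_nonneg (by linarith [(h1 a ha).1]) hδ.le
    have pb : 0 ≤ (f b + 1) / δ := div_nonneg (by linarith [(h1 b hb).1]) hδ.le
    have a1 := Nat.floor_le pa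
    have a2 := Nat.lt_floor_add_one ((f a + 1) / δ)
    have b1 := Nat.floor_le pb
    have b2 := Nat.lt_floor_add_one ((f b + 1) / δ)
    simp only at hab
    rw [hab] at a1 a2
    have h4 : |(f a + 1) / δ - (f b + 1) / δ| < 1 := abs_lt.2 ⟨by linarith, by linarith⟩
    rw [← sub_div, abs_div, abs_of_pos hδ, div_lt_one hδ] at h4
    have : f a + 1 - (f b + 1) = f a - f b := by ring
    rw [this] at h4
    linarith
  have h5 := card_le_card_of_injOn _ hmap hinj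
  rw [card_range] at h5
  have h6 : (⌊2 / δ⌋₊ : ℝ) ≤ 2 / δ := Nat.floor_le (by positivity)
  have h7 : (S.card : ℝ) ≤ (⌊2 / δ⌋₊ : ℝ) + 1 := by exact_mod_cast h5
  linarith

theorem lb_eq_of_cross {m m' : V3} (hm : Prim m) (hm' : Prim m') (h3 : 0 < m.2.2)
    (h3' : 0 < m'.2.2) (c1 : (cross m m').1 = 0) (c2 : (cross m m').2.1 = 0)
    (c3 : (cross m m').2.2 = 0) : m = m' := by
  obtain ⟨w, hw⟩ := hm
  obtain ⟨w', hw'⟩ := hm'
  simp only [cross, dot] at *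
  set s := w.1 * m'.1 + w.2.1 * m'.2.1 + w.2.2 * m'.2.2 with hs
  set s' := w'.1 * m.1 + w'.2.1 * m.2.1 + w'.2.2 * m.2.2 with hs'
  have e1 : m'.1 = s * m.1 := by
    rw [hs]; linear_combination (-m'.1) * hw - w.2.1 * c3 + w.2.2 * c2
  have e2 : m'.2.1 = s * m.2.1 := by
    rw [hs]; linear_combination (-m'.2.1) * hw + w.1 * c3 - w.2.2 * c1
  have e3 : m'.2.2 = s * m.2.2 := by
    rw [hs]; linear_combination (-m'.2.2) * hw - w.1 * c2 + w.2.1 * c1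
  have e4 : s * s' = 1 := by
    rw [hs']; linear_combination hw' - w'.1 * e1 - w'.2.1 * e2 - w'.2.2 * e3
  have hs0 : 0 < s := by
    rw [e3] at h3'
    exact (mul_pos_iff_of_pos_right h3).1 h3'
  have hs1 : s = 1 := Int.eq_one_of_mul_eq_one_right hs0.le e4
  rw [hs1, one_mul] at e1 e2 e3
  exact Prod.ext e1.symm (Prod.ext e2.symm e3.symm)

theorem lb_sep (W U3 : ℕ) (hW : 0 < W) (hU3 : 0 < U3) (by' Z : V3) (hZ : Btw U3 (2 * U3) Z)
    {m m' : V3} (hm : Prim m) (hm' : Prim m') (h3 : 0 < m.2.2) (h3' : 0 < m'.2.2) (hne : m ≠ m')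
    (d1 : dot m Z = 0) (d2 : dot m' Z = 0) (v1 : (W : ℤ) ∣ dot m by') (v2 : (W : ℤ) ∣ dot m' by') :
    (W : ℤ) * U3 ≤ |m.1 * m'.2.2 - m'.1 * m.2.2| * (ell W by' Z * gcd3 Z) := by
  have hU : (0 : ℤ) < U3 := by exact_mod_cast hU3
  have hZ3 : 0 < Z.2.2 := hU.trans_le hZ.2.2.1
  obtain ⟨⟨w, hw⟩, hp3, g, hg, g1, g2, g3⟩ := prim_spec hZ3.ne'
  set Z' := prim Z with hZ'
  have hg0 : 0 < g := by
    rw [g3] at hZ3
    exact (mul_pos_iff_of_pos_right hp3).1 hZ3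
  rw [abs_of_pos hg0] at hg
  have d1' : dot m Z' = 0 := by
    apply mul_left_cancel₀ hg0.ne'
    simp only [dot] at d1 ⊢
    linear_combination d1 - m.1 * g1 - m.2.1 * g2 - m.2.2 * g3
  have d2' : dot m' Z' = 0 := by
    apply mul_left_cancel₀ hg0.ne'
    simp only [dot] at d2 ⊢
    linear_combination d2 - m'.1 * g1 - m'.2.1 * g2 - m'.2.2 * g3
  set t := dot w (cross m m') with ht
  have n1 : (cross m m').1 = t * Z'.1 := by
    simp only [ht, dot, cross] at *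
    linear_combination (-(m.2.1 * m'.2.2 - m.2.2 * m'.2.1)) * hw
      + (w.2.1 * m'.2.2 - w.2.2 * m'.2.1) * d1' - (w.2.1 * m.2.2 - w.2.2 * m.2.1) * d2'
  have n2 : (cross m m').2.1 = t * Z'.2.1 := by
    simp only [ht, dot, cross] at *
    linear_combination (-(m.2.2 * m'.1 - m.1 * m'.2.2)) * hw
      + (w.2.2 * m'.1 - w.1 * m'.2.2) * d1' - (w.2.2 * m.1 - w.1 * m.2.2) * d2'
  have n3 : (cross m m').2.2 = t * Z'.2.2 := by
    simp only [ht, dot, cross] at *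
    linear_combination (-(m.1 * m'.2.1 - m.2.1 * m'.1)) * hw
      + (w.1 * m'.2.1 - w.2.1 * m'.1) * d1' - (w.1 * m.2.1 - w.2.1 * m.1) * d2'
  have ht0 : t ≠ 0 := by
    intro h0
    rw [h0, zero_mul] at n1 n2 n3
    exact hne (lb_eq_of_cross hm hm' h3 h3' n1 n2 n3)
  have k1 : (W : ℤ) ∣ t * (cross by' Z).1 := by
    have : t * (cross by' Z).1 = g * (m.1 * dot m' by' - m'.1 * dot m by') := by
      simp only [dot, cross] at n1 n2 n3 ⊢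
      rw [g2, g3]
      linear_combination (-g * by'.2.1) * n3 + g * by'.2.2 * n2
    rw [this]
    exact Dvd.dvd.mul_left (dvd_sub (v2.mul_left _) (v1.mul_left _)) _
  have k3 : (W : ℤ) ∣ t * (cross by' Z).2.2 := by
    have : t * (cross by' Z).2.2 = g * (m.2.2 * dot m' by' - m'.2.2 * dot m by') := by
      simp only [dot, cross] at n1 n2 n3 ⊢
      rw [g1, g2]
      linear_combination (-g * by'.1) * n2 + g * by'.2.1 * n1
    rw [this]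
    exact Dvd.dvd.mul_left (dvd_sub (v2.mul_left _) (v1.mul_left _)) _
  have k4 : W ∣ t.natAbs * ell W by' Z := by
    rw [ell, ← Nat.gcd_mul_left]
    apply Nat.dvd_gcd (Dvd.intro_left _ rfl)
    rw [← Int.gcd_mul_left]
    exact Int.dvd_gcd k1 k3
  have hl : 0 < ell W by' Z := Nat.gcd_pos_of_pos_left _ hW
  have k5 : W ≤ t.natAbs * ell W by' Z :=
    Nat.le_of_dvd (Nat.mul_pos (Int.natAbs_pos.2 ht0) hl) k4
  have k6 : (W : ℤ) ≤ |t| * ell W by' Z := by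
    rw [← Int.natCast_natAbs]; exact_mod_cast k5
  have k7 : |m.1 * m'.2.2 - m'.1 * m.2.2| * g = |t| * Z.2.1 := by
    have e : m.1 * m'.2.2 - m'.1 * m.2.2 = -(t * Z'.2.1) := by
      simp only [cross] at n2; linear_combination -n2
    have hZ2 : 0 < Z.2.1 := hU.trans_le hZ.2.1.1
    have hZ2' : 0 < Z'.2.1 := by
      rw [g2] at hZ2
      exact (mul_pos_iff_of_pos_left hg0).1 hZ2
    rw [e, abs_neg, abs_mul, abs_of_pos hZ2', g2]; ring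
  rw [← hg]
  calc (W : ℤ) * U3 ≤ (|t| * ell W by' Z) * Z.2.1 :=
        mul_le_mul k6 hZ.2.1.1 hU.le (by positivity)
    _ = |m.1 * m'.2.2 - m'.1 * m.2.2| * (ell W by' Z * g) := by
        linear_combination (-(ell W by' Z : ℤ)) * k7

theorem liftB (W U3 R0 R1 : ℕ) (hW : 0 < W) (hU3 : 0 < U3) (hR1 : W * U3 ≤ R1 ^ 2) (by' Z : V3)
    (hZ : Btw U3 (2 * U3) Z) :
    ∑ m ∈ (rel R0).filter (fun m => (R1 : ℤ) ≤ m.2.2 ∧ dot m Z = 0 ∧ (W : ℤ) ∣ dot m by'),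
      (1 : ℝ) / (m.2.2 : ℝ) ^ 2 ≤ 24 * ell W by' Z * gcd3 Z * Har (2 * R0) / (W * U3) := by
  have hU : (0 : ℤ) < U3 := by exact_mod_cast hU3
  have hl : 0 < ell W by' Z := Nat.gcd_pos_of_pos_left _ hW
  have he : 0 < gcd3 Z := gcd3_pos (hU.trans_le hZ.2.2.1).ne'
  have hWU : 0 < W * U3 := Nat.mul_pos hW hU3
  have hR : 1 ≤ R1 := by
    rcases Nat.eq_zero_or_pos R1 with h | h
    · rw [h] at hR1; omega
    · exact h
  set l : ℝ := (ell W by' Z : ℝ) * gcd3 Z with hldef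
  have hl1 : 1 ≤ l := by
    rw [hldef]; exact_mod_cast Nat.mul_pos hl he
  have hWr : (0 : ℝ) < (W : ℝ) * U3 := by exact_mod_cast hWU
  have key := sum_inv_pow_le
    ((rel R0).filter (fun m => (R1 : ℤ) ≤ m.2.2 ∧ dot m Z = 0 ∧ (W : ℤ) ∣ dot m by')) 2 R1 R0
    (3 * l / (W * U3)) (by positivity) hR
    (fun m hm => by
      rw [mem_filter, mem_rel] at hm
      exact ⟨hm.2.1, hm.1.2.2.2⟩)
    (fun ρ hρ => by
      have hρ0 : (0 : ℝ) < ρ := by exact_mod_cast (lt_of_lt_of_le hR hρ)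
      have hρ2 : (W : ℝ) * U3 ≤ (ρ : ℝ) ^ 2 := by
        have : W * U3 ≤ ρ ^ 2 := hR1.trans (Nat.pow_le_pow_left hρ 2)
        exact_mod_cast this
      refine (lb_card_le_of_sep _ (fun m : V3 => (m.1 : ℝ) / (m.2.2 : ℝ))
        ((W * U3) / (l * (ρ : ℝ) ^ 2)) (by positivity) ?_ ?_).trans ?_
      · intro m hm
        simp only [mem_filter, mem_rel] at hm
        obtain ⟨⟨⟨-, hx, h3, -⟩, -⟩, -⟩ := hm
        have h3r : (0 : ℝ) < m.2.2 := by exact_mod_cast h3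
        have h4 := hx.2.2.1
        rw [abs_of_pos h3, abs_le] at h4
        have h5 : -(m.2.2 : ℝ) ≤ m.1 := by exact_mod_cast h4.1
        have h6 : (m.1 : ℝ) ≤ m.2.2 := by exact_mod_cast h4.2
        rw [le_div_iff₀ h3r, div_le_one h3r]
        exact ⟨by linarith, h6⟩
      · intro m hm m' hm' hne
        simp only [mem_filter, mem_rel] at hm hm'
        obtain ⟨⟨⟨hp, -, h3, -⟩, -, d1, v1⟩, r1⟩ := hm
        obtain ⟨⟨⟨hp', -, h3', -⟩, -, d2, v2⟩, r2⟩ := hm'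
        have h3r : (0 : ℝ) < m.2.2 := by exact_mod_cast h3
        have h3r' : (0 : ℝ) < m'.2.2 := by exact_mod_cast h3'
        have r1' : (m.2.2 : ℝ) ≤ ρ := by exact_mod_cast r1
        have r2' : (m'.2.2 : ℝ) ≤ ρ := by exact_mod_cast r2
        have hs := lb_sep W U3 hW hU3 by' Z hZ hp hp' h3 h3' hne d1 d2 v1 v2
        have hs' : (W : ℝ) * U3 ≤ |(m.1 : ℝ) * m'.2.2 - m'.1 * m.2.2| * l := by
          rw [hldef]; exact_mod_cast hs
        have e : (m.1 : ℝ) / m.2.2 - (m'.1 : ℝ) / m'.2.2 =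
            ((m.1 : ℝ) * m'.2.2 - m'.1 * m.2.2) / (m.2.2 * m'.2.2) := by
          field_simp
        rw [e, abs_div, abs_of_pos (mul_pos h3r h3r'), div_le_div_iff₀ (by positivity)
          (by positivity)]
        calc (W : ℝ) * U3 * (m.2.2 * m'.2.2)
            ≤ (|(m.1 : ℝ) * m'.2.2 - m'.1 * m.2.2| * l) * (ρ * ρ) := by gcongr
          _ = _ := by ring
      · have e : 2 / ((W * U3 : ℝ) / (l * (ρ : ℝ) ^ 2)) = 2 * (l * (ρ : ℝ) ^ 2 / (W * U3)) := by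
          field_simp
        have h1 : 1 ≤ l * (ρ : ℝ) ^ 2 / (W * U3) := by
          rw [le_div_iff₀ hWr]; nlinarith
        have e2 : 3 * l / (W * U3) * (ρ : ℝ) ^ 2 = 3 * (l * (ρ : ℝ) ^ 2 / (W * U3)) := by ring
        rw [e, e2]; linarith)
  refine key.trans (le_of_eq ?_)
  rw [hldef]; ring

theorem lb_cop {t Wz : ℕ} {b k : ℤ} (hb : IsCoprime b (Wz : ℤ)) (h : (t : ℤ) ∣ b + Wz * k) :
    IsCoprime (Wz : ℤ) (t : ℤ) := by
  obtain ⟨u, v, huv⟩ := hb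
  obtain ⟨q, hq⟩ := h
  exact ⟨v - u * k, u * q, by linear_combination huv - u * hq⟩

theorem lb_cnt (Wz L t : ℕ) (ht : 0 < t) (b k : ℤ) (hb : IsCoprime b (Wz : ℤ)) :
    ((((Ico (0 : ℤ) L).filter fun c => (t : ℤ) ∣ b + Wz * (k + c)).card : ℕ) : ℝ) ≤
      (L : ℝ) / t + 1 := by
  by_cases hc : IsCoprime (Wz : ℤ) (t : ℤ)
  · have := card_dvd_lin_le 0 L (b + Wz * k) Wz t ht (by positivity) hc
    simp only [Int.cast_natCast, Int.cast_zero, sub_zero] at this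
    convert this using 4 with c
    ring_nf
  · rw [filter_eq_empty_iff.2 fun c _ h => hc (lb_cop hb h)]
    simp only [card_empty, Nat.cast_zero]
    positivity

theorem lb_sum_inv_sq (T : ℕ) : ∑ t ∈ Icc 1 T, (1 : ℝ) / (t : ℝ) ^ 2 ≤ 2 := by
  have h : ∀ n : ℕ, ∑ t ∈ Icc 1 (n + 1), (1 : ℝ) / (t : ℝ) ^ 2 ≤ 2 - 1 / ((n : ℝ) + 1) := by
    intro n
    induction n with
    | zero => norm_num
    | succ n ih =>
      rw [sum_Icc_succ_top (by omega)]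
      have h1 : (1 : ℝ) / (((n + 1 + 1 : ℕ) : ℝ)) ^ 2 ≤
          1 / ((n : ℝ) + 1) - 1 / (((n + 1 : ℕ) : ℝ) + 1) := by
        push_cast
        rw [div_sub_div _ _ (by positivity) (by positivity), div_le_div_iff₀ (by positivity)
          (by positivity)]
        nlinarith [(Nat.cast_nonneg n : (0 : ℝ) ≤ n)]
      linarith
  rcases T with _ | n
  · simp
  · have := h n
    have h2 : (0 : ℝ) ≤ 1 / ((n : ℝ) + 1) := by positivity
    linarith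

theorem lb_le_sum (T g : ℕ) (hg : 0 < g) (hT : g ≤ T) (p : ℕ → Prop) [DecidablePred p] (hp : p g) :
    (g : ℝ) ≤ ∑ t ∈ Icc 1 T, if p t then (t : ℝ) else 0 := by
  have := single_le_sum (f := fun t : ℕ => if p t then (t : ℝ) else 0) (s := Icc 1 T)
    (fun t _ => by positivity) (mem_Icc.2 ⟨hg, hT⟩)
  simpa [hp] using this

theorem lb_btw {Wz L3 : ℕ} {z c : ℤ} (hz : 0 ≤ z ∧ z < Wz) (hc : 0 ≤ c ∧ c < L3) :
    ((Wz * L3 : ℕ) : ℤ) ≤ z + Wz * (L3 + c) ∧ z + Wz * (L3 + c) < 2 * ((Wz * L3 : ℕ) : ℤ) := by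
  push_cast
  have hW : (0 : ℤ) ≤ Wz := by positivity
  have h1 : 0 ≤ (Wz : ℤ) * c := mul_nonneg hW hc.1
  have h2 : (Wz : ℤ) * (c + 1) ≤ Wz * L3 := mul_le_mul_of_nonneg_left (by omega) hW
  constructor <;> nlinarith

theorem sum_gcd3 (Wz L3 : ℕ) (hW : 0 < Wz) (hL : Wz ^ 2 ≤ L3) (bz : V3) (hb : Btw 0 Wz bz)
    (hc : Cop Wz bz) :
    ∑ cz ∈ box L3, (gcd3 (liftZ Wz L3 bz cz) : ℝ) ≤ 24 * (L3 : ℝ) ^ 3 := by
  have hL0 : 0 < L3 := lt_of_lt_of_le (pow_pos hW 2) hL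
  have hU : (0 : ℤ) < ((Wz * L3 : ℕ) : ℤ) := by exact_mod_cast Nat.mul_pos hW hL0
  set T := 2 * (Wz * L3) with hT
  have step1 : ∀ cz ∈ box L3, (gcd3 (liftZ Wz L3 bz cz) : ℝ) ≤
      ∑ t ∈ Icc 1 T, if ((t : ℤ) ∣ bz.1 + Wz * (L3 + cz.1) ∧
        (t : ℤ) ∣ bz.2.1 + Wz * (L3 + cz.2.1) ∧ (t : ℤ) ∣ bz.2.2 + Wz * (L3 + cz.2.2))
        then (t : ℝ) else 0 := by
    intro cz hcz
    rw [mem_box] at hcz
    have h3 := lb_btw hb.2.2 hcz.2.2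
    have h4 : 0 < (liftZ Wz L3 bz cz).2.2 := hU.trans_le h3.1
    have hd := gcd3_dvd (liftZ Wz L3 bz cz)
    refine lb_le_sum T _ (gcd3_pos h4.ne') ?_ (fun t => (t : ℤ) ∣ bz.1 + Wz * (L3 + cz.1) ∧
        (t : ℤ) ∣ bz.2.1 + Wz * (L3 + cz.2.1) ∧ (t : ℤ) ∣ bz.2.2 + Wz * (L3 + cz.2.2)) hd
    have h5 := (Int.le_of_dvd h4 hd.2.2).trans h3.2.le
    rw [hT]; exact_mod_cast h5
  refine (sum_le_sum step1).trans ?_
  rw [sum_comm]
  have step2 : ∀ t ∈ Icc 1 T, (∑ cz ∈ box L3, if ((t : ℤ) ∣ bz.1 + Wz * (L3 + cz.1) ∧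
        (t : ℤ) ∣ bz.2.1 + Wz * (L3 + cz.2.1) ∧ (t : ℤ) ∣ bz.2.2 + Wz * (L3 + cz.2.2))
        then (t : ℝ) else 0) ≤ 4 * (L3 : ℝ) ^ 3 * (1 / (t : ℝ) ^ 2) + 4 * T := by
    intro t ht
    rw [mem_Icc] at ht
    have ht0 : 0 < t := ht.1
    have htr : (0 : ℝ) < t := by exact_mod_cast ht0
    have htT : (t : ℝ) ≤ T := by exact_mod_cast ht.2
    rw [← sum_filter, sum_const, nsmul_eq_mul]
    have e : (box L3).filter (fun cz : V3 => (t : ℤ) ∣ bz.1 + Wz * (L3 + cz.1) ∧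
        (t : ℤ) ∣ bz.2.1 + Wz * (L3 + cz.2.1) ∧ (t : ℤ) ∣ bz.2.2 + Wz * (L3 + cz.2.2)) =
        ((Ico (0 : ℤ) L3).filter fun c => (t : ℤ) ∣ bz.1 + Wz * (L3 + c)) ×ˢ
        ((Ico (0 : ℤ) L3).filter fun c => (t : ℤ) ∣ bz.2.1 + Wz * (L3 + c)) ×ˢ
        ((Ico (0 : ℤ) L3).filter fun c => (t : ℤ) ∣ bz.2.2 + Wz * (L3 + c)) := by
      ext c
      simp only [box, mem_filter, mem_product]
      tauto
    rw [e, card_product, card_product]
    push_cast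
    have c1 := lb_cnt Wz L3 t ht0 bz.1 L3 hc.1
    have c2 := lb_cnt Wz L3 t ht0 bz.2.1 L3 hc.2.1
    have c3 := lb_cnt Wz L3 t ht0 bz.2.2 L3 hc.2.2
    set x : ℝ := (L3 : ℝ) / t with hx
    have hx0 : 0 ≤ x := by positivity
    calc _ ≤ (x + 1) * ((x + 1) * (x + 1)) * t := by gcongr
      _ ≤ (4 * x ^ 3 + 4) * t := by
          gcongr
          nlinarith [mul_nonneg (add_nonneg hx0 zero_le_one) (sq_nonneg (x - 1))]
      _ = 4 * (L3 : ℝ) ^ 3 * (1 / (t : ℝ) ^ 2) + 4 * t := by rw [hx]; field_simp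
      _ ≤ _ := by gcongr
  refine (sum_le_sum step2).trans ?_
  rw [sum_add_distrib, ← mul_sum, sum_const, Nat.card_Icc, nsmul_eq_mul]
  have h1 := lb_sum_inv_sq T
  have h2 : ((T + 1 - 1 : ℕ) : ℝ) = 2 * (Wz * L3) := by rw [Nat.add_sub_cancel, hT]; push_cast; ring
  have h3 : (T : ℝ) = 2 * (Wz * L3) := by rw [hT]; push_cast; ring
  have h4 : (Wz : ℝ) ^ 2 ≤ L3 := by exact_mod_cast hL
  rw [h2, h3]
  have h5 : (0 : ℝ) ≤ (L3 : ℝ) ^ 3 := by positivity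
  have h6 : (Wz : ℝ) ^ 2 * (L3 : ℝ) ^ 2 ≤ L3 * (L3 : ℝ) ^ 2 := by gcongr
  nlinarith

theorem lb_fiber (W Wz L2 L3 : ℕ) (hW : 0 < W) (hWz : 0 < Wz) (hL3 : 0 < L3) (Y Z y₂ z₂ : ℤ)
    (hZ : ((Wz * L3 : ℕ) : ℤ) ≤ Z) (hz₂ : 0 ≤ z₂ ∧ z₂ < Wz) :
    ((((Ico (0 : ℤ) L2 ×ˢ Ico (0 : ℤ) L3).filter fun c =>
      Y * (z₂ + Wz * (L3 + c.2)) = (y₂ + W * c.1) * Z).card : ℕ) : ℝ) ≤ 2 * (Int.gcd Y Z : ℝ) := by
  have hU : (0 : ℤ) < ((Wz * L3 : ℕ) : ℤ) := by exact_mod_cast Nat.mul_pos hWz hL3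
  have hZ0 : 0 < Z := hU.trans_le hZ
  have hg : 0 < Int.gcd Y Z := Int.gcd_pos_of_ne_zero_right _ hZ0.ne'
  obtain ⟨Y', Z', hcop, hY, hZ'⟩ := Int.exists_gcd_one hg
  set g := Int.gcd Y Z with hgdef
  have hgz : (0 : ℤ) < g := by exact_mod_cast hg
  have hZ'0 : 0 < Z' := by
    rw [hZ'] at hZ0
    exact (mul_pos_iff_of_pos_right hgz).1 hZ0
  obtain ⟨d, rfl⟩ := Int.eq_ofNat_of_zero_le hZ'0.le
  have hd0 : 0 < d := by exact_mod_cast hZ'0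
  have hcnt := card_modEq_le ((Wz * L3 : ℕ) : ℤ) (2 * ((Wz * L3 : ℕ) : ℤ)) 0 d hd0 (by omega)
  have hle : ((Ico (0 : ℤ) L2 ×ˢ Ico (0 : ℤ) L3).filter fun c =>
      Y * (z₂ + Wz * (L3 + c.2)) = (y₂ + W * c.1) * Z).card ≤
      ((Ico ((Wz * L3 : ℕ) : ℤ) (2 * ((Wz * L3 : ℕ) : ℤ))).filter
        fun c => c ≡ 0 [ZMOD d]).card := by
    apply card_le_card_of_injOn (fun c : ℤ × ℤ => z₂ + Wz * (L3 + c.2))
    · intro c hc
      simp only [coe_filter, mem_product, mem_Ico, Set.mem_ofPred_eq] at hc ⊢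
      refine ⟨lb_btw hz₂ hc.1.2, ?_⟩
      rw [Int.modEq_zero_iff_dvd]
      have h1 : Y' * (z₂ + Wz * (L3 + c.2)) = (y₂ + W * c.1) * d := by
        apply mul_right_cancel₀ hgz.ne'
        have := hc.2
        rw [hY, hZ'] at this
        linear_combination this
      have h2 : (d : ℤ) ∣ Y' * (z₂ + Wz * (L3 + c.2)) := ⟨y₂ + W * c.1, by rw [h1]; ring⟩
      exact (Int.isCoprime_iff_gcd_eq_one.2 hcop).symm.dvd_of_dvd_mul_left h2
    · intro c hc c' hc' h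
      simp only [coe_filter, mem_product, mem_Ico, Set.mem_ofPred_eq] at hc hc' h
      have hWz' : (Wz : ℤ) ≠ 0 := by exact_mod_cast hWz.ne'
      have hW' : (W : ℤ) ≠ 0 := by exact_mod_cast hW.ne'
      have e2 : c.2 = c'.2 := by
        have := mul_left_cancel₀ hWz' (add_left_cancel h)
        exact add_left_cancel this
      have e1 : c.1 = c'.1 := by
        have h1 : (y₂ + W * c.1) * Z = (y₂ + W * c'.1) * Z := by rw [← hc.2, ← hc'.2, e2]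
        exact mul_left_cancel₀ hW' (add_left_cancel (mul_right_cancel₀ hZ0.ne' h1))
      exact Prod.ext e1 e2
  have hle' := (Nat.cast_le (α := ℝ)).2 hle
  refine hle'.trans (hcnt.trans ?_)
  have hdr : (0 : ℝ) < d := by exact_mod_cast hd0
  have hg1 : (1 : ℝ) ≤ g := by exact_mod_cast hg
  have h3 : (((Wz * L3 : ℕ) : ℤ) : ℝ) ≤ (d : ℝ) * g := by
    rw [hZ'] at hZ; exact_mod_cast hZ
  have h4 : ((((2 * ((Wz * L3 : ℕ) : ℤ) : ℤ)) : ℝ) - (((Wz * L3 : ℕ) : ℤ) : ℝ)) / d ≤ g := by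
    rw [div_le_iff₀ hdr]
    push_cast at h3 ⊢
    linarith
  linarith

theorem pair_count (W Wz L2 L3 : ℕ) (hW : 0 < W) (hWz : 0 < Wz) (hd : W ∣ Wz) (hL3 : 0 < L3)
    (hL2 : 2 * (Wz * L3) ≤ L2) (y₁ y₂ z₁ z₂ : ℤ) (hz₁ : 0 ≤ z₁ ∧ z₁ < Wz) (hz₂ : 0 ≤ z₂ ∧ z₂ < Wz)
    (hc : IsCoprime z₁ (Wz : ℤ)) :
    (((((Ico (0 : ℤ) L2 ×ˢ Ico (0 : ℤ) L3) ×ˢ (Ico (0 : ℤ) L2 ×ˢ Ico (0 : ℤ) L3)).filter fun c =>
      (y₁ + W * c.1.1) * (z₂ + Wz * (L3 + c.2.2)) =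
        (y₂ + W * c.2.1) * (z₁ + Wz * (L3 + c.1.2))).card : ℕ) : ℝ) ≤
      4 * (Har L2 + 2 * Wz) * L2 * L3 := by
  have hU : (0 : ℤ) < ((Wz * L3 : ℕ) : ℤ) := by exact_mod_cast Nat.mul_pos hWz hL3
  set B := Ico (0 : ℤ) L2 ×ˢ Ico (0 : ℤ) L3 with hB
  set T := 2 * (Wz * L3) with hT
  have e0 : (((B ×ˢ B).filter fun c : (ℤ × ℤ) × (ℤ × ℤ) =>
      (y₁ + W * c.1.1) * (z₂ + Wz * (L3 + c.2.2)) =
        (y₂ + W * c.2.1) * (z₁ + Wz * (L3 + c.1.2))).card : ℕ) =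
      ∑ a ∈ B, (B.filter fun c : ℤ × ℤ => (y₁ + W * a.1) * (z₂ + Wz * (L3 + c.2)) =
        (y₂ + W * c.1) * (z₁ + Wz * (L3 + a.2))).card := by
    rw [card_filter, sum_product]
    simp only [card_filter]
  rw [e0]
  push_cast
  have step1 : ∀ a ∈ B, (((B.filter fun c : ℤ × ℤ => (y₁ + W * a.1) * (z₂ + Wz * (L3 + c.2)) =
        (y₂ + W * c.1) * (z₁ + Wz * (L3 + a.2))).card : ℕ) : ℝ) ≤
      2 * ∑ t ∈ Icc 1 T, if ((t : ℤ) ∣ y₁ + W * a.1 ∧ (t : ℤ) ∣ z₁ + Wz * (L3 + a.2))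
        then (t : ℝ) else 0 := by
    intro a ha
    rw [hB, mem_product, mem_Ico, mem_Ico] at ha
    have h3 := lb_btw hz₁ ha.2
    have h4 : 0 < z₁ + Wz * (L3 + a.2) := hU.trans_le h3.1
    refine (lb_fiber W Wz L2 L3 hW hWz hL3 _ _ y₂ z₂ h3.1 hz₂).trans ?_
    gcongr
    refine lb_le_sum T _ (Int.gcd_pos_of_ne_zero_right _ h4.ne') ?_
      (fun t => (t : ℤ) ∣ y₁ + W * a.1 ∧ (t : ℤ) ∣ z₁ + Wz * (L3 + a.2))
      ⟨Int.gcd_dvd_left _ _, Int.gcd_dvd_right _ _⟩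
    have h5 := (Int.le_of_dvd h4 (Int.gcd_dvd_right (y₁ + W * a.1) _)).trans h3.2.le
    rw [hT]; exact_mod_cast h5
  refine (sum_le_sum step1).trans ?_
  rw [← mul_sum, sum_comm]
  have step2 : ∀ t ∈ Icc 1 T, (∑ a ∈ B,
      if ((t : ℤ) ∣ y₁ + W * a.1 ∧ (t : ℤ) ∣ z₁ + Wz * (L3 + a.2)) then (t : ℝ) else 0) ≤
      2 * L2 * L3 * (1 / (t : ℝ)) + 2 * L2 := by
    intro t ht
    rw [mem_Icc] at ht
    have ht0 : 0 < t := ht.1
    have htr : (0 : ℝ) < t := by exact_mod_cast ht0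
    have htL : (t : ℝ) ≤ L2 := by exact_mod_cast ht.2.trans hL2
    rw [← sum_filter, sum_const, nsmul_eq_mul]
    by_cases hcop : IsCoprime (Wz : ℤ) (t : ℤ)
    · have e : B.filter (fun a : ℤ × ℤ =>
          (t : ℤ) ∣ y₁ + W * a.1 ∧ (t : ℤ) ∣ z₁ + Wz * (L3 + a.2)) =
          ((Ico (0 : ℤ) L2).filter fun c => (t : ℤ) ∣ y₁ + W * c) ×ˢ
          ((Ico (0 : ℤ) L3).filter fun c => (t : ℤ) ∣ z₁ + Wz * (L3 + c)) := by
        ext c
        simp only [hB, mem_filter, mem_product]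
        tauto
      rw [e, card_product]
      push_cast
      have c1 := card_dvd_lin_le 0 L2 y₁ W t ht0 (by positivity)
        (hcop.of_isCoprime_of_dvd_left (Int.natCast_dvd_natCast.2 hd))
      simp only [Int.cast_natCast, Int.cast_zero, sub_zero] at c1
      have c2 := lb_cnt Wz L3 t ht0 z₁ L3 hc
      have c3 : (L2 : ℝ) / t + 1 ≤ 2 * L2 / t := by
        have : (1 : ℝ) ≤ L2 / t := by rw [le_div_iff₀ htr]; linarith
        have e2 : 2 * (L2 : ℝ) / t = L2 / t + L2 / t := by ring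
        linarith
      calc _ ≤ (2 * L2 / t) * (L3 / t + 1) * (t : ℝ) := by
            gcongr
            exact c1.trans c3
        _ = _ := by field_simp
    · rw [filter_eq_empty_iff.2 fun c _ h => hcop (lb_cop hc h.2)]
      simp only [card_empty, Nat.cast_zero, zero_mul]
      positivity
  have h0 := sum_le_sum step2
  rw [sum_add_distrib, ← mul_sum, sum_const, Nat.card_Icc, nsmul_eq_mul] at h0
  have h1 : ∑ t ∈ Icc 1 T, (1 : ℝ) / (t : ℝ) ≤ Har L2 := Har_mono hL2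
  have h2 : ((T + 1 - 1 : ℕ) : ℝ) = 2 * (Wz * L3) := by rw [Nat.add_sub_cancel, hT]; push_cast; ring
  rw [h2] at h0
  have h3 : 2 * (L2 : ℝ) * L3 * ∑ t ∈ Icc 1 T, (1 : ℝ) / (t : ℝ) ≤ 2 * L2 * L3 * Har L2 := by
    gcongr
  nlinarith

end Crest.Agent.R32
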