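import Crest.Agent.R32.Basic

/-! Row 32: auxiliary lemmas for the lifting bound. -/

set_option autoImplicit false

namespace Crest.Agent.R32

open Finset
open scoped Classical

theorem card_filter_prod3 {α β γ : Type*} (A : Finset α) (B : Finset β) (C : Finset γ)
    (P : α × β × γ → Prop) [DecidablePred P] :
    ((((A ×ˢ B ×ˢ C).filter P).card : ℕ) : ℝ) =
      ∑ c ∈ C, ∑ b ∈ B, (((A.filter fun a => P (a, b, c)).card : ℕ) : ℝ) := by
  simp only [card_filter, sum_product]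
  push_cast
  rw [sum_comm]
  simp only [sum_comm (s := A)]
  rw [sum_comm]

theorem Mx.ne3 {M : V3} (h : Mx M) : M.2.2 ≠ 0 := by
  intro h0
  have := h.2.2.1
  rw [h0, abs_zero] at this
  exact h.1 (abs_nonpos_iff.1 this)

/-- the structure of a vector with `Mx` -/
theorem Mx.spec {M : V3} (h : Mx M) :
    Prim (prim M) ∧ Mx (prim M) ∧ 0 < (prim M).2.2 ∧ ∃ g : ℤ, g ≠ 0 ∧
      M.1 = g * (prim M).1 ∧ M.2.1 = g * (prim M).2.1 ∧ M.2.2 = g * (prim M).2.2 := by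
  obtain ⟨h1, h2, g, hg, e1, e2, e3⟩ := prim_spec h.ne3
  have hg0 : g ≠ 0 := by
    rintro rfl
    exact h.ne3 (by rw [e3, zero_mul])
  have hg1 : 0 < |g| := abs_pos.2 hg0
  obtain ⟨a1, a2, a3, a4⟩ := h
  refine ⟨h1, ⟨?_, ?_, ?_, ?_⟩, h2, g, hg0, e1, e2, e3⟩
  · intro h0; exact a1 (by rw [e1, h0, mul_zero])
  · intro h0; exact a2 (by rw [e2, h0, mul_zero])
  · rw [e1, e3, abs_mul, abs_mul] at a3
    exact le_of_mul_le_mul_left a3 hg1
  · rw [e2, e3, abs_mul, abs_mul] at a4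
    exact le_of_mul_le_mul_left a4 hg1

theorem dot_lift (m : V3) (W : ℕ) (b c : V3) : dot m (lift W b c) = dot m b + W * dot m c := by
  simp only [dot, lift]; ring

theorem dot_liftZ (m : V3) (W L : ℕ) (b c : V3) :
    dot m (liftZ W L b c) = dot m b + W * (L * sm m + dot m c) := by
  simp only [dot, liftZ, sm]; ring

theorem card_le_of_dot {S : Finset V3} {L : ℕ} {m : V3} {K : ℝ} (hK : 0 ≤ K) (hS : S ⊆ box L)
    (h : ∀ c ∈ S, ∀ c' ∈ S, dot m c = dot m c')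
    (hb : ∀ r : ℤ, ((((box L).filter fun c => dot m c = r).card : ℕ) : ℝ) ≤ K) :
    (S.card : ℝ) ≤ K := by
  rcases S.eq_empty_or_nonempty with rfl | ⟨c₀, hc₀⟩
  · simpa using hK
  · refine le_trans ?_ (hb (dot m c₀))
    have : S ⊆ (box L).filter fun c => dot m c = dot m c₀ := fun c hc =>
      mem_filter.2 ⟨hS hc, h c hc c₀ hc₀⟩
    exact_mod_cast card_le_card this

theorem count_lift {m : V3} {L W : ℕ} (hW : 0 < W) (hm : Prim m) (h3 : 0 < m.2.2)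
    (hL : m.2.2 ≤ L) (b : V3) :
    ((((box L).filter fun c => dot m (lift W b c) = 0).card : ℕ) : ℝ) ≤
      25 * (L : ℝ) ^ 2 / (m.2.2 : ℝ) := by
  have h3' : (0 : ℝ) < m.2.2 := by exact_mod_cast h3
  refine card_le_of_dot (by positivity) (filter_subset _ _) ?_ (count_dot_le' hm h3 hL)
  intro c hc c' hc'
  have e1 := (mem_filter.1 hc).2
  have e2 := (mem_filter.1 hc').2
  rw [dot_lift] at e1 e2
  have hW' : (W : ℤ) ≠ 0 := by exact_mod_cast hW.ne'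
  apply mul_left_cancel₀ hW'
  linarith

theorem count_liftZ {m : V3} {L L' W : ℕ} (hW : 0 < W) (hm : Prim m) (h3 : 0 < m.2.2)
    (hL : m.2.2 ≤ L) (b : V3) :
    ((((box L).filter fun c => dot m (liftZ W L' b c) = 0).card : ℕ) : ℝ) ≤
      25 * (L : ℝ) ^ 2 / (m.2.2 : ℝ) := by
  have h3' : (0 : ℝ) < m.2.2 := by exact_mod_cast h3
  refine card_le_of_dot (by positivity) (filter_subset _ _) ?_ (count_dot_le' hm h3 hL)
  intro c hc c' hc'
  have e1 := (mem_filter.1 hc).2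
  have e2 := (mem_filter.1 hc').2
  rw [dot_liftZ] at e1 e2
  have hW' : (W : ℤ) ≠ 0 := by exact_mod_cast hW.ne'
  apply mul_left_cancel₀ hW'
  linarith

theorem dot_prim_cross {Y Z : V3} (h : Mx (cross Y Z)) :
    dot (prim (cross Y Z)) Y = 0 ∧ dot (prim (cross Y Z)) Z = 0 := by
  obtain ⟨-, -, -, g, hg, e1, e2, e3⟩ := h.spec
  set m := prim (cross Y Z)
  simp only [cross] at e1 e2 e3
  constructor
  · apply mul_left_cancel₀ hg
    simp only [dot]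
    linear_combination -Y.1 * e1 - Y.2.1 * e2 - Y.2.2 * e3
  · apply mul_left_cancel₀ hg
    simp only [dot]
    linear_combination -Z.1 * e1 - Z.2.1 * e2 - Z.2.2 * e3

/-- the first row, given the other two -/
theorem xstep {Y Z : V3} {L W : ℕ} (hW : 0 < W) (h : Mx (cross Y Z))
    (b1 : |Y.1| ≤ L) (b2 : |Y.2.1| ≤ L) (b1' : |Z.1| ≤ L) (b2' : |Z.2.1| ≤ L) (b : V3) (r : ℤ) :
    ((((box L).filter fun c => dot (cross Y Z) (lift W b c) = r).card : ℕ) : ℝ) ≤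
      25 * (L : ℝ) ^ 2 / ((prim (cross Y Z)).2.2 : ℝ) := by
  obtain ⟨h1, -, h3, g, hg, e1, e2, e3⟩ := h.spec
  obtain ⟨d1, d2⟩ := dot_prim_cross h
  have h3' : (0 : ℝ) < (prim (cross Y Z)).2.2 := by exact_mod_cast h3
  refine card_le_of_dot (by positivity) (filter_subset _ _) ?_
    (count_dot_le h1 h3 d1 d2 h.ne3 b1 b2 b1' b2')
  intro c hc c' hc'
  have f1 := (mem_filter.1 hc).2
  have f2 := (mem_filter.1 hc').2
  rw [dot_lift] at f1 f2
  have hW' : (W : ℤ) ≠ 0 := by exact_mod_cast hW.ne'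
  apply mul_left_cancel₀ (mul_ne_zero hW' hg)
  set m := prim (cross Y Z)
  set M := cross Y Z
  simp only [dot] at f1 f2 ⊢
  linear_combination f1 - f2 - W * (c.1 - c'.1) * e1 - W * (c.2.1 - c'.2.1) * e2 -
    W * (c.2.2 - c'.2.2) * e3

theorem btw_lift {W L : ℕ} {b c : V3} (hb : Btw 0 W b) (hc : c ∈ box L) :
    Btw 0 (W * L) (lift W b c) := by
  rw [mem_box] at hc
  obtain ⟨⟨a1, a2⟩, ⟨a3, a4⟩, ⟨a5, a6⟩⟩ := hb
  obtain ⟨⟨c1, c2⟩, ⟨c3, c4⟩, ⟨c5, c6⟩⟩ := hc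
  have hW : (0 : ℤ) ≤ W := by positivity
  simp only [Btw, lift]
  refine ⟨⟨by positivity, ?_⟩, ⟨by positivity, ?_⟩, ⟨by positivity, ?_⟩⟩ <;> nlinarith

theorem btw_liftZ {W L : ℕ} {b c : V3} (hb : Btw 0 W b) (hc : c ∈ box L) :
    Btw ((W * L : ℕ) : ℤ) (2 * ((W * L : ℕ) : ℤ)) (liftZ W L b c) := by
  rw [mem_box] at hc
  obtain ⟨⟨a1, a2⟩, ⟨a3, a4⟩, ⟨a5, a6⟩⟩ := hb
  obtain ⟨⟨c1, c2⟩, ⟨c3, c4⟩, ⟨c5, c6⟩⟩ := hc
  have hW : (0 : ℤ) ≤ W := by positivity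
  simp only [Btw, liftZ]
  push_cast
  refine ⟨⟨?_, ?_⟩, ⟨?_, ?_⟩, ⟨?_, ?_⟩⟩ <;> nlinarith

theorem cop_liftZ {W Wz L : ℕ} (hd : W ∣ Wz) {b : V3} (hb : Cop Wz b) (c : V3) :
    Cop W (liftZ Wz L b c) := by
  have hd' : (W : ℤ) ∣ (Wz : ℤ) := Int.natCast_dvd_natCast.2 hd
  exact ⟨(hb.1.add_mul_left_left _).of_isCoprime_of_dvd_right hd',
    (hb.2.1.add_mul_left_left _).of_isCoprime_of_dvd_right hd',
    (hb.2.2.add_mul_left_left _).of_isCoprime_of_dvd_right hd'⟩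

theorem ell_liftZ {W Wz L : ℕ} (hd : W ∣ Wz) (y b c : V3) :
    ell W y (liftZ Wz L b c) = ell W y b := by
  have hd' : (W : ℤ) ∣ (Wz : ℤ) := Int.natCast_dvd_natCast.2 hd
  have key : ∀ x t : ℤ, x + Wz * t ≡ x [ZMOD W] := fun x t => by
    apply Int.ModEq.symm
    rw [Int.modEq_iff_dvd]
    simpa using hd'.mul_right t
  exact ell_congr ⟨rfl, rfl, rfl⟩ ⟨key _ _, key _ _, key _ _⟩

/-- second rows with small minors -/
theorem count_small_minors {W U3 L2 : ℕ} (A : ℕ) (hW : 0 < W) (hU3 : 0 < U3) (by' Z : V3)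
    (hZ : Btw U3 (2 * U3) Z) :
    ((((box L2).filter fun cy => |(cross (lift W by' cy) Z).1| ≤ A * (2 * W * U3) ∧
      |(cross (lift W by' cy) Z).2.2| ≤ A * (2 * W * U3)).card : ℕ) : ℝ) ≤
      (4 * (A : ℝ) + 1) ^ 2 * L2 := by
  have hz : (U3 : ℤ) ≤ Z.2.1 := hZ.2.1.1
  have hU3' : (0 : ℤ) < U3 := by exact_mod_cast hU3
  have hW' : (0 : ℤ) < W := by exact_mod_cast hW
  have hs : (0 : ℤ) < W * Z.2.1 := mul_pos hW' (by linarith)
  have one : ∀ r : ℤ, ((((Ico (0 : ℤ) L2).filter fun c =>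
      |W * Z.2.1 * c + r| ≤ (A * (2 * W * U3) : ℤ)).card : ℕ) : ℝ) ≤ 4 * (A : ℝ) + 1 := by
    intro r
    have h1 := card_abs_lin_le (Ico (0 : ℤ) L2) r (W * Z.2.1) (A * (2 * W * U3) : ℝ) hs
      (by positivity)
    have h2 : ((Ico (0 : ℤ) L2).filter fun c => |W * Z.2.1 * c + r| ≤ (A * (2 * W * U3) : ℤ)) ⊆
        (Ico (0 : ℤ) L2).filter fun c =>
          |((W * Z.2.1 * c + r : ℤ) : ℝ)| ≤ (A * (2 * W * U3) : ℝ) := by
      intro c hc
      rw [mem_filter] at hc ⊢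
      exact ⟨hc.1, by exact_mod_cast hc.2⟩
    refine le_trans (by exact_mod_cast card_le_card h2) (h1.trans ?_)
    have hz' : (U3 : ℝ) ≤ Z.2.1 := by exact_mod_cast hz
    have hWr : (0 : ℝ) < W := by exact_mod_cast hW
    have hUr : (0 : ℝ) < U3 := by exact_mod_cast hU3
    gcongr
    push_cast
    rw [div_le_iff₀ (mul_pos hWr (by linarith))]
    have : (0 : ℝ) ≤ 4 * A * W := by positivity
    nlinarith
  set F1 : ℤ → Finset ℤ := fun c₂ => (Ico (0 : ℤ) L2).filter fun c =>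
      |W * Z.2.1 * c + (by'.1 * Z.2.1 - (by'.2.1 + W * c₂) * Z.1)| ≤ (A * (2 * W * U3) : ℤ)
  set F3 : ℤ → Finset ℤ := fun c₂ => (Ico (0 : ℤ) L2).filter fun c =>
      |W * Z.2.1 * c + (by'.2.2 * Z.2.1 - (by'.2.1 + W * c₂) * Z.2.2)| ≤ (A * (2 * W * U3) : ℤ)
  have hsub : ((box L2).filter fun cy => |(cross (lift W by' cy) Z).1| ≤ A * (2 * W * U3) ∧
      |(cross (lift W by' cy) Z).2.2| ≤ A * (2 * W * U3)) ⊆
      (Ico (0 : ℤ) L2).biUnion fun c₂ => F1 c₂ ×ˢ {c₂} ×ˢ F3 c₂ := by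
    intro c hc
    simp only [mem_filter, mem_box, Btw, cross, lift] at hc
    simp only [mem_biUnion, mem_product, mem_singleton, F1, F3, mem_filter, mem_Ico]
    refine ⟨c.2.1, hc.1.2.1, ⟨hc.1.1, ?_⟩, rfl, hc.1.2.2, ?_⟩
    · convert hc.2.2 using 2; ring
    · rw [← abs_neg]; convert hc.2.1 using 2; ring
  have h1 := (card_le_card hsub).trans card_biUnion_le
  calc _ ≤ ((∑ c₂ ∈ Ico (0 : ℤ) L2, (F1 c₂ ×ˢ {c₂} ×ˢ F3 c₂).card : ℕ) : ℝ) := by
        exact_mod_cast h1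
    _ ≤ ∑ c₂ ∈ Ico (0 : ℤ) L2, (4 * (A : ℝ) + 1) ^ 2 := by
        push_cast
        apply sum_le_sum
        intro c₂ _
        rw [card_product, card_product, card_singleton, one_mul, sq]
        push_cast
        exact mul_le_mul (one _) (one _) (by positivity) (by positivity)
    _ = _ := by
        rw [sum_const, Int.card_Ico, nsmul_eq_mul]; simp [mul_comm]

end Crest.Agent.R32
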