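import Crest.Agent.R32.LiftA
import Crest.Agent.R32.LiftB
import Crest.Agent.R32.LiftX

/-! Row 32: matrices of given determinant in given residue classes. -/

set_option autoImplicit false

namespace Crest.Agent.R32

open Finset
open scoped Classical

section

variable {W Wz L1 L2 L3 : ℕ} (hW : 0 < W) (hWz : 0 < Wz) (hd : W ∣ Wz)
    (hL3 : Wz ^ 2 ≤ L3) (hL2 : 2 * W * (Wz * L3) ≤ L2) (hL1 : W * L2 ≤ L1)
    (bx : V3) {by' bz : V3} (hby : Btw 0 W by') (hbz : Btw 0 Wz bz) (hc : Cop Wz bz)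

include hW hL2 hL1 hby hbz in
theorem xstep' {cy cz : V3} (hy : cy ∈ box L2) (hz : cz ∈ box L3)
    (hM : Mx (cross (lift W by' cy) (liftZ Wz L3 bz cz))) (r : ℤ) :
    ((((box L1).filter fun c =>
      dot (cross (lift W by' cy) (liftZ Wz L3 bz cz)) (lift W bx c) = r).card : ℕ) : ℝ) ≤
      25 * (L1 : ℝ) ^ 2 / ((prim (cross (lift W by' cy) (liftZ Wz L3 bz cz))).2.2 : ℝ) := by
  have a := btw_lift hby hy
  have b := btw_liftZ hbz hz
  have c1 : ((W : ℤ) * L2) ≤ L1 := by exact_mod_cast hL1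
  have c2 : 2 * ((Wz * L3 : ℕ) : ℤ) ≤ L1 := by
    have : 2 * (Wz * L3) ≤ L1 := by
      calc 2 * (Wz * L3) = 2 * 1 * (Wz * L3) := by ring
        _ ≤ 2 * W * (Wz * L3) := by gcongr; exact hW
        _ ≤ L2 := hL2
        _ ≤ W * L2 := Nat.le_mul_of_pos_left _ hW
        _ ≤ L1 := hL1
    exact_mod_cast this
  have c3 : (0 : ℤ) ≤ ((Wz * L3 : ℕ) : ℤ) := by positivity
  obtain ⟨⟨a1, a2⟩, ⟨a3, a4⟩, -⟩ := a
  obtain ⟨⟨b1, b2⟩, ⟨b3, b4⟩, -⟩ := b
  apply xstep hW hM <;> rw [abs_le] <;> constructor <;> linarith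

include hW hWz hd hL3 hL2 hL1 hby hbz hc in
theorem caseA (h : ℤ) :
    ((((box L1 ×ˢ box L2 ×ˢ box L3).filter fun c =>
      (Mx (cross (lift W by' c.2.1) (liftZ Wz L3 bz c.2.2)) ∧
      dot (cross (lift W by' c.2.1) (liftZ Wz L3 bz c.2.2)) (lift W bx c.1) = h) ∧
      (2 * W * (Wz * L3 : ℕ) : ℤ) ≤
        (prim (cross (lift W by' c.2.1) (liftZ Wz L3 bz c.2.2))).2.2).card : ℕ) : ℝ) ≤
    7200 * (W.divisors.card : ℝ) * ell W by' bz * Har L2 *
        ((L1 : ℝ) ^ 2 * (L2 : ℝ) ^ 2 * (L3 : ℝ) ^ 2) / (W * Wz) := by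
  have hL3p : 0 < L3 := lt_of_lt_of_le (by positivity) hL3
  have hU3 : 0 < Wz * L3 := Nat.mul_pos hWz hL3p
  rw [card_filter_prod3]
  have hH := Har_nonneg L2
  calc _ ≤ ∑ cz ∈ box L3, 25 * (L1 : ℝ) ^ 2 * (12 * (W.divisors.card : ℝ) * ell W by' bz *
        gcd3 (liftZ Wz L3 bz cz) * Har L2 * (L2 : ℝ) ^ 2 / (W * (Wz * L3 : ℕ))) := by
        apply sum_le_sum
        intro cz hz
        have hA := liftA W (Wz * L3) L2 hW hU3 by' (liftZ Wz L3 bz cz) hby (btw_liftZ hbz hz)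
          (cop_liftZ hd hc cz)
        rw [ell_liftZ hd] at hA
        refine le_trans ?_ (mul_le_mul_of_nonneg_left hA (by positivity))
        rw [mul_sum, sum_filter]
        apply sum_le_sum
        intro cy hy
        split_ifs with hcond
        · refine le_trans ?_ ((xstep' hW hL2 hL1 bx hby hbz hy hz hcond.1 h).trans_eq (by ring))
          apply Nat.cast_le.2
          apply card_le_card
          intro c hc
          rw [mem_filter] at hc ⊢
          exact ⟨hc.1, hc.2.1.2⟩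
        · rw [filter_false_of_mem]
          · simp
          · intro c _ hc
            exact hcond ⟨hc.1.1, hc.2⟩
    _ = 300 * (W.divisors.card : ℝ) * ell W by' bz * Har L2 * ((L1 : ℝ) ^ 2 * (L2 : ℝ) ^ 2) /
          (W * (Wz * L3)) * ∑ cz ∈ box L3, (gcd3 (liftZ Wz L3 bz cz) : ℝ) := by
        rw [mul_sum]
        apply sum_congr rfl
        intros; push_cast; ring
    _ ≤ 300 * (W.divisors.card : ℝ) * ell W by' bz * Har L2 * ((L1 : ℝ) ^ 2 * (L2 : ℝ) ^ 2) /
          (W * (Wz * L3)) * (24 * (L3 : ℝ) ^ 3) := by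
        gcongr
        exact sum_gcd3 Wz L3 hWz hL3 bz hbz hc
    _ = _ := by
        have : (L3 : ℝ) ≠ 0 := by positivity
        have : (W : ℝ) ≠ 0 := by positivity
        have : (Wz : ℝ) ≠ 0 := by positivity
        field_simp; ring

include hW hWz hd hL3 hL2 hL1 hbz hc in
theorem caseB :
    ((((box L1 ×ˢ box L2 ×ˢ box L3).filter fun c =>
      (Mx (cross (lift W by' c.2.1) (liftZ Wz L3 bz c.2.2)) ∧
      dot (cross (lift W by' c.2.1) (liftZ Wz L3 bz c.2.2)) (lift W bx c.1) = 0) ∧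
      (L3 : ℤ) ≤ (prim (cross (lift W by' c.2.1) (liftZ Wz L3 bz c.2.2))).2.2 ∧
      (prim (cross (lift W by' c.2.1) (liftZ Wz L3 bz c.2.2))).2.2 <
        (2 * W * (Wz * L3 : ℕ) : ℤ)).card : ℕ) : ℝ) ≤
    360000 * ell W by' bz * Har (2 * L2) *
        ((L1 : ℝ) ^ 2 * (L2 : ℝ) ^ 2 * (L3 : ℝ) ^ 2) / (W * Wz) := by
  have hL3p : 0 < L3 := lt_of_lt_of_le (by positivity) hL3
  have hU3 : 0 < Wz * L3 := Nat.mul_pos hWz hL3p
  have hL12 : L2 ≤ L1 := (Nat.le_mul_of_pos_left _ hW).trans hL1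
  have hR1 : W * (Wz * L3) ≤ L3 ^ 2 := by
    have := Nat.le_of_dvd hWz hd
    calc W * (Wz * L3) ≤ Wz * (Wz * L3) := by gcongr
      _ = Wz ^ 2 * L3 := by ring
      _ ≤ L3 * L3 := by gcongr
      _ = L3 ^ 2 := by ring
  set R0 := 2 * W * (Wz * L3) with hR0
  have hH := Har_nonneg (2 * L2)
  rw [card_filter_prod3]
  calc _ ≤ ∑ cz ∈ box L3, 625 * (L1 : ℝ) ^ 2 * (L2 : ℝ) ^ 2 * (24 * ell W by' bz *
        gcd3 (liftZ Wz L3 bz cz) * Har (2 * L2) / (W * (Wz * L3 : ℕ))) := by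
        apply sum_le_sum
        intro cz hz
        have hB := liftB W (Wz * L3) R0 L3 hW hU3 hR1 by' (liftZ Wz L3 bz cz) (btw_liftZ hbz hz)
        rw [ell_liftZ hd] at hB
        have hB' := hB.trans (show _ ≤ 24 * (ell W by' bz : ℝ) *
            gcd3 (liftZ Wz L3 bz cz) * Har (2 * L2) / (W * (Wz * L3 : ℕ)) by
          gcongr
          exact Har_mono (by omega))
        refine le_trans ?_ (mul_le_mul_of_nonneg_left hB' (by positivity))
        set T := (rel R0).filter (fun m => (L3 : ℤ) ≤ m.2.2 ∧ dot m (liftZ Wz L3 bz cz) = 0 ∧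
          (W : ℤ) ∣ dot m by') with hT
        calc _ ≤ ∑ cy ∈ box L2, ∑ m ∈ T, if dot m (lift W by' cy) = 0 then
              25 * (L1 : ℝ) ^ 2 / (m.2.2 : ℝ) else 0 := by
              apply sum_le_sum
              intro cy hy
              have nn : ∀ m ∈ T, 0 ≤ (if dot m (lift W by' cy) = 0 then
                  25 * (L1 : ℝ) ^ 2 / (m.2.2 : ℝ) else 0) := by
                intro m hm
                have : (0 : ℝ) < m.2.2 := by exact_mod_cast (mem_rel.1 (mem_filter.1 hm).1).2.2.1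
                split_ifs <;> positivity
              by_cases hcond : Mx (cross (lift W by' cy) (liftZ Wz L3 bz cz)) ∧
                  (L3 : ℤ) ≤ (prim (cross (lift W by' cy) (liftZ Wz L3 bz cz))).2.2 ∧
                  (prim (cross (lift W by' cy) (liftZ Wz L3 bz cz))).2.2 <
                    (2 * W * (Wz * L3 : ℕ) : ℤ)
              · obtain ⟨hM, k1, k2⟩ := hcond
                obtain ⟨p1, p2, p3, g, hg, e1, e2, e3⟩ := hM.spec
                obtain ⟨d1, d2⟩ := dot_prim_cross hM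
                set m := prim (cross (lift W by' cy) (liftZ Wz L3 bz cz))
                have hm3 : m.2.2 ≤ (R0 : ℤ) := by rw [hR0]; push_cast at k2 ⊢; exact k2.le
                have hmT : m ∈ T := by
                  refine mem_filter.2 ⟨mem_rel.2 ⟨p1, p2, p3, hm3⟩, k1, d2, ?_⟩
                  rw [dot_lift] at d1
                  exact ⟨-dot m cy, by linarith⟩
                refine le_trans ?_ (single_le_sum nn hmT)
                rw [if_pos d1]
                have hR0L : (R0 : ℤ) ≤ L1 := by exact_mod_cast hL2.trans hL12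
                refine le_trans ?_ (count_lift hW p1 p3 (hm3.trans hR0L) bx)
                apply Nat.cast_le.2
                apply card_le_card
                intro c hc
                rw [mem_filter] at hc ⊢
                refine ⟨hc.1, ?_⟩
                have := hc.2.1.2
                apply mul_left_cancel₀ hg
                simp only [dot] at this ⊢
                rw [e1, e2, e3] at this
                linear_combination this
              · rw [filter_false_of_mem]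
                · simpa using sum_nonneg nn
                · intro c _ hc
                  exact hcond ⟨hc.1.1, hc.2⟩
          _ ≤ _ := by
              rw [sum_comm, mul_sum]
              apply sum_le_sum
              intro m hm
              obtain ⟨p1, -, p3, p4⟩ := mem_rel.1 (mem_filter.1 hm).1
              have p3' : (0 : ℝ) < m.2.2 := by exact_mod_cast p3
              rw [← sum_filter, sum_const, nsmul_eq_mul]
              calc _ ≤ 25 * (L2 : ℝ) ^ 2 / (m.2.2 : ℝ) * (25 * (L1 : ℝ) ^ 2 / (m.2.2 : ℝ)) := by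
                    gcongr
                    exact count_lift hW p1 p3 (p4.trans (by exact_mod_cast hL2)) by'
                _ = _ := by field_simp; ring
    _ = 15000 * ell W by' bz * Har (2 * L2) * ((L1 : ℝ) ^ 2 * (L2 : ℝ) ^ 2) /
          (W * (Wz * L3)) * ∑ cz ∈ box L3, (gcd3 (liftZ Wz L3 bz cz) : ℝ) := by
        rw [mul_sum]
        apply sum_congr rfl
        intros; push_cast; ring
    _ ≤ 15000 * ell W by' bz * Har (2 * L2) * ((L1 : ℝ) ^ 2 * (L2 : ℝ) ^ 2) /
          (W * (Wz * L3)) * (24 * (L3 : ℝ) ^ 3) := by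
        gcongr
        exact sum_gcd3 Wz L3 hWz hL3 bz hbz hc
    _ = _ := by
        have : (L3 : ℝ) ≠ 0 := by positivity
        have : (W : ℝ) ≠ 0 := by positivity
        have : (Wz : ℝ) ≠ 0 := by positivity
        field_simp; ring

include hW hWz hL2 hL1 in
theorem caseC :
    ((((box L1 ×ˢ box L2 ×ˢ box L3).filter fun c =>
      (Mx (cross (lift W by' c.2.1) (liftZ Wz L3 bz c.2.2)) ∧
      dot (cross (lift W by' c.2.1) (liftZ Wz L3 bz c.2.2)) (lift W bx c.1) = 0) ∧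
      (prim (cross (lift W by' c.2.1) (liftZ Wz L3 bz c.2.2))).2.2 < (L3 : ℤ)).card : ℕ) : ℝ) ≤
    15625 * Trel W Wz L3 bx by' bz * ((L1 : ℝ) ^ 2 * (L2 : ℝ) ^ 2 * (L3 : ℝ) ^ 2) := by
  have hL12 : L2 ≤ L1 := (Nat.le_mul_of_pos_left _ hW).trans hL1
  have hL23 : L3 ≤ L2 := by
    refine le_trans ?_ hL2
    calc L3 = 1 * (1 * L3) := by ring
      _ ≤ 2 * W * (Wz * L3) := by gcongr <;> omega
  set T := (rel L3).filter (fun m => (W : ℤ) ∣ dot m bx ∧ (W : ℤ) ∣ dot m by' ∧
    (Wz : ℤ) ∣ dot m bz) with hT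
  have hsub : ((box L1 ×ˢ box L2 ×ˢ box L3).filter fun c =>
      (Mx (cross (lift W by' c.2.1) (liftZ Wz L3 bz c.2.2)) ∧
      dot (cross (lift W by' c.2.1) (liftZ Wz L3 bz c.2.2)) (lift W bx c.1) = 0) ∧
      (prim (cross (lift W by' c.2.1) (liftZ Wz L3 bz c.2.2))).2.2 < (L3 : ℤ)) ⊆
      T.biUnion fun m => ((box L1).filter fun c => dot m (lift W bx c) = 0) ×ˢ
        ((box L2).filter fun c => dot m (lift W by' c) = 0) ×ˢ
        ((box L3).filter fun c => dot m (liftZ Wz L3 bz c) = 0) := by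
    intro c hc
    rw [mem_filter, mem_product, mem_product] at hc
    obtain ⟨⟨m1, m2, m3⟩, ⟨hM, hdet⟩, k⟩ := hc
    obtain ⟨p1, p2, p3, g, hg, e1, e2, e3⟩ := hM.spec
    obtain ⟨d1, d2⟩ := dot_prim_cross hM
    set m := prim (cross (lift W by' c.2.1) (liftZ Wz L3 bz c.2.2))
    have d0 : dot m (lift W bx c.1) = 0 := by
      apply mul_left_cancel₀ hg
      simp only [dot] at hdet ⊢
      rw [e1, e2, e3] at hdet
      linear_combination hdet
    simp only [mem_biUnion, mem_product, mem_filter]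
    refine ⟨m, mem_filter.2 ⟨mem_rel.2 ⟨p1, p2, p3, k.le⟩, ?_, ?_, ?_⟩, ⟨m1, d0⟩, ⟨m2, d1⟩, m3, d2⟩
    · rw [dot_lift] at d0
      exact ⟨-dot m c.1, by linarith⟩
    · rw [dot_lift] at d1
      exact ⟨-dot m c.2.1, by linarith⟩
    · rw [dot_liftZ] at d2
      exact ⟨-(L3 * sm m + dot m c.2.2), by linarith⟩
  have h1 := (card_le_card hsub).trans card_biUnion_le
  refine le_trans (Nat.cast_le.2 h1) ?_
  rw [Trel, ← hT, mul_sum, sum_mul]
  push_cast
  apply sum_le_sum
  intro m hm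
  obtain ⟨p1, -, p3, p4⟩ := mem_rel.1 (mem_filter.1 hm).1
  have p3' : (0 : ℝ) < m.2.2 := by exact_mod_cast p3
  rw [card_product, card_product]
  push_cast
  calc _ ≤ 25 * (L1 : ℝ) ^ 2 / (m.2.2 : ℝ) * (25 * (L2 : ℝ) ^ 2 / (m.2.2 : ℝ) *
        (25 * (L3 : ℝ) ^ 2 / (m.2.2 : ℝ))) := by
        gcongr
        · exact count_lift hW p1 p3 (p4.trans (by exact_mod_cast hL23.trans hL12)) bx
        · exact count_lift hW p1 p3 (p4.trans (by exact_mod_cast hL23)) by'
        · exact count_liftZ hWz p1 p3 p4 bz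
    _ = _ := by field_simp; ring

include hW hWz hL3 hL2 hL1 hby hbz in
theorem caseD {A : ℕ} {h : ℤ} (h0 : h ≠ 0) (hh : |h| ≤ A) :
    ((((box L1 ×ˢ box L2 ×ˢ box L3).filter fun c =>
      (Mx (cross (lift W by' c.2.1) (liftZ Wz L3 bz c.2.2)) ∧
      dot (cross (lift W by' c.2.1) (liftZ Wz L3 bz c.2.2)) (lift W bx c.1) = h) ∧
      (prim (cross (lift W by' c.2.1) (liftZ Wz L3 bz c.2.2))).2.2 <
        (2 * W * (Wz * L3 : ℕ) : ℤ)).card : ℕ) : ℝ) ≤
      25 * (4 * (A : ℝ) + 1) ^ 2 * ((L1 : ℝ) ^ 2 * L2 * (L3 : ℝ) ^ 3) := by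
  have hL3p : 0 < L3 := lt_of_lt_of_le (by positivity) hL3
  have hU3 : 0 < Wz * L3 := Nat.mul_pos hWz hL3p
  rw [card_filter_prod3]
  calc _ ≤ ∑ cz ∈ box L3, 25 * (L1 : ℝ) ^ 2 * ((4 * (A : ℝ) + 1) ^ 2 * L2) := by
        apply sum_le_sum
        intro cz hz
        have hS := count_small_minors (L2 := L2) A hW hU3 by' (liftZ Wz L3 bz cz) (btw_liftZ hbz hz)
        refine le_trans ?_ (mul_le_mul_of_nonneg_left hS (by positivity))
        rw [card_filter]
        push_cast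
        rw [mul_sum]
        apply sum_le_sum
        intro cy hy
        by_cases he : ∃ a, (Mx (cross (lift W by' cy) (liftZ Wz L3 bz cz)) ∧
          dot (cross (lift W by' cy) (liftZ Wz L3 bz cz)) (lift W bx a) = h) ∧
          (prim (cross (lift W by' cy) (liftZ Wz L3 bz cz))).2.2 < (2 * W * (Wz * L3) : ℤ)
        swap
        · rw [filter_false_of_mem]
          · split_ifs <;> simp
          · intro a _ ha
            exact he ⟨a, ha⟩
        · obtain ⟨c₀, ⟨hM, hdet⟩, k⟩ := he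
          obtain ⟨p1, p2, p3, g, hg, e1, e2, e3⟩ := hM.spec
          have hx := xstep' hW hL2 hL1 bx hby hbz hy hz hM h
          set m := prim (cross (lift W by' cy) (liftZ Wz L3 bz cz))
          have hgh : g ∣ h := ⟨dot m (lift W bx c₀), by
            rw [← hdet]; simp only [dot]; rw [e1, e2, e3]; ring⟩
          have hgA : |g| ≤ A :=
            (Int.le_of_dvd (abs_pos.2 h0) ((abs_dvd_abs _ _).2 hgh)).trans hh
          have b3 : |(cross (lift W by' cy) (liftZ Wz L3 bz cz)).2.2| ≤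
              A * (2 * W * (Wz * L3)) := by
            rw [e3, abs_mul, abs_of_pos p3]
            exact mul_le_mul hgA k.le p3.le (by positivity)
          rw [if_pos ⟨hM.2.2.1.trans b3, b3⟩, mul_one]
          have p3' : (1 : ℝ) ≤ m.2.2 := by exact_mod_cast p3
          refine le_trans ?_ (hx.trans (div_le_self (by positivity) p3'))
          apply Nat.cast_le.2
          apply card_le_card
          intro c hc
          rw [mem_filter] at hc ⊢
          exact ⟨hc.1, hc.2.1.2⟩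
    _ = _ := by
        rw [sum_const, card_box, nsmul_eq_mul]; push_cast; ring

end

theorem lift_bound (W Wz L1 L2 L3 A : ℕ) (hW : 0 < W) (hWz : 0 < Wz) (hd : W ∣ Wz)
    (hL3 : Wz ^ 2 ≤ L3) (hL2 : 2 * W * (Wz * L3) ≤ L2) (hL1 : W * L2 ≤ L1)
    (bx by' bz : V3) (hby : Btw 0 W by') (hbz : Btw 0 Wz bz) (hc : Cop Wz bz)
    (h : ℤ) (hh : |h| ≤ A) :
    ((((box L1 ×ˢ box L2 ×ˢ box L3).filter fun c =>
      Mx (cross (lift W by' c.2.1) (liftZ Wz L3 bz c.2.2)) ∧
      dot (cross (lift W by' c.2.1) (liftZ Wz L3 bz c.2.2)) (lift W bx c.1) = h).card : ℕ) : ℝ) ≤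
    400000 * (W.divisors.card : ℝ) * ell W by' bz * Har (2 * L2) *
        ((L1 : ℝ) ^ 2 * (L2 : ℝ) ^ 2 * (L3 : ℝ) ^ 2) / (W * Wz) +
      25 * (4 * (A : ℝ) + 1) ^ 2 * ((L1 : ℝ) ^ 2 * L2 * (L3 : ℝ) ^ 3) +
      15625 * Trel W Wz L3 bx by' bz * ((L1 : ℝ) ^ 2 * (L2 : ℝ) ^ 2 * (L3 : ℝ) ^ 2) := by
  have hA := caseA hW hWz hd hL3 hL2 hL1 bx hby hbz hc h
  have hT : 0 ≤ Trel W Wz L3 bx by' bz := by
    apply sum_nonneg
    intro m hm
    have : (0 : ℝ) < m.2.2 := by exact_mod_cast (mem_rel.1 (mem_filter.1 hm).1).2.2.1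
    positivity
  have hdiv : (1 : ℝ) ≤ W.divisors.card := by
    have : 0 < W.divisors.card := card_pos.2 ⟨1, Nat.one_mem_divisors.2 hW.ne'⟩
    exact_mod_cast this
  have hH1 : Har L2 ≤ Har (2 * L2) := Har_mono (by omega)
  have hH0 := Har_nonneg L2
  set X : ℝ := ell W by' bz * Har (2 * L2) *
        ((L1 : ℝ) ^ 2 * (L2 : ℝ) ^ 2 * (L3 : ℝ) ^ 2) / (W * Wz) with hX
  have hX0 : 0 ≤ X := by have := Har_nonneg (2 * L2); positivity
  have hA' := hA.trans (show _ ≤ 7200 * (W.divisors.card : ℝ) * X by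
    calc _ ≤ 7200 * (W.divisors.card : ℝ) * ell W by' bz * Har (2 * L2) *
        ((L1 : ℝ) ^ 2 * (L2 : ℝ) ^ 2 * (L3 : ℝ) ^ 2) / (W * Wz) := by gcongr
      _ = _ := by rw [hX]; ring)
  have e : 400000 * (W.divisors.card : ℝ) * ell W by' bz * Har (2 * L2) *
        ((L1 : ℝ) ^ 2 * (L2 : ℝ) ^ 2 * (L3 : ℝ) ^ 2) / (W * Wz) =
        400000 * (W.divisors.card : ℝ) * X := by rw [hX]; ring
  rw [e]
  have hdX : X ≤ (W.divisors.card : ℝ) * X := le_mul_of_one_le_left hX0 hdiv
  by_cases h0 : h = 0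
  · subst h0
    have hB := caseB (by' := by') hW hWz hd hL3 hL2 hL1 bx hbz hc
    have hC := caseC (by' := by') (bz := bz) hW hWz hL2 hL1 bx
    have hB' := hB.trans_eq (show _ = 360000 * X by rw [hX]; ring)
    have hD : 0 ≤ 25 * (4 * (A : ℝ) + 1) ^ 2 * ((L1 : ℝ) ^ 2 * L2 * (L3 : ℝ) ^ 3) := by positivity
    refine le_trans ?_ (show _ ≤ _ by
      have := add_le_add (add_le_add hA' hB') hC
      refine this.trans ?_
      linarith)
    rw [← Nat.cast_add, ← Nat.cast_add, Nat.cast_le]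
    refine le_trans (card_le_card ?_) ((card_union_le _ _).trans
      (Nat.add_le_add_right (card_union_le _ _) _))
    intro c hc
    simp only [mem_union, mem_filter] at hc ⊢
    by_cases k1 : (2 * W * (Wz * L3 : ℕ) : ℤ) ≤
        (prim (cross (lift W by' c.2.1) (liftZ Wz L3 bz c.2.2))).2.2
    · exact Or.inl (Or.inl ⟨hc.1, hc.2, k1⟩)
    · by_cases k2 : (L3 : ℤ) ≤ (prim (cross (lift W by' c.2.1) (liftZ Wz L3 bz c.2.2))).2.2
      · exact Or.inl (Or.inr ⟨hc.1, hc.2, k2, not_le.1 k1⟩)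
      · exact Or.inr ⟨hc.1, hc.2, not_le.1 k2⟩
  · have hD := caseD hW hWz hL3 hL2 hL1 bx hby hbz h0 hh
    have hC : 0 ≤ 15625 * Trel W Wz L3 bx by' bz *
      ((L1 : ℝ) ^ 2 * (L2 : ℝ) ^ 2 * (L3 : ℝ) ^ 2) := by positivity
    refine le_trans ?_ (show _ ≤ _ by
      have := add_le_add hA' hD
      refine this.trans ?_
      nlinarith)
    rw [← Nat.cast_add, Nat.cast_le]
    refine le_trans (card_le_card ?_) (card_union_le _ _)
    intro c hc
    simp only [mem_union, mem_filter] at hc ⊢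
    by_cases k1 : (2 * W * (Wz * L3 : ℕ) : ℤ) ≤
        (prim (cross (lift W by' c.2.1) (liftZ Wz L3 bz c.2.2))).2.2
    · exact Or.inl ⟨hc.1, hc.2, k1⟩
    · exact Or.inr ⟨hc.1, hc.2, not_le.1 k1⟩

end Crest.Agent.R32
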