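import Crest.Agent.R32.Basic

/-! Row 32: relations of large height. -/

set_option autoImplicit false

namespace Crest.Agent.R32

open Finset
open scoped Classical

theorem liftA_cover {α β : Type*} (S : Finset α) (I : Finset β) (Q : β → α → Prop)
    [∀ b, DecidablePred (Q b)] (f : α → ℝ)
    (hf : ∀ a ∈ S, 0 ≤ f a) (h : ∀ a ∈ S, ∃ b ∈ I, Q b a) :
    ∑ a ∈ S, f a ≤ ∑ b ∈ I, ∑ a ∈ S.filter (Q b), f a := by
  simp only [sum_filter]
  rw [sum_comm]
  refine sum_le_sum fun a ha => ?_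
  obtain ⟨b, hb, hQ⟩ := h a ha
  refine le_trans (le_of_eq (if_pos hQ).symm)
    (single_le_sum (f := fun b => if Q b a then f a else 0) (fun b _ => ?_) hb)
  split_ifs
  · exact hf a ha
  · exact le_rfl

theorem liftA_fiber (W L d' : ℕ) (hW : 0 < W) (hd' : 0 < d') (hdL : d' ≤ L) (b Z ρ : V3)
    (hz : 0 < Z.2.1) (D : ℝ) (hD : 0 ≤ D) (T : Finset V3) (f : V3 → ℝ)
    (hbox : ∀ c ∈ T, c ∈ box L)
    (hρ : ∀ c ∈ T, c.1 ≡ ρ.1 [ZMOD d'] ∧ c.2.1 ≡ ρ.2.1 [ZMOD d'] ∧ c.2.2 ≡ ρ.2.2 [ZMOD d'])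
    (h1 : ∀ c ∈ T, |(cross (lift W b c) Z).1| ≤ |(cross (lift W b c) Z).2.2|)
    (h2 : ∀ c ∈ T, W * d' * Z.2.1 ≤ |(cross (lift W b c) Z).2.2|)
    (hf : ∀ c ∈ T, f c = D / |((cross (lift W b c) Z).2.2 : ℝ)|) :
    ∑ c ∈ T, f c ≤ (2 * L / d') ^ 2 * (3 * D / (W * d' * Z.2.1)) := by
  have hd0 : (0 : ℝ) < d' := by exact_mod_cast hd'
  have hs : (0 : ℤ) < W * d' * Z.2.1 := by positivity
  have hsR : (0 : ℝ) < W * d' * Z.2.1 := by exact_mod_cast hs
  have hA : ∀ r : ℤ, ((((Ico (0 : ℤ) L).filter fun c => c ≡ r [ZMOD d']).card : ℕ) : ℝ) ≤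
      2 * L / d' := fun r => by
    refine (card_modEq_le 0 L r d' hd' (by positivity)).trans ?_
    have : (1 : ℝ) ≤ L / d' := by rw [le_div_iff₀ hd0, one_mul]; exact_mod_cast hdL
    push_cast
    rw [sub_zero, mul_div_assoc]; linarith
  refine (liftA_cover T (((Ico (0 : ℤ) L).filter fun c => c ≡ ρ.1 [ZMOD d']) ×ˢ
    ((Ico (0 : ℤ) L).filter fun c => c ≡ ρ.2.1 [ZMOD d'])) (fun x c => c.1 = x.1 ∧ c.2.1 = x.2) f
    (fun c hc => by rw [hf c hc]; positivity) (fun c hc => ?_)).trans ?_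
  · have hb := mem_box.1 (hbox c hc)
    have hr := hρ c hc
    exact ⟨(c.1, c.2.1), mem_product.2 ⟨mem_filter.2 ⟨mem_Ico.2 hb.1, hr.1⟩,
      mem_filter.2 ⟨mem_Ico.2 hb.2.1, hr.2.1⟩⟩, rfl, rfl⟩
  refine (sum_le_card_nsmul _ _ (3 * D / (W * d' * Z.2.1)) fun x _ => ?_).trans ?_
  · set T' := T.filter fun c => c.1 = x.1 ∧ c.2.1 = x.2 with hT'
    rcases T'.eq_empty_or_nonempty with he | ⟨c0, hc0⟩
    · rw [he, sum_empty]; positivity
    set B : ℤ := |(b.1 + W * x.1) * Z.2.1 - (b.2.1 + W * x.2) * Z.1| with hB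
    have e3 : ∀ c ∈ T', |(cross (lift W b c) Z).2.2| = B := fun c hc => by
      obtain ⟨-, e1, e2⟩ := mem_filter.1 hc
      simp only [cross, lift, e1, e2, hB]
    have hB1 : W * d' * Z.2.1 ≤ B := e3 c0 hc0 ▸ h2 c0 (mem_filter.1 hc0).1
    have hB1R : (W * d' * Z.2.1 : ℝ) ≤ B := by exact_mod_cast hB1
    have hB0 : (0 : ℝ) < B := hsR.trans_le hB1R
    have hcard := card_abs_lin_le (T'.image fun c => (c.2.2 - ρ.2.2) / d')
      ((b.2.2 + W * ρ.2.2) * Z.2.1 - (b.2.1 + W * x.2) * Z.2.2) (W * d' * Z.2.1) B hs hB0.le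
    have hq : ∀ c ∈ T', c.2.2 = ρ.2.2 + d' * ((c.2.2 - ρ.2.2) / d') := fun c hc => by
      rw [Int.mul_ediv_cancel' (hρ c (mem_filter.1 hc).1).2.2.symm.dvd]; ring
    have hle : T'.card ≤ ((T'.image fun c => (c.2.2 - ρ.2.2) / d').filter fun s =>
        |((W * d' * Z.2.1 * s + ((b.2.2 + W * ρ.2.2) * Z.2.1 - (b.2.1 + W * x.2) * Z.2.2) : ℤ) :
          ℝ)| ≤ B).card := by
      refine card_le_card_of_injOn (fun c => (c.2.2 - ρ.2.2) / d') (fun c hc => ?_)
        (fun c hc c' hc' h => ?_)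
      · have hc : c ∈ T' := hc
        refine mem_coe.2 (mem_filter.2 ⟨mem_image_of_mem _ hc, ?_⟩)
        have h3 := h1 c (mem_filter.1 hc).1
        rw [e3 c hc] at h3
        have e4 : W * d' * Z.2.1 * ((c.2.2 - ρ.2.2) / d') +
            ((b.2.2 + W * ρ.2.2) * Z.2.1 - (b.2.1 + W * x.2) * Z.2.2) =
            -(cross (lift W b c) Z).1 := by
          simp only [cross, lift, (mem_filter.1 hc).2.2]
          linear_combination (-(W : ℤ) * Z.2.1) * hq c hc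
        rw [e4, ← Int.cast_abs, abs_neg]
        exact_mod_cast h3
      · have hc : c ∈ T' := hc
        have hc' : c' ∈ T' := hc'
        have h : (c.2.2 - ρ.2.2) / d' = (c'.2.2 - ρ.2.2) / d' := h
        refine Prod.ext ?_ (Prod.ext ?_ ?_)
        · rw [(mem_filter.1 hc).2.1, (mem_filter.1 hc').2.1]
        · rw [(mem_filter.1 hc).2.2, (mem_filter.1 hc').2.2]
        · rw [hq c hc, hq c' hc', h]
    have hc3 : (T'.card : ℝ) ≤ 3 * B / (W * d' * Z.2.1) := by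
      refine le_trans (by exact_mod_cast hle) (hcard.trans ?_)
      have : (1 : ℝ) ≤ B / (W * d' * Z.2.1) := by rw [le_div_iff₀ hsR, one_mul]; exact hB1R
      push_cast
      rw [mul_div_assoc, mul_div_assoc]; linarith
    have e5 : ∑ c ∈ T', f c = T'.card * (D / B) := by
      rw [sum_congr rfl (g := fun _ => D / B) fun c hc => by
        rw [hf c (mem_filter.1 hc).1, ← Int.cast_abs, e3 c hc], sum_const, nsmul_eq_mul]
    rw [e5]
    refine (mul_le_mul_of_nonneg_right hc3 (by positivity)).trans (le_of_eq ?_)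
    field_simp
  · rw [nsmul_eq_mul, card_product, Nat.cast_mul, sq]
    exact mul_le_mul_of_nonneg_right (mul_le_mul (hA _) (hA _) (by positivity) (by positivity))
      (by positivity)

theorem liftA (W U3 L2 : ℕ) (hW : 0 < W) (hU3 : 0 < U3) (by' Z : V3) (hby : Btw 0 W by')
    (hZ : Btw U3 (2 * U3) Z) (hc : Cop W Z) :
    ∑ cy ∈ (box L2).filter (fun cy => Mx (cross (lift W by' cy) Z) ∧
        (2 * W * U3 : ℤ) ≤ (prim (cross (lift W by' cy) Z)).2.2),
      (1 : ℝ) / ((prim (cross (lift W by' cy) Z)).2.2 : ℝ) ≤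
    12 * (W.divisors.card : ℝ) * ell W by' Z * gcd3 Z * Har L2 * (L2 : ℝ) ^ 2 / (W * U3) := by
  have hU : (0 : ℤ) < U3 := by exact_mod_cast hU3
  have hWz : (0 : ℤ) < W := by exact_mod_cast hW
  have he : (0 : ℤ) < gcd3 Z := by exact_mod_cast gcd3_pos (hU.trans_le hZ.2.2.1).ne'
  obtain ⟨⟨z1, hz1⟩, ⟨z2, hz2⟩, ⟨z3, hz3⟩⟩ := gcd3_dvd Z
  obtain ⟨w0, hw0⟩ := exists_dot_eq_gcd3 Z
  set e : ℤ := ((gcd3 Z : ℕ) : ℤ) with hedef
  set Z' : V3 := (z1, z2, z3) with hZ'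
  have hw : dot w0 Z' = 1 := by
    apply mul_left_cancel₀ he.ne'
    simp only [dot, hZ'] at hw0 ⊢
    linear_combination hw0 - w0.1 * hz1 - w0.2.1 * hz2 - w0.2.2 * hz3
  have hx : ∀ Y, (cross Y Z).1 = e * (cross Y Z').1 ∧ (cross Y Z).2.1 = e * (cross Y Z').2.1 ∧
      (cross Y Z).2.2 = e * (cross Y Z').2.2 := fun Y => by
    simp only [cross, hZ', hz1, hz2, hz3]
    refine ⟨?_, ?_, ?_⟩ <;> ring
  have z1p : 0 < z1 := (mul_pos_iff_of_pos_left he).1 (hz1 ▸ hU.trans_le hZ.1.1)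
  have z2p : 0 < z2 := (mul_pos_iff_of_pos_left he).1 (hz2 ▸ hU.trans_le hZ.2.1.1)
  have z1l : z1 ≤ 2 * U3 := by have := hZ.1.2; nlinarith
  have z2l : z2 ≤ 2 * U3 := by have := hZ.2.1.2; nlinarith
  set S := (box L2).filter (fun cy => Mx (cross (lift W by' cy) Z) ∧
    (2 * W * U3 : ℤ) ≤ (prim (cross (lift W by' cy) Z)).2.2) with hS
  set f : V3 → ℝ := fun cy => (1 : ℝ) / ((prim (cross (lift W by' cy) Z)).2.2 : ℝ) with hf
  have hH : ∀ c ∈ S, (0 : ℤ) < (prim (cross (lift W by' c) Z)).2.2 := fun c hc =>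
    lt_of_lt_of_le (by positivity) (mem_filter.1 hc).2.2
  have hf0 : ∀ c ∈ S, 0 ≤ f c := fun c hc => by
    have : (0 : ℝ) < (prim (cross (lift W by' c) Z)).2.2 := by exact_mod_cast hH c hc
    simp only [hf]; positivity
  let Q : ℕ × ℕ → V3 → Prop := fun x c => x.1 ≤ ell W by' Z ∧
    (∃ W' : ℕ, W = x.1 * W' ∧ Nat.Coprime x.2 W') ∧
    ((x.1 * x.2 : ℕ) : ℤ) ∣ (cross (lift W by' c) Z').1 ∧
    ((x.1 * x.2 : ℕ) : ℤ) ∣ (cross (lift W by' c) Z').2.1 ∧
    ((x.1 * x.2 : ℕ) : ℤ) ∣ (cross (lift W by' c) Z').2.2 ∧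
    |(cross (lift W by' c) Z').2.2| = (x.1 * x.2 : ℕ) * (prim (cross (lift W by' c) Z)).2.2
  refine (liftA_cover S (W.divisors ×ˢ Icc 1 L2) Q f hf0 fun c hc => ?_).trans ?_
  · obtain ⟨hb, hM, hH2⟩ := mem_filter.1 hc
    have hb := mem_box.1 hb
    have hM3 : (cross (lift W by' c) Z).2.2 ≠ 0 := fun h => by
      have := hM.2.2.1
      rw [h, abs_zero] at this
      exact hM.1 (abs_nonpos_iff.1 this)
    obtain ⟨⟨u, hu⟩, hm3, g, -, g1, g2, g3⟩ := prim_spec hM3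
    obtain ⟨x1, x2, x3⟩ := hx (lift W by' c)
    set m := prim (cross (lift W by' c) Z)
    set μ := cross (lift W by' c) Z' with hμ
    have hg : g = e * dot u μ := by
      simp only [dot] at hu ⊢
      linear_combination (-g) * hu + u.1 * (x1 - g1) + u.2.1 * (x2 - g2) + u.2.2 * (x3 - g3)
    have m1 : μ.1 = dot u μ * m.1 := mul_left_cancel₀ he.ne' (by
      linear_combination g1 - x1 + m.1 * hg)
    have m2 : μ.2.1 = dot u μ * m.2.1 := mul_left_cancel₀ he.ne' (by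
      linear_combination g2 - x2 + m.2.1 * hg)
    have m3 : μ.2.2 = dot u μ * m.2.2 := mul_left_cancel₀ he.ne' (by
      linear_combination g3 - x3 + m.2.2 * hg)
    set d : ℕ := (dot u μ).natAbs with hd
    have hd0 : 0 < d := Int.natAbs_pos.2 fun h => hM3 (by rw [x3, m3, h]; ring)
    have habs : |μ.2.2| = d * m.2.2 := by
      rw [m3, abs_mul, abs_of_pos hm3, hd, Int.natCast_natAbs]
    have hdL : d ≤ L2 := by
      have y1 : 0 ≤ by'.1 + W * c.1 := by have := hby.1.1; have := hb.1.1; positivity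
      have y2 : 0 ≤ by'.2.1 + W * c.2.1 := by have := hby.2.1.1; have := hb.2.1.1; positivity
      have y3 : by'.1 + W * c.1 ≤ W * L2 := by have := hby.1.2; have := hb.1.2; nlinarith
      have y4 : by'.2.1 + W * c.2.1 ≤ W * L2 := by have := hby.2.1.2; have := hb.2.1.2; nlinarith
      have y5 := mul_le_mul y3 z2l z2p.le (y1.trans y3)
      have y6 := mul_le_mul y4 z1l z1p.le (y1.trans y3)
      have y7 := mul_nonneg y1 z2p.le
      have y8 := mul_nonneg y2 z1p.le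
      have y9 : |μ.2.2| ≤ W * L2 * (2 * U3) := by
        rw [abs_le]; simp only [hμ, cross, lift, hZ']; constructor <;> linarith
      have y10 := mul_le_mul_of_nonneg_left hH2 (Int.natCast_nonneg d)
      have y11 : (d : ℤ) * (2 * W * U3) ≤ L2 * (2 * W * U3) := by linarith
      exact_mod_cast le_of_mul_le_mul_right y11 (by positivity)
    have hdd : (d : ℤ) ∣ dot u μ := Int.natAbs_dvd.2 dvd_rfl
    have hwp : 0 < Nat.gcd d W := Nat.gcd_pos_of_pos_left _ hd0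
    have hmul : Nat.gcd d W * (d / Nat.gcd d W) = d := Nat.mul_div_cancel' (Nat.gcd_dvd_left _ _)
    have hwd : ((Nat.gcd d W : ℕ) : ℤ) ∣ dot u μ :=
      (Int.natCast_dvd_natCast.2 (Nat.gcd_dvd_left _ _)).trans hdd
    have hwW : ((Nat.gcd d W : ℕ) : ℤ) ∣ W := Int.natCast_dvd_natCast.2 (Nat.gcd_dvd_right _ _)
    refine ⟨(Nat.gcd d W, d / Nat.gcd d W), mem_product.2 ⟨Nat.mem_divisors.2
      ⟨Nat.gcd_dvd_right _ _, hW.ne'⟩, mem_Icc.2 ⟨Nat.div_pos (Nat.gcd_le_left _ hd0) hwp,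
      (Nat.div_le_self _ _).trans hdL⟩⟩, ?_, ⟨W / Nat.gcd d W,
      (Nat.mul_div_cancel' (Nat.gcd_dvd_right _ _)).symm, Nat.coprime_div_gcd_div_gcd hwp⟩, ?_⟩
    · refine Nat.le_of_dvd (Nat.gcd_pos_of_pos_left _ hW)
        (Nat.dvd_gcd (Nat.gcd_dvd_right _ _) (Int.dvd_gcd ?_ ?_))
      · have : (cross by' Z).1 = e * m.1 * dot u μ - W * (c.2.1 * Z.2.2 - c.2.2 * Z.2.1) := by
          simp only [cross, lift] at x1 ⊢
          linear_combination x1 + e * m1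
        rw [this]; exact dvd_sub (hwd.mul_left _) (hwW.mul_right _)
      · have : (cross by' Z).2.2 = e * m.2.2 * dot u μ - W * (c.1 * Z.2.1 - c.2.1 * Z.1) := by
          simp only [cross, lift] at x3 ⊢
          linear_combination x3 + e * m3
        rw [this]; exact dvd_sub (hwd.mul_left _) (hwW.mul_right _)
    · simp only [hmul]
      exact ⟨m1 ▸ hdd.mul_right _, m2 ▸ hdd.mul_right _, m3 ▸ hdd.mul_right _, habs⟩
  have hWR : (0 : ℝ) < W := by exact_mod_cast hW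
  have hUR : (0 : ℝ) < U3 := by exact_mod_cast hU3
  have key : ∀ x ∈ W.divisors ×ˢ Icc 1 L2, ∑ c ∈ S.filter (Q x), f c ≤
      12 * (ell W by' Z : ℝ) * gcd3 Z * (L2 : ℝ) ^ 2 / (W * U3) * (1 / x.2) := by
    rintro ⟨w, d'⟩ hx'
    obtain ⟨hd1, hd2⟩ := mem_Icc.1 (mem_product.1 hx').2
    have hd1 : 0 < d' := hd1
    have hw1 : 0 < w := Nat.pos_of_mem_divisors (mem_product.1 hx').1
    have hdz : (0 : ℤ) < d' := by exact_mod_cast hd1
    have hdR : (0 : ℝ) < d' := by exact_mod_cast hd1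
    have hz2R : (0 : ℝ) < z2 := by exact_mod_cast z2p
    refine (liftA_cover _ (Ico (0 : ℤ) d') (fun t c => dot w0 c % d' = t) f
      (fun c hc => hf0 c (mem_filter.1 hc).1) fun c _ => ⟨_, mem_Ico.2
        ⟨Int.emod_nonneg _ hdz.ne', Int.emod_lt_of_pos _ hdz⟩, rfl⟩).trans ?_
    refine (sum_le_card_nsmul _ _ (12 * (ell W by' Z : ℝ) * gcd3 Z * (L2 : ℝ) ^ 2 / (W * U3) *
      (1 / d') / d') fun t _ => ?_).trans (le_of_eq ?_)
    swap
    · rw [Int.card_Ico, sub_zero, Int.toNat_natCast, nsmul_eq_mul]; field_simp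
    rcases ((S.filter (Q (w, d'))).filter fun c => dot w0 c % d' = t).eq_empty_or_nonempty with
      h0 | ⟨ρ, hρ⟩
    · rw [h0, sum_empty]; positivity
    obtain ⟨hρ1, hρ2⟩ := mem_filter.1 hρ
    obtain ⟨-, hwl, ⟨W', hW', hcop⟩, r1, r2, r3, -⟩ := mem_filter.1 hρ1
    refine (liftA_fiber W L2 d' hW hd1 hd2 by' Z' ρ z2p ((w * d' : ℕ) : ℝ) (by positivity) _ f
      (fun c hc => (mem_filter.1 (mem_filter.1 (mem_filter.1 hc).1).1).1) (fun c hc => ?_)
      (fun c hc => ?_) (fun c hc => ?_) (fun c hc => ?_)).trans ?_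
    · obtain ⟨hc1, hc2⟩ := mem_filter.1 hc
      obtain ⟨-, -, -, s1, s2, s3, -⟩ := mem_filter.1 hc1
      obtain ⟨k, hk⟩ : (d' : ℤ) ∣ dot w0 ρ - dot w0 c := Int.ModEq.dvd (hc2.trans hρ2.symm)
      have hWz' : (W : ℤ) = w * W' := by exact_mod_cast hW'
      have fin : ∀ a z A : ℤ, ((w * d' : ℕ) : ℤ) ∣ A →
          W * a - W * (dot w0 ρ - dot w0 c) * z = A → (d' : ℤ) ∣ a := by
        rintro a z A ⟨j, hj⟩ h
        have h1 : (W' : ℤ) * a = d' * (j + W' * k * z) := by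
          apply mul_left_cancel₀ (show (w : ℤ) ≠ 0 by exact_mod_cast hw1.ne')
          rw [hk, hj, hWz'] at h
          push_cast at h
          linear_combination h
        exact (Nat.isCoprime_iff_coprime.2 hcop).dvd_of_dvd_mul_left ⟨_, h1⟩
      obtain ⟨a1, a2, a3⟩ := sub_eq_cross w0 (lift W by' c) Z' hw
      obtain ⟨b1, b2, b3⟩ := sub_eq_cross w0 (lift W by' ρ) Z' hw
      refine ⟨Int.modEq_iff_dvd.2 (fin _ Z'.1 _ (dvd_sub (dvd_sub (r3.mul_left w0.2.1)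
          (r2.mul_left w0.2.2)) (dvd_sub (s3.mul_left w0.2.1) (s2.mul_left w0.2.2))) ?_),
        Int.modEq_iff_dvd.2 (fin _ Z'.2.1 _ (dvd_sub (dvd_sub (r1.mul_left w0.2.2)
          (r3.mul_left w0.1)) (dvd_sub (s1.mul_left w0.2.2) (s3.mul_left w0.1))) ?_),
        Int.modEq_iff_dvd.2 (fin _ Z'.2.2 _ (dvd_sub (dvd_sub (r2.mul_left w0.1)
          (r1.mul_left w0.2.1)) (dvd_sub (s2.mul_left w0.1) (s1.mul_left w0.2.1))) ?_)⟩
      · simp only [cross, lift, dot] at a1 b1 ⊢; linear_combination b1 - a1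
      · simp only [cross, lift, dot] at a2 b2 ⊢; linear_combination b2 - a2
      · simp only [cross, lift, dot] at a3 b3 ⊢; linear_combination b3 - a3
    · have h1 := (mem_filter.1 (mem_filter.1 (mem_filter.1 hc).1).1).2.1.2.2.1
      rw [(hx _).1, (hx _).2.2, abs_mul, abs_mul, abs_of_pos he] at h1
      exact le_of_mul_le_mul_left h1 he
    · obtain ⟨hc1, -, -, -, -, -, s4⟩ := mem_filter.1 (mem_filter.1 hc).1
      have h1 := (mem_filter.1 hc1).2.2
      rw [s4]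
      have hw2 : (1 : ℤ) ≤ w := by exact_mod_cast hw1
      have h2 : W * d' * z2 ≤ d' * (2 * W * U3) := by
        have := mul_le_mul_of_nonneg_left z2l (show (0 : ℤ) ≤ W * d' by positivity)
        linarith
      refine h2.trans (mul_le_mul ?_ h1 (by positivity) (by positivity))
      push_cast
      nlinarith
    · obtain ⟨hc1, -, -, -, -, -, s4⟩ := mem_filter.1 (mem_filter.1 hc).1
      have h1 : (0 : ℝ) < (prim (cross (lift W by' c) Z)).2.2 := by exact_mod_cast hH c hc1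
      have hwR : (0 : ℝ) < w := by exact_mod_cast hw1
      rw [← Int.cast_abs, s4]
      simp only [hf]
      push_cast
      field_simp
    · have h1 : (U3 : ℝ) ≤ gcd3 Z * z2 := by
        have := hZ.2.1.1
        rw [hz2] at this
        exact_mod_cast this
      have h2 : (w : ℝ) ≤ ell W by' Z := by exact_mod_cast hwl
      have h3 : (w : ℝ) * U3 ≤ ell W by' Z * (gcd3 Z * z2) :=
        mul_le_mul h2 h1 hUR.le (by positivity)
      have e1 : (2 * (L2 : ℝ) / d') ^ 2 * (3 * ((w * d' : ℕ) : ℝ) / (W * d' * Z'.2.1)) =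
          12 * L2 ^ 2 / (W * U3 * d' ^ 2 * z2) * (w * U3) := by
        simp only [hZ']; push_cast; field_simp; ring
      have e2 : 12 * (ell W by' Z : ℝ) * gcd3 Z * (L2 : ℝ) ^ 2 / (W * U3) * (1 / d') / d' =
          12 * L2 ^ 2 / (W * U3 * d' ^ 2 * z2) * (ell W by' Z * (gcd3 Z * z2)) := by
        field_simp
      rw [e1, e2]
      exact mul_le_mul_of_nonneg_left h3 (by positivity)
  refine (sum_le_sum key).trans (le_of_eq ?_)
  rw [sum_product]
  simp only [← mul_sum, sum_const, nsmul_eq_mul, Har]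
  ring

end Crest.Agent.R32
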